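import Mathlib

/-!
# Row 64 (S0086): the parameters.  `m` large, `m^20 ≤ k < (m+1)^20`.
-/

set_option autoImplicit false

namespace Crest.Agent.VDW

def pD (m : ℕ) : ℕ := m ^ 5 + 1
def pE (m : ℕ) : ℕ := m ^ 7
def pW₀ (m : ℕ) : ℕ := (m ^ 7).factorial
def pH (m : ℕ) : ℕ := 2 ^ (m ^ 14)
def pW (m : ℕ) : ℕ := pW₀ m * pH m
def pS (m k : ℕ) : ℕ := k / (100000 * m ^ 5) + 1
def pQ (m k : ℕ) : ℕ := k ^ pS m k
def plam (m k : ℕ) : ℕ := 64000 * 100 ^ (pD m) * (pQ m k * pH m) ^ 2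
def pT (m : ℕ) : ℕ := m ^ 2
def pR (m k : ℕ) : ℕ := (4 * pQ m k * pW m) * (2 * plam m k * 100 ^ ((pD m + 3) ^ 2))

end Crest.Agent.VDW
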