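import Mathlib
import Crest.Agent.VDW.PDefs

/-! Row 64, chunk R64-P1: parameters, easy inequalities -/

set_option autoImplicit false

namespace Crest.Agent.VDW

theorem p1_log (m : ℕ) (hm : 10 ^ 9 ≤ m) : Real.log ((m : ℝ) + 1) ≤ (m : ℝ) / 10000 := by
  have hm' : (10 : ℝ) ^ 9 ≤ (m : ℝ) := by exact_mod_cast hm
  have hpos : (0 : ℝ) < (m : ℝ) + 1 := by linarith [show (0 : ℝ) < 10 ^ 9 by norm_num]
  have h1 : Real.log ((m : ℝ) + 1) = 2 * Real.log (Real.sqrt ((m : ℝ) + 1)) := by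
    rw [Real.log_sqrt hpos.le]; ring
  have h2 : Real.log (Real.sqrt ((m : ℝ) + 1)) ≤ Real.sqrt ((m : ℝ) + 1) - 1 :=
    Real.log_le_sub_one_of_pos (Real.sqrt_pos.2 hpos)
  have h3 : Real.sqrt ((m : ℝ) + 1) ≤ (m : ℝ) / 20000 := by
    rw [Real.sqrt_le_left (by positivity)]
    nlinarith
  rw [h1]
  linarith

theorem p1_logk (m k : ℕ) (hm : 10 ^ 9 ≤ m) (hk : m ^ 20 ≤ k) (hk' : k < (m + 1) ^ 20) :
    Real.log (k : ℝ) ≤ (m : ℝ) / 500 := by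
  have hkpos : (0 : ℝ) < (k : ℝ) := by
    have : 0 < m ^ 20 := by positivity
    exact_mod_cast lt_of_lt_of_le this hk
  have h1 : (k : ℝ) ≤ ((m : ℝ) + 1) ^ 20 := by
    have := hk'.le
    exact_mod_cast this
  have h2 : Real.log (k : ℝ) ≤ Real.log (((m : ℝ) + 1) ^ 20) := Real.log_le_log hkpos h1
  rw [Real.log_pow] at h2
  have := p1_log m hm
  push_cast at h2
  linarith

theorem p1_log64 : Real.log 64 ≤ 5 := by
  have h : Real.log 64 = 6 * Real.log 2 := by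
    rw [show (64 : ℝ) = 2 ^ 6 by norm_num, Real.log_pow]; norm_num
  rw [h]
  linarith [Real.log_two_lt_d9]

theorem p1_log100 : Real.log 100 ≤ 5 := by
  have h : Real.log 100 ≤ Real.log 128 := Real.log_le_log (by norm_num) (by norm_num)
  have h' : Real.log 128 = 7 * Real.log 2 := by
    rw [show (128 : ℝ) = 2 ^ 7 by norm_num, Real.log_pow]; norm_num
  rw [h'] at h
  linarith [Real.log_two_lt_d9]

/-- logarithm of the basic product -/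
theorem p1_logprod (A B : ℝ) (hA : 0 < A) (hB : 0 < B) (d : ℕ) (x : ℝ)
    (h : (d : ℝ) * Real.log A + Real.log B ≤ x) : A ^ d * B ≤ Real.exp x := by
  have hpos : 0 < A ^ d * B := by positivity
  rw [← Real.log_le_iff_le_exp hpos, Real.log_mul (by positivity) (by positivity), Real.log_pow]
  exact h

theorem p1_logfac (n : ℕ) (hn : 1 ≤ n) : Real.log ((n.factorial : ℕ) : ℝ) ≤ (n : ℝ) * Real.log (n : ℝ) := by
  have h : ((n.factorial : ℕ) : ℝ) ≤ (n : ℝ) ^ n := by exact_mod_cast Nat.factorial_le_pow n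
  have h0 : (0 : ℝ) < ((n.factorial : ℕ) : ℝ) := by exact_mod_cast Nat.factorial_pos n
  calc Real.log ((n.factorial : ℕ) : ℝ) ≤ Real.log ((n : ℝ) ^ n) := Real.log_le_log h0 h
    _ = (n : ℝ) * Real.log (n : ℝ) := Real.log_pow _ _

theorem p1_logW (m : ℕ) (hm : 10 ^ 9 ≤ m) : Real.log (pW m : ℝ) ≤ 2 * (m : ℝ) ^ 14 := by
  have hm' : (10 : ℝ) ^ 9 ≤ (m : ℝ) := by exact_mod_cast hm
  have hm0 : (0 : ℝ) < (m : ℝ) := by linarith [show (0 : ℝ) < 10 ^ 9 by norm_num]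
  have hm1 : (1 : ℝ) ≤ (m : ℝ) := by linarith [show (1 : ℝ) ≤ 10 ^ 9 by norm_num]
  have h0 : (0 : ℝ) < ((pW₀ m : ℕ) : ℝ) := by
    unfold pW₀; exact_mod_cast Nat.factorial_pos _
  have h1 : (0 : ℝ) < ((pH m : ℕ) : ℝ) := by
    unfold pH; positivity
  have hW : (pW m : ℝ) = (pW₀ m : ℝ) * (pH m : ℝ) := by
    unfold pW; push_cast; ring
  rw [hW, Real.log_mul h0.ne' h1.ne']
  have h2 : Real.log (pW₀ m : ℝ) ≤ (m : ℝ) ^ 14 := by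
    unfold pW₀
    have h3 := p1_logfac (m ^ 7) (Nat.one_le_pow _ _ (by omega))
    have h4 : Real.log ((m ^ 7 : ℕ) : ℝ) ≤ (m : ℝ) ^ 7 := by
      have h5 : (0 : ℝ) < ((m ^ 7 : ℕ) : ℝ) := by positivity
      have h6 := Real.log_le_sub_one_of_pos h5
      push_cast at h6 ⊢
      linarith
    calc Real.log (((m ^ 7).factorial : ℕ) : ℝ) ≤ ((m ^ 7 : ℕ) : ℝ) * Real.log ((m ^ 7 : ℕ) : ℝ) := h3
      _ ≤ ((m ^ 7 : ℕ) : ℝ) * (m : ℝ) ^ 7 := by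
          apply mul_le_mul_of_nonneg_left h4 (by positivity)
      _ = (m : ℝ) ^ 14 := by push_cast; ring
  have h3 : Real.log (pH m : ℝ) ≤ (m : ℝ) ^ 14 := by
    unfold pH
    push_cast
    rw [Real.log_pow]
    push_cast
    have : Real.log 2 ≤ 1 := by linarith [Real.log_two_lt_d9]
    have h14 : (0 : ℝ) ≤ (m : ℝ) ^ 14 := by positivity
    nlinarith
  linarith

theorem p1_S (m k : ℕ) (hm : 1 ≤ m) : k < pS m k * (100000 * m ^ 5) := by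
  unfold pS
  have : 0 < 100000 * m ^ 5 := by positivity
  rw [mul_comm]
  exact Nat.lt_mul_div_succ k this

theorem p1_4 (m k : ℕ) (hm : 10 ^ 9 ≤ m) (hk' : k < (m + 1) ^ 20) : (k + 1) ^ 2 ≤ pW m := by
  have h1 : k + 1 ≤ (m + 1) ^ 20 := hk'
  have h2 : m + 1 ≤ 2 ^ m := Nat.lt_two_pow_self
  have h3 : (k + 1) ^ 2 ≤ ((2 ^ m) ^ 20) ^ 2 := by
    apply Nat.pow_le_pow_left
    exact h1.trans (Nat.pow_le_pow_left h2 20)
  have h4 : ((2 ^ m) ^ 20) ^ 2 = 2 ^ (m * 20 * 2) := by rw [← pow_mul, ← pow_mul, mul_assoc]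
  have h5 : m * 20 * 2 ≤ m ^ 14 := by
    have h13 : 40 ≤ m ^ 13 := by
      calc 40 ≤ m := by omega
        _ ≤ m ^ 13 := Nat.le_self_pow (by norm_num) m
    calc m * 20 * 2 = m * 40 := by ring
      _ ≤ m * m ^ 13 := Nat.mul_le_mul_left m h13
      _ = m ^ 14 := by ring
  have h6 : 2 ^ (m * 20 * 2) ≤ 2 ^ (m ^ 14) := Nat.pow_le_pow_right (by norm_num) h5
  have h7 : 2 ^ (m ^ 14) ≤ pW m := by
    unfold pW pH
    exact Nat.le_mul_of_pos_left _ (Nat.factorial_pos _)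
  calc (k + 1) ^ 2 ≤ ((2 ^ m) ^ 20) ^ 2 := h3
    _ = 2 ^ (m * 20 * 2) := h4
    _ ≤ 2 ^ (m ^ 14) := h6
    _ ≤ pW m := h7

theorem p1_5 (m k : ℕ) (hm : 10 ^ 9 ≤ m) (hk : m ^ 20 ≤ k) : 2 * pW₀ m ≤ pQ m k := by
  have hm1 : 1 ≤ m := by omega
  have hS := p1_S m k hm1
  have h20 : 7 * m ^ 7 + 1 ≤ 20 * pS m k := by
    by_contra hcon
    have hcon' : 20 * pS m k ≤ 7 * m ^ 7 := by omega
    have h1 : 20 * m ^ 20 ≤ 700000 * m ^ 12 := by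
      calc 20 * m ^ 20 ≤ 20 * k := by omega
        _ ≤ 20 * (pS m k * (100000 * m ^ 5)) := by omega
        _ = (20 * pS m k) * (100000 * m ^ 5) := by ring
        _ ≤ (7 * m ^ 7) * (100000 * m ^ 5) := Nat.mul_le_mul_right _ hcon'
        _ = 700000 * m ^ 12 := by ring
    have h2 : 700000 * m ^ 12 < 20 * m ^ 20 := by
      have h8 : 35000 < m ^ 8 := by
        calc 35000 < m := by omega
          _ ≤ m ^ 8 := Nat.le_self_pow (by norm_num) m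
      have h12 : 0 < m ^ 12 := by positivity
      calc 700000 * m ^ 12 = 20 * (m ^ 12 * 35000) := by ring
        _ < 20 * (m ^ 12 * m ^ 8) := by
            apply Nat.mul_lt_mul_of_pos_left _ (by norm_num)
            exact Nat.mul_lt_mul_of_pos_left h8 h12
        _ = 20 * m ^ 20 := by ring
    omega
  have h1 : 2 * pW₀ m ≤ m ^ (7 * m ^ 7 + 1) := by
    unfold pW₀
    have h2 : (m ^ 7).factorial ≤ (m ^ 7) ^ (m ^ 7) := Nat.factorial_le_pow _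
    calc 2 * (m ^ 7).factorial ≤ m * (m ^ 7) ^ (m ^ 7) := Nat.mul_le_mul (by omega) h2
      _ = m ^ (7 * m ^ 7 + 1) := by rw [← pow_mul, ← pow_succ']
  calc 2 * pW₀ m ≤ m ^ (7 * m ^ 7 + 1) := h1
    _ ≤ m ^ (20 * pS m k) := Nat.pow_le_pow_right hm1 h20
    _ = (m ^ 20) ^ pS m k := by rw [pow_mul]
    _ ≤ k ^ pS m k := Nat.pow_le_pow_left hk _
    _ = pQ m k := rfl

/-- the common bound for the logarithms -/
theorem p1_core (m k : ℕ) (hm : 10 ^ 9 ≤ m) (hk : m ^ 20 ≤ k) (hk' : k < (m + 1) ^ 20) :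
    ((pD m : ℕ) : ℝ) * Real.log (64 * (k : ℝ) ^ 5) + Real.log (100 * (k : ℝ) ^ 4) ≤ (m : ℝ) ^ 6 / 50 := by
  have hm' : (10 : ℝ) ^ 9 ≤ (m : ℝ) := by exact_mod_cast hm
  have hm0 : (0 : ℝ) < (m : ℝ) := by linarith [show (0 : ℝ) < 10 ^ 9 by norm_num]
  have hkpos : (0 : ℝ) < (k : ℝ) := by
    have : 0 < m ^ 20 := by positivity
    exact_mod_cast lt_of_lt_of_le this hk
  have hL := p1_logk m k hm hk hk'
  have hL0 : 0 ≤ Real.log (k : ℝ) := Real.log_natCast_nonneg k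
  have hk4 : (0 : ℝ) < (k : ℝ) ^ 4 := pow_pos hkpos 4
  have hk5 : (0 : ℝ) < (k : ℝ) ^ 5 := pow_pos hkpos 5
  rw [Real.log_mul (by norm_num) hk5.ne', Real.log_pow, Real.log_mul (by norm_num) hk4.ne',
    Real.log_pow]
  have h64 := p1_log64
  have h100 := p1_log100
  unfold pD
  push_cast
  have e1 : Real.log 64 + 5 * Real.log (k : ℝ) ≤ (m : ℝ) / 90 := by
    have : (5 : ℝ) ≤ (m : ℝ) / 900 := by
      rw [le_div_iff₀ (by norm_num)]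
      linarith [show (4500 : ℝ) ≤ 10 ^ 9 by norm_num]
    linarith
  have e2 : Real.log 100 + 4 * Real.log (k : ℝ) ≤ (m : ℝ) / 90 := by
    have : (5 : ℝ) ≤ (m : ℝ) / 900 := by
      rw [le_div_iff₀ (by norm_num)]
      linarith [show (4500 : ℝ) ≤ 10 ^ 9 by norm_num]
    linarith
  have e3 : ((m : ℝ) ^ 5 + 1) * (Real.log 64 + 5 * Real.log (k : ℝ)) ≤ ((m : ℝ) ^ 5 + 1) * ((m : ℝ) / 90) :=
    mul_le_mul_of_nonneg_left e1 (by positivity)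
  have e4 : (m : ℝ) ≤ (m : ℝ) ^ 6 := le_self_pow₀ (by linarith [show (1 : ℝ) ≤ 10 ^ 9 by norm_num]) (by norm_num)
  have e5 : 1000 * (m : ℝ) ≤ (m : ℝ) ^ 6 := by
    have h5 : (1000 : ℝ) ≤ (m : ℝ) ^ 5 := by
      calc (1000 : ℝ) ≤ (m : ℝ) := by linarith [show (1000 : ℝ) ≤ 10 ^ 9 by norm_num]
        _ ≤ (m : ℝ) ^ 5 := le_self_pow₀ (by linarith [show (1 : ℝ) ≤ 10 ^ 9 by norm_num]) (by norm_num)
    calc 1000 * (m : ℝ) ≤ (m : ℝ) ^ 5 * m := mul_le_mul_of_nonneg_right h5 hm0.le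
      _ = (m : ℝ) ^ 6 := by ring
  have e6 : ((m : ℝ) ^ 5 + 1) * ((m : ℝ) / 90) = (m : ℝ) ^ 6 / 90 + (m : ℝ) / 90 := by ring
  linarith

theorem p1_9 (m k : ℕ) (hm : 10 ^ 9 ≤ m) (hk' : k < (m + 1) ^ 20) :
    4000 * 100 ^ (pD m + 3 * (pD m + 3) ^ 2) * k ^ 3 ≤ pH m := by
  have hm1 : 1 ≤ m := by omega
  have h2 : m + 1 ≤ 2 ^ m := Nat.lt_two_pow_self
  have hk2 : k ^ 3 ≤ 2 ^ (60 * m) := by
    calc k ^ 3 ≤ ((2 ^ m) ^ 20) ^ 3 := Nat.pow_le_pow_left (hk'.le.trans (Nat.pow_le_pow_left h2 20)) 3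
      _ = 2 ^ (60 * m) := by rw [← pow_mul, ← pow_mul]; congr 1; ring
  have h100 : 100 ^ (pD m + 3 * (pD m + 3) ^ 2) ≤ 2 ^ (7 * (pD m + 3 * (pD m + 3) ^ 2)) := by
    rw [pow_mul]
    exact Nat.pow_le_pow_left (by norm_num) _
  have hexp : 12 + 7 * (pD m + 3 * (pD m + 3) ^ 2) + 60 * m ≤ m ^ 14 := by
    unfold pD
    have a5 : 1 ≤ m ^ 5 := Nat.one_le_pow _ _ hm1
    have a1 : m ≤ m ^ 10 := Nat.le_self_pow (by norm_num) m
    have a55 : m ^ 5 ≤ m ^ 10 := Nat.pow_le_pow_right hm1 (by norm_num)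
    have a10 : 1 ≤ m ^ 10 := Nat.one_le_pow _ _ hm1
    have b1 : (m ^ 5 + 1 + 3) ^ 2 ≤ 25 * m ^ 10 := by
      calc (m ^ 5 + 1 + 3) ^ 2 ≤ (5 * m ^ 5) ^ 2 := Nat.pow_le_pow_left (by omega) 2
        _ = 25 * m ^ 10 := by ring
    have c1 : 12 + 7 * (m ^ 5 + 1 + 3 * (m ^ 5 + 1 + 3) ^ 2) + 60 * m ≤ 1000 * m ^ 10 := by
      calc 12 + 7 * (m ^ 5 + 1 + 3 * (m ^ 5 + 1 + 3) ^ 2) + 60 * m
          ≤ 12 + 7 * (m ^ 5 + 1 + 3 * (25 * m ^ 10)) + 60 * m := by gcongr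
        _ ≤ 1000 * m ^ 10 := by omega
    have d1 : 1000 ≤ m ^ 4 := by
      calc 1000 ≤ m := by omega
        _ ≤ m ^ 4 := Nat.le_self_pow (by norm_num) m
    calc _ ≤ 1000 * m ^ 10 := c1
      _ ≤ m ^ 4 * m ^ 10 := Nat.mul_le_mul_right _ d1
      _ = m ^ 14 := by ring
  calc 4000 * 100 ^ (pD m + 3 * (pD m + 3) ^ 2) * k ^ 3
      ≤ 2 ^ 12 * 2 ^ (7 * (pD m + 3 * (pD m + 3) ^ 2)) * 2 ^ (60 * m) := by
        gcongr
        norm_num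
    _ = 2 ^ (12 + 7 * (pD m + 3 * (pD m + 3) ^ 2) + 60 * m) := by rw [pow_add, pow_add]
    _ ≤ 2 ^ (m ^ 14) := Nat.pow_le_pow_right (by norm_num) hexp
    _ = pH m := rfl

theorem p1_7 (m k : ℕ) (hm : 10 ^ 9 ≤ m) (hkpos : (0 : ℝ) < (k : ℝ)) (hkm : (m : ℝ) ^ 20 ≤ (k : ℝ))
    (hL : Real.log (k : ℝ) ≤ (m : ℝ) / 500) (W : ℝ) (hWpos : 0 < W) (hW : Real.log W ≤ 2 * (m : ℝ) ^ 14) :
    (64 * W * (k : ℝ) ^ 4) ^ (pD m) * (100 * (k : ℝ) ^ 4) ≤ Real.exp (0.1 * k - 1) := by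
  have hm' : (10 : ℝ) ^ 9 ≤ (m : ℝ) := by exact_mod_cast hm
  have hm0 : (0 : ℝ) < (m : ℝ) := by linarith [show (0 : ℝ) < 10 ^ 9 by norm_num]
  have hm1' : (1 : ℝ) ≤ (m : ℝ) := by linarith [show (1 : ℝ) ≤ 10 ^ 9 by norm_num]
  have hk4 : (0 : ℝ) < (k : ℝ) ^ 4 := pow_pos hkpos 4
  apply p1_logprod _ _ (mul_pos (mul_pos (by norm_num) hWpos) hk4) (mul_pos (by norm_num) hk4)
  rw [Real.log_mul (mul_pos (by norm_num) hWpos).ne' hk4.ne', Real.log_mul (by norm_num) hWpos.ne', Real.log_pow,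
    Real.log_mul (by norm_num) hk4.ne', Real.log_pow]
  have h64 := p1_log64
  have h100 := p1_log100
  have e0 : (0 : ℝ) ≤ (m : ℝ) ^ 14 := by positivity
  have e14 : (m : ℝ) ≤ (m : ℝ) ^ 14 := le_self_pow₀ hm1' (by norm_num)
  have e1 : Real.log 64 + Real.log W + ((4 : ℕ) : ℝ) * Real.log (k : ℝ) ≤ 3 * (m : ℝ) ^ 14 := by
    push_cast
    have : (5 : ℝ) ≤ (m : ℝ) / 2 := by
      linarith [show (10 : ℝ) ≤ 10 ^ 9 by norm_num]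
    linarith
  have e2 : Real.log 100 + ((4 : ℕ) : ℝ) * Real.log (k : ℝ) ≤ (m : ℝ) ^ 14 := by
    push_cast
    have : (5 : ℝ) ≤ (m : ℝ) / 2 := by
      linarith [show (10 : ℝ) ≤ 10 ^ 9 by norm_num]
    linarith
  have e4 : ((pD m : ℕ) : ℝ) = (m : ℝ) ^ 5 + 1 := by unfold pD; push_cast; ring
  have e3 : ((m : ℝ) ^ 5 + 1) * (Real.log 64 + Real.log W + ((4 : ℕ) : ℝ) * Real.log (k : ℝ)) ≤
      ((m : ℝ) ^ 5 + 1) * (3 * (m : ℝ) ^ 14) := mul_le_mul_of_nonneg_left e1 (by positivity)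
  have e5 : (m : ℝ) ^ 14 ≤ (m : ℝ) ^ 19 := pow_le_pow_right₀ hm1' (by norm_num)
  have e6 : ((m : ℝ) ^ 5 + 1) * (3 * (m : ℝ) ^ 14) = 3 * (m : ℝ) ^ 19 + 3 * (m : ℝ) ^ 14 := by ring
  have e7 : 1000 * (m : ℝ) ^ 19 ≤ (m : ℝ) ^ 20 := by
    calc 1000 * (m : ℝ) ^ 19 ≤ (m : ℝ) * (m : ℝ) ^ 19 := by
          apply mul_le_mul_of_nonneg_right _ (by positivity)
          linarith [show (1000 : ℝ) ≤ 10 ^ 9 by norm_num]
      _ = (m : ℝ) ^ 20 := by ring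
  have e8 : (1 : ℝ) ≤ (m : ℝ) ^ 19 := one_le_pow₀ hm1'
  rw [e6] at e3
  rw [e4]
  refine (add_le_add e3 e2).trans ?_
  linarith

/-! R64-P1 -/
theorem param1 : ∃ m₀ : ℕ, ∀ m : ℕ, m₀ ≤ m → ∀ k : ℕ, m ^ 20 ≤ k → k < (m + 1) ^ 20 →
    2 ≤ m ∧ 100 ≤ k ∧ 4 * pE m ≤ k ∧ (k + 1) ^ 2 ≤ pW m ∧ 2 * pW₀ m ≤ pQ m k ∧
    (∀ q : ℕ, pE m ≤ q → (64 * (k : ℝ) ^ 5) ^ (pD m) * (100 * (k : ℝ) ^ 4) ≤ Real.exp (0.4 * q)) ∧
    (64 * (pW m : ℝ) * (k : ℝ) ^ 4) ^ (pD m) * (100 * (k : ℝ) ^ 4) ≤ Real.exp (0.1 * k - 1) ∧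
    (100 * (k : ℝ) ^ 4) * ((64 * k ^ 5) ^ (pD m) : ℕ) ≤ Real.exp ((1 / (m : ℝ)) * pE m / 40) ∧
    4000 * 100 ^ (pD m + 3 * (pD m + 3) ^ 2) * k ^ 3 ≤ pH m ∧
    (k : ℝ) ^ ((k : ℝ) / 100000) ≤ (pQ m k : ℝ) ^ (m ^ 5) := by
  refine ⟨10 ^ 9, fun m hm k hk hk' => ?_⟩
  have hm1 : 1 ≤ m := by omega
  have hm' : (10 : ℝ) ^ 9 ≤ (m : ℝ) := by exact_mod_cast hm
  have hm0 : (0 : ℝ) < (m : ℝ) := by linarith [show (0 : ℝ) < 10 ^ 9 by norm_num]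
  have hm1' : (1 : ℝ) ≤ (m : ℝ) := by linarith [show (1 : ℝ) ≤ 10 ^ 9 by norm_num]
  have hkpos : (0 : ℝ) < (k : ℝ) := by
    have : 0 < m ^ 20 := by positivity
    exact_mod_cast lt_of_lt_of_le this hk
  have hkm : (m : ℝ) ^ 20 ≤ (k : ℝ) := by exact_mod_cast hk
  have hcore := p1_core m k hm hk hk'
  have hL := p1_logk m k hm hk hk'
  have hL0 : 0 ≤ Real.log (k : ℝ) := Real.log_natCast_nonneg k
  refine ⟨by omega, ?_, ?_, p1_4 m k hm hk', p1_5 m k hm hk, ?_, ?_, ?_, p1_9 m k hm hk', ?_⟩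
  · calc 100 ≤ m := by omega
      _ ≤ m ^ 20 := Nat.le_self_pow (by norm_num) m
      _ ≤ k := hk
  · unfold pE
    have h13 : 4 ≤ m ^ 13 := by
      calc 4 ≤ m := by omega
        _ ≤ m ^ 13 := Nat.le_self_pow (by norm_num) m
    calc 4 * m ^ 7 ≤ m ^ 13 * m ^ 7 := Nat.mul_le_mul_right _ h13
      _ = m ^ 20 := by ring
      _ ≤ k := hk
  · intro q hq
    have hk4 : (0 : ℝ) < (k : ℝ) ^ 4 := pow_pos hkpos 4
    have hk5 : (0 : ℝ) < (k : ℝ) ^ 5 := pow_pos hkpos 5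
    refine p1_logprod (64 * (k : ℝ) ^ 5) (100 * (k : ℝ) ^ 4) (mul_pos (by norm_num) hk5)
      (mul_pos (by norm_num) hk4) (pD m) _ (hcore.trans ?_)
    have hq' : (m : ℝ) ^ 7 ≤ (q : ℝ) := by
      unfold pE at hq
      exact_mod_cast hq
    have h67 : (m : ℝ) ^ 6 ≤ (m : ℝ) ^ 7 := pow_le_pow_right₀ hm1' (by norm_num)
    have h6 : (0 : ℝ) ≤ (m : ℝ) ^ 6 := by positivity
    linarith
  · have hWpos : (0 : ℝ) < (pW m : ℝ) := by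
      have h1 : 0 < pW m := Nat.mul_pos (Nat.factorial_pos _) (Nat.pow_pos (by norm_num))
      exact Nat.cast_pos.2 h1
    exact p1_7 m k hm hkpos hkm hL (pW m : ℝ) hWpos (p1_logW m hm)
  · have hc : (((64 * k ^ 5) ^ (pD m) : ℕ) : ℝ) = (64 * (k : ℝ) ^ 5) ^ (pD m) := by push_cast; ring
    rw [hc, mul_comm (100 * (k : ℝ) ^ 4)]
    have hk4 : (0 : ℝ) < (k : ℝ) ^ 4 := pow_pos hkpos 4
    have hk5 : (0 : ℝ) < (k : ℝ) ^ 5 := pow_pos hkpos 5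
    refine p1_logprod (64 * (k : ℝ) ^ 5) (100 * (k : ℝ) ^ 4) (mul_pos (by norm_num) hk5)
      (mul_pos (by norm_num) hk4) (pD m) _ (hcore.trans ?_)
    have hx : (1 / (m : ℝ)) * ((pE m : ℕ) : ℝ) / 40 = (m : ℝ) ^ 6 / 40 := by
      unfold pE
      push_cast
      field_simp
    rw [hx]
    have h6 : (0 : ℝ) ≤ (m : ℝ) ^ 6 := by positivity
    linarith
  · have hQ : ((pQ m k : ℕ) : ℝ) ^ (m ^ 5) = (k : ℝ) ^ (((pS m k * m ^ 5 : ℕ) : ℕ) : ℝ) := by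
      rw [Real.rpow_natCast]
      unfold pQ
      push_cast
      rw [← pow_mul]
    rw [hQ]
    have hk1 : (1 : ℝ) ≤ (k : ℝ) := by
      have : 1 ≤ k := (Nat.one_le_pow _ _ hm1).trans hk
      exact_mod_cast this
    apply Real.rpow_le_rpow_of_exponent_le hk1
    have hS := (p1_S m k hm1).le
    have hS' : (k : ℝ) ≤ ((pS m k * (100000 * m ^ 5) : ℕ) : ℝ) := by exact_mod_cast hS
    push_cast at hS' ⊢
    rw [div_le_iff₀ (by norm_num)]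
    linarith

end Crest.Agent.VDW
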