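import Mathlib
import Crest.Agent.VDW.PDefs

/-!
# Row 64, chunk R64-P2: parameter inequalities
-/

set_option autoImplicit false

namespace Crest.Agent.VDW

open Filter

theorem p2_log_small : ∃ m₀ : ℕ, ∀ m : ℕ, m₀ ≤ m → 10000 ≤ m ∧ Real.log m ≤ (m : ℝ) / 10000 := by
  have h1 := Real.isLittleO_log_id_atTop.def (c := 1 / 10000) (by norm_num)
  have h2 := tendsto_natCast_atTop_atTop (R := ℝ) |>.eventually h1
  have h3 : ∀ᶠ m : ℕ in atTop, 10000 ≤ m ∧ Real.log m ≤ (m : ℝ) / 10000 := by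
    filter_upwards [h2, eventually_ge_atTop 10000] with m hm h4
    refine ⟨h4, ?_⟩
    simp only [id, Real.norm_eq_abs, Nat.abs_cast] at hm
    have := le_trans (le_abs_self _) hm
    linarith
  obtain ⟨m₀, hm₀⟩ := eventually_atTop.1 h3
  exact ⟨m₀, hm₀⟩

theorem p2_pQ_pos (m k : ℕ) (hk : 1 ≤ k) : (0 : ℝ) < pQ m k := by
  have h : 0 < pQ m k := by
    unfold pQ
    exact Nat.pow_pos (by omega)
  exact_mod_cast h

theorem p2_pH_pos (m : ℕ) : (0 : ℝ) < pH m := by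
  have h : 0 < pH m := by
    unfold pH
    exact Nat.pow_pos (by norm_num)
  exact_mod_cast h

theorem p2_log_pH (m : ℕ) : Real.log (pH m) = (m : ℝ) ^ 14 * Real.log 2 := by
  have h : (pH m : ℝ) = (2 : ℝ) ^ (m ^ 14) := by
    unfold pH
    rw [Nat.cast_pow, Nat.cast_ofNat]
  rw [h, Real.log_pow, Nat.cast_pow]

theorem p2_log_pQ (m k : ℕ) : Real.log (pQ m k) = pS m k * Real.log k := by
  have h : (pQ m k : ℝ) = (k : ℝ) ^ (pS m k) := by
    unfold pQ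
    rw [Nat.cast_pow]
  rw [h, Real.log_pow]

theorem p2_l1 (D : ℕ) (q h : ℝ) (hq : 0 < q) (hh : 0 < h) :
    Real.log (64000 * 100 ^ D * (q * h) ^ 2) =
      Real.log 64000 + D * Real.log 100 + 2 * (Real.log q + Real.log h) := by
  have h1 : (0 : ℝ) < 100 ^ D := pow_pos (by norm_num) D
  rw [Real.log_mul (mul_pos (by norm_num) h1).ne' (pow_pos (mul_pos hq hh) 2).ne',
    Real.log_mul (by norm_num) h1.ne', Real.log_pow, Real.log_pow, Real.log_mul hq.ne' hh.ne']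
  norm_num

theorem p2_l2 (L k : ℝ) (a b : ℕ) (hL : 0 < L) (hk : 0 < k) :
    Real.log (8 * L * (100 ^ a * k) ^ b) =
      Real.log 8 + Real.log L + b * (a * Real.log 100 + Real.log k) := by
  have h1 : (0 : ℝ) < 100 ^ a := pow_pos (by norm_num) a
  rw [Real.log_mul (mul_pos (by norm_num) hL).ne' (pow_pos (mul_pos h1 hk) b).ne',
    Real.log_mul (by norm_num) hL.ne', Real.log_pow, Real.log_mul h1.ne' hk.ne', Real.log_pow]

theorem p2_l3 (k E L : ℝ) (D T : ℕ) (hk : 0 < k) (hE : 0 < E) (hL : 0 < L) :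
    Real.log (100 * k ^ 4 * (E * (64 * k ^ 5) ^ D) * (200 * L * ((T : ℝ) + 1) * k ^ T) ^ (2 * (T + 1))) =
      Real.log 100 + 4 * Real.log k + (Real.log E + D * (Real.log 64 + 5 * Real.log k)) +
        2 * ((T : ℝ) + 1) * (Real.log 200 + Real.log L + Real.log ((T : ℝ) + 1) + T * Real.log k) := by
  have hT : (0 : ℝ) < (T : ℝ) + 1 := by positivity
  have h5 : (0 : ℝ) < 64 * k ^ 5 := by positivity
  have h5' : (0 : ℝ) < (64 * k ^ 5) ^ D := pow_pos h5 D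
  have hkT : (0 : ℝ) < k ^ T := pow_pos hk T
  have h6 : (0 : ℝ) < 200 * L * ((T : ℝ) + 1) * k ^ T := by positivity
  have h6' : (0 : ℝ) < (200 * L * ((T : ℝ) + 1) * k ^ T) ^ (2 * (T + 1)) := pow_pos h6 _
  have h7 : (0 : ℝ) < 100 * k ^ 4 := by positivity
  have h8 : (0 : ℝ) < E * (64 * k ^ 5) ^ D := mul_pos hE h5'
  rw [Real.log_mul (mul_pos h7 h8).ne' h6'.ne', Real.log_mul h7.ne' h8.ne',
    Real.log_mul (by norm_num) (pow_pos hk 4).ne', Real.log_mul hE.ne' h5'.ne',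
    Real.log_pow, Real.log_pow, Real.log_pow, Real.log_mul (by norm_num) (pow_pos hk 5).ne',
    Real.log_pow, Real.log_mul (by positivity) hkT.ne',
    Real.log_mul (by positivity) hT.ne', Real.log_mul (by norm_num) hL.ne',
    Real.log_pow]
  push_cast
  ring

theorem p2_log100 : Real.log 100 ≤ 5 := by
  have h1 : Real.log 100 ≤ Real.log (2 ^ 7) := Real.log_le_log (by norm_num) (by norm_num)
  rw [Real.log_pow] at h1
  have := Real.log_two_lt_d9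
  push_cast at h1
  linarith

theorem p2_log200 : Real.log 200 ≤ 6 := by
  have h1 : Real.log 200 ≤ Real.log (2 ^ 8) := Real.log_le_log (by norm_num) (by norm_num)
  rw [Real.log_pow] at h1
  have := Real.log_two_lt_d9
  push_cast at h1
  linarith

theorem p2_log64000 : Real.log 64000 ≤ 12 := by
  have h1 : Real.log 64000 ≤ Real.log (2 ^ 16) := Real.log_le_log (by norm_num) (by norm_num)
  rw [Real.log_pow] at h1
  have := Real.log_two_lt_d9
  push_cast at h1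
  linarith

theorem p2_log8 : Real.log 8 ≤ 2.1 := by
  rw [show (8 : ℝ) = 2 ^ 3 by norm_num, Real.log_pow]
  have := Real.log_two_lt_d9
  push_cast
  linarith

theorem p2_log64 : Real.log 64 ≤ 4.2 := by
  rw [show (64 : ℝ) = 2 ^ 6 by norm_num, Real.log_pow]
  have := Real.log_two_lt_d9
  push_cast
  linarith

theorem p2_logk (m k : ℕ) (hm : 10000 ≤ m) (hl : Real.log m ≤ (m : ℝ) / 10000)
    (hk1 : m ^ 20 ≤ k) (hk2 : k < (m + 1) ^ 20) :
    1 ≤ k ∧ 0 ≤ Real.log k ∧ Real.log k ≤ (m : ℝ) / 250 := by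
  have hx : (10000 : ℝ) ≤ m := by exact_mod_cast hm
  have hm0 : 0 < m := by omega
  have hmR : (0 : ℝ) < m := by exact_mod_cast hm0
  have hk0 : 1 ≤ k := le_trans (Nat.one_le_pow _ _ hm0) hk1
  have hkR : (1 : ℝ) ≤ k := by exact_mod_cast hk0
  have hlk0 : 0 ≤ Real.log k := Real.log_nonneg hkR
  have hk3 : k ≤ (2 * m) ^ 20 := le_trans hk2.le (Nat.pow_le_pow_left (by omega) 20)
  have hlog2 : Real.log 2 < 0.7 := lt_trans Real.log_two_lt_d9 (by norm_num)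
  have hlm : 0.7 ≤ Real.log m := by
    have h1 : Real.log 4 ≤ Real.log m := Real.log_le_log (by norm_num) (by linarith)
    have h2 : Real.log 4 = 2 * Real.log 2 := by
      rw [show (4 : ℝ) = 2 ^ 2 by norm_num, Real.log_pow]; norm_num
    have := Real.log_two_gt_d9
    linarith
  have hlk1 : Real.log k ≤ 40 * Real.log m := by
    have h1 : Real.log k ≤ Real.log (((2 * m) ^ 20 : ℕ) : ℝ) :=
      Real.log_le_log (by linarith) (by exact_mod_cast hk3)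
    have h2 : Real.log (((2 * m) ^ 20 : ℕ) : ℝ) = 20 * (Real.log 2 + Real.log m) := by
      rw [Nat.cast_pow, Real.log_pow, Nat.cast_mul, Nat.cast_ofNat,
        Real.log_mul (by norm_num) hmR.ne']
      norm_num
    rw [h2] at h1
    linarith
  exact ⟨hk0, hlk0, by linarith⟩

theorem p2_S (m k : ℕ) (hm : 10000 ≤ m) (hk2 : k < (m + 1) ^ 20) :
    (pS m k : ℝ) ≤ 11 * (m : ℝ) ^ 15 := by
  have hm0 : 0 < m := by omega
  have hk3 : k ≤ (2 * m) ^ 20 := le_trans hk2.le (Nat.pow_le_pow_left (by omega) 20)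
  have h1 : k / (100000 * m ^ 5) ≤ (2 * m) ^ 20 / (100000 * m ^ 5) := Nat.div_le_div_right hk3
  have h2 : (2 * m) ^ 20 / (100000 * m ^ 5) ≤ 1048576 * m ^ 15 / 100000 := by
    have h3 : (2 * m) ^ 20 = m ^ 5 * (1048576 * m ^ 15) := by ring
    rw [h3, Nat.mul_comm 100000 (m ^ 5), Nat.mul_div_mul_left _ _ (Nat.pow_pos hm0)]
  have h3 : pS m k ≤ 1048576 * m ^ 15 / 100000 + 1 := by
    unfold pS; omega
  have h4' : 1000 ≤ m ^ 15 := le_trans (by omega) (Nat.le_self_pow (by norm_num) m)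
  have h5 : pS m k ≤ 11 * m ^ 15 := by
    generalize m ^ 15 = z at *
    omega
  exact_mod_cast h5

theorem p2_lam (m k : ℕ) (hm : 10000 ≤ m) (hl : Real.log m ≤ (m : ℝ) / 10000)
    (hk1 : m ^ 20 ≤ k) (hk2 : k < (m + 1) ^ 20) : (0 : ℝ) < plam m k ∧
    Real.log (plam m k) ≤ 12 + 10 * (m : ℝ) ^ 5 + 0.088 * (m : ℝ) ^ 16 + 1.4 * (m : ℝ) ^ 14 := by
  obtain ⟨hk0, hlk0, hlk⟩ := p2_logk m k hm hl hk1 hk2
  have hS := p2_S m k hm hk2
  have hQ0 := p2_pQ_pos m k hk0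
  have hH0 := p2_pH_pos m
  have hQ : Real.log (pQ m k) ≤ 0.044 * (m : ℝ) ^ 16 := by
    rw [p2_log_pQ]
    calc (pS m k : ℝ) * Real.log k ≤ (11 * (m : ℝ) ^ 15) * ((m : ℝ) / 250) :=
          mul_le_mul hS hlk hlk0 (by positivity)
      _ = 0.044 * (m : ℝ) ^ 16 := by ring
  have hH := p2_log_pH m
  have hlamR : (plam m k : ℝ) = 64000 * 100 ^ (pD m) * ((pQ m k : ℝ) * pH m) ^ 2 := by
    unfold plam
    rw [Nat.cast_mul, Nat.cast_mul, Nat.cast_pow, Nat.cast_pow, Nat.cast_mul, Nat.cast_ofNat,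
      Nat.cast_ofNat]
  have hlamp : (0 : ℝ) < plam m k := by
    rw [hlamR]
    exact mul_pos (mul_pos (by norm_num) (pow_pos (by norm_num) _)) (pow_pos (mul_pos hQ0 hH0) 2)
  refine ⟨hlamp, ?_⟩
  rw [hlamR, p2_l1 _ _ _ hQ0 hH0, hH]
  have hD : (pD m : ℝ) = (m : ℝ) ^ 5 + 1 := by unfold pD; rw [Nat.cast_add, Nat.cast_pow, Nat.cast_one]
  have hx : (10000 : ℝ) ≤ m := by exact_mod_cast hm
  have hx5 : (1 : ℝ) ≤ (m : ℝ) ^ 5 := one_le_pow₀ (by linarith)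
  have hDl : (pD m : ℝ) * Real.log 100 ≤ 10 * (m : ℝ) ^ 5 := by
    rw [hD]
    calc ((m : ℝ) ^ 5 + 1) * Real.log 100 ≤ (2 * (m : ℝ) ^ 5) * 5 :=
          mul_le_mul (by linarith) p2_log100 (Real.log_nonneg (by norm_num)) (by positivity)
      _ = 10 * (m : ℝ) ^ 5 := by ring
  have h14 : (m : ℝ) ^ 14 * Real.log 2 ≤ (m : ℝ) ^ 14 * 0.7 :=
    mul_le_mul_of_nonneg_left (lt_trans Real.log_two_lt_d9 (by norm_num)).le (by positivity)
  have := p2_log64000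
  linarith

theorem p2_pow (x : ℝ) (hx : 10000 ≤ x) (a b : ℕ) (hab : a < b) : 10000 * x ^ a ≤ x ^ b := by
  obtain ⟨c, rfl⟩ := Nat.exists_eq_add_of_lt hab
  have h1 : x ^ (a + c + 1) = x ^ a * x ^ c * x := by ring
  rw [h1]
  have h2 : (1 : ℝ) ≤ x ^ c := one_le_pow₀ (by linarith)
  have h3 : (0 : ℝ) < x ^ a := pow_pos (by linarith) a
  have h4 : x ^ a * 1 ≤ x ^ a * x ^ c := mul_le_mul_of_nonneg_left h2 h3.le
  calc 10000 * x ^ a ≤ x * x ^ a := mul_le_mul_of_nonneg_right hx h3.le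
    _ = (x ^ a * 1) * x := by ring
    _ ≤ (x ^ a * x ^ c) * x := mul_le_mul_of_nonneg_right h4 (by linarith)

/-- real form of the first inequality -/
theorem p2_core1 (x lk lL l2 l8 l100 : ℝ) (hx : 10000 ≤ x) (hk0 : 0 ≤ lk) (hk : lk ≤ x / 250)
    (hL : lL ≤ 12 + 10 * x ^ 5 + 0.088 * x ^ 16 + 1.4 * x ^ 14) (h2 : 0.69 ≤ l2) (h8 : l8 ≤ 2.1)
    (h100 : l100 ≤ 5) (h100' : 0 ≤ l100) :
    l8 + lL + (x ^ 2 + 1) * ((x ^ 5 + 1 + 3) ^ 2 * l100 + lk) ≤ (x ^ 2 + 1) * (x ^ 14 * l2) := by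
  have hx5 : (4 : ℝ) ≤ x ^ 5 :=
    le_trans (by linarith) (le_self_pow₀ (by linarith) (by norm_num) : x ≤ x ^ 5)
  have hx2 : (1 : ℝ) ≤ x ^ 2 := one_le_pow₀ (by linarith)
  have hx0 : 0 ≤ x := by linarith
  have hD3 : (x ^ 5 + 1 + 3) ^ 2 ≤ 4 * x ^ 10 := by
    calc (x ^ 5 + 1 + 3) ^ 2 ≤ (2 * x ^ 5) ^ 2 :=
          pow_le_pow_left₀ (by positivity) (by linarith) 2
      _ = 4 * x ^ 10 := by ring
  have h1 : (x ^ 5 + 1 + 3) ^ 2 * l100 ≤ 20 * x ^ 10 := by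
    calc (x ^ 5 + 1 + 3) ^ 2 * l100 ≤ (4 * x ^ 10) * 5 :=
          mul_le_mul hD3 h100 h100' (by positivity)
      _ = _ := by ring
  have h2' : (x ^ 2 + 1) * ((x ^ 5 + 1 + 3) ^ 2 * l100 + lk) ≤
      (2 * x ^ 2) * (20 * x ^ 10 + x / 250) :=
    mul_le_mul (by linarith) (by linarith) (by positivity) (by positivity)
  have h3 : x ^ 2 * (x ^ 14 * 0.69) ≤ (x ^ 2 + 1) * (x ^ 14 * l2) :=
    mul_le_mul (by linarith) (mul_le_mul_of_nonneg_left h2 (by positivity)) (by positivity)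
      (by positivity)
  have h4 : (2 * x ^ 2) * (20 * x ^ 10 + x / 250) = 40 * x ^ 12 + 0.008 * x ^ 3 := by ring
  have h5 : x ^ 2 * (x ^ 14 * 0.69) = 0.69 * x ^ 16 := by ring
  rw [h4] at h2'
  rw [h5] at h3
  have q0 := p2_pow x hx 0 16 (by norm_num)
  have q3 := p2_pow x hx 3 16 (by norm_num)
  have q5 := p2_pow x hx 5 16 (by norm_num)
  have q12 := p2_pow x hx 12 16 (by norm_num)
  have q14 := p2_pow x hx 14 16 (by norm_num)
  rw [pow_zero, mul_one] at q0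
  linarith

/-- real form of the second inequality -/
theorem p2_core2 (x lk lE lL lT l64 l100 l200 : ℝ) (hx : 10000 ≤ x) (hk0 : 0 ≤ lk)
    (hk : lk ≤ x / 250) (hE : lE ≤ 7 * (x / 10000)) (hL0 : 0 ≤ lL)
    (hL : lL ≤ 12 + 10 * x ^ 5 + 0.088 * x ^ 16 + 1.4 * x ^ 14) (hT0 : 0 ≤ lT) (hT : lT ≤ x)
    (h64 : l64 ≤ 4.2) (h64' : 0 ≤ l64) (h100 : l100 ≤ 5) (h200 : l200 ≤ 6) (h200' : 0 ≤ l200) :
    l100 + 4 * lk + (lE + (x ^ 5 + 1) * (l64 + 5 * lk)) +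
        2 * (x ^ 2 + 1) * (l200 + lL + lT + x ^ 2 * lk) ≤ x ^ 19 / 4 := by
  have hx5 : (1 : ℝ) ≤ x ^ 5 := one_le_pow₀ (by linarith)
  have hx2 : (1 : ℝ) ≤ x ^ 2 := one_le_pow₀ (by linarith)
  have hx0 : 0 ≤ x := by linarith
  have h1 : (x ^ 5 + 1) * (l64 + 5 * lk) ≤ (2 * x ^ 5) * (4.2 + 5 * (x / 250)) :=
    mul_le_mul (by linarith) (by linarith) (by positivity) (by positivity)
  have h2 : x ^ 2 * lk ≤ x ^ 2 * (x / 250) := mul_le_mul_of_nonneg_left hk (by positivity)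
  have h3 : 2 * (x ^ 2 + 1) * (l200 + lL + lT + x ^ 2 * lk) ≤
      (4 * x ^ 2) * (6 + (12 + 10 * x ^ 5 + 0.088 * x ^ 16 + 1.4 * x ^ 14) + x + x ^ 2 * (x / 250)) :=
    mul_le_mul (by linarith) (by linarith) (by positivity) (by positivity)
  have e1 : (2 * x ^ 5) * (4.2 + 5 * (x / 250)) = 8.4 * x ^ 5 + 0.04 * x ^ 6 := by ring
  have e2 : (4 * x ^ 2) * (6 + (12 + 10 * x ^ 5 + 0.088 * x ^ 16 + 1.4 * x ^ 14) + x +
      x ^ 2 * (x / 250)) = 72 * x ^ 2 + 40 * x ^ 7 + 0.352 * x ^ 18 + 5.6 * x ^ 16 +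
        4 * x ^ 3 + 0.016 * x ^ 5 := by ring
  rw [e1] at h1
  rw [e2] at h3
  have r0 := p2_pow x hx 0 19 (by norm_num)
  have r1 := p2_pow x hx 1 19 (by norm_num)
  have r2 := p2_pow x hx 2 19 (by norm_num)
  have r3 := p2_pow x hx 3 19 (by norm_num)
  have r5 := p2_pow x hx 5 19 (by norm_num)
  have r6 := p2_pow x hx 6 19 (by norm_num)
  have r7 := p2_pow x hx 7 19 (by norm_num)
  have r16 := p2_pow x hx 16 19 (by norm_num)
  have r18 := p2_pow x hx 18 19 (by norm_num)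
  rw [pow_zero, mul_one] at r0
  rw [pow_one] at r1
  linarith

theorem param2 : ∃ m₀ : ℕ, ∀ m : ℕ, m₀ ≤ m → ∀ k : ℕ, m ^ 20 ≤ k → k < (m + 1) ^ 20 →
    8 * plam m k * (100 ^ ((pD m + 3) ^ 2) * k) ^ (pT m + 1) ≤ pH m ^ (pT m + 1) ∧
    (100 * (k : ℝ) ^ 4) * ((pE m * (64 * k ^ 5) ^ (pD m) : ℕ) : ℝ) *
      (((200 * plam m k * (pT m + 1) * k ^ (pT m)) ^ (2 * (pT m + 1)) : ℕ) : ℝ) ≤
      Real.exp ((1 / (m : ℝ)) * k / 4) := by
  obtain ⟨m₀, hm₀⟩ := p2_log_small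
  refine ⟨m₀, ?_⟩
  intro m hm k hk1 hk2
  obtain ⟨hm4, hl⟩ := hm₀ m hm
  obtain ⟨hk0, hlk0, hlk⟩ := p2_logk m k hm4 hl hk1 hk2
  obtain ⟨hlam0, hlam⟩ := p2_lam m k hm4 hl hk1 hk2
  have hx : (10000 : ℝ) ≤ m := by exact_mod_cast hm4
  have hmR : (0 : ℝ) < m := by linarith
  have hkR : (0 : ℝ) < k := by exact_mod_cast hk0
  have hH0 : (0 : ℝ) < pH m := p2_pH_pos m
  have hT : (pT m : ℝ) = (m : ℝ) ^ 2 := by unfold pT; rw [Nat.cast_pow]
  have hD : (pD m : ℝ) = (m : ℝ) ^ 5 + 1 := by unfold pD; rw [Nat.cast_add, Nat.cast_pow, Nat.cast_one]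
  have hlam0' : 0 < plam m k := by exact_mod_cast hlam0
  constructor
  · -- first inequality
    have hcore := p2_core1 (m : ℝ) (Real.log k) (Real.log (plam m k)) (Real.log 2) (Real.log 8)
      (Real.log 100) hx hlk0 hlk hlam (lt_trans (by norm_num) Real.log_two_gt_d9).le p2_log8
      p2_log100 (Real.log_nonneg (by norm_num))
    have hA := p2_l2 (plam m k : ℝ) (k : ℝ) ((pD m + 3) ^ 2) (pT m + 1) hlam0 hkR
    have hB : Real.log ((pH m : ℝ) ^ (pT m + 1)) = ((m : ℝ) ^ 2 + 1) * ((m : ℝ) ^ 14 * Real.log 2) := by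
      rw [Real.log_pow, p2_log_pH, Nat.cast_add, hT, Nat.cast_one]
    have hA' : Real.log (8 * (plam m k : ℝ) * (100 ^ ((pD m + 3) ^ 2) * (k : ℝ)) ^ (pT m + 1)) =
        Real.log 8 + Real.log (plam m k) + ((m : ℝ) ^ 2 + 1) *
          (((m : ℝ) ^ 5 + 1 + 3) ^ 2 * Real.log 100 + Real.log k) := by
      rw [hA, Nat.cast_add, hT, Nat.cast_one, Nat.cast_pow, Nat.cast_add, hD, Nat.cast_ofNat]
    have hle : 8 * (plam m k : ℝ) * (100 ^ ((pD m + 3) ^ 2) * (k : ℝ)) ^ (pT m + 1) ≤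
        (pH m : ℝ) ^ (pT m + 1) := by
      have hp1 : (0 : ℝ) < 8 * (plam m k : ℝ) * (100 ^ ((pD m + 3) ^ 2) * (k : ℝ)) ^ (pT m + 1) :=
        mul_pos (mul_pos (by norm_num) hlam0) (pow_pos (mul_pos (pow_pos (by norm_num) _) hkR) _)
      rw [← Real.log_le_log_iff hp1 (pow_pos hH0 _), hA', hB]
      exact hcore
    have hcast : ((8 * plam m k * (100 ^ ((pD m + 3) ^ 2) * k) ^ (pT m + 1) : ℕ) : ℝ) ≤
        ((pH m ^ (pT m + 1) : ℕ) : ℝ) := by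
      rw [Nat.cast_mul, Nat.cast_mul, Nat.cast_pow, Nat.cast_mul, Nat.cast_pow, Nat.cast_pow,
        Nat.cast_ofNat, Nat.cast_ofNat]
      exact hle
    exact Nat.cast_le.1 hcast
  · -- second inequality
    have hE0' : 0 < pE m := by unfold pE; exact Nat.pow_pos (by omega)
    have hE0 : (0 : ℝ) < pE m := by exact_mod_cast hE0'
    have hEl : Real.log (pE m) ≤ 7 * ((m : ℝ) / 10000) := by
      have h1 : (pE m : ℝ) = (m : ℝ) ^ 7 := by unfold pE; rw [Nat.cast_pow]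
      rw [h1, Real.log_pow]
      push_cast
      linarith
    have hT0 : (0 : ℝ) ≤ pT m := Nat.cast_nonneg _
    have hT1 : Real.log ((pT m : ℝ) + 1) ≤ (m : ℝ) := by
      have h1 : Real.log ((pT m : ℝ) + 1) ≤ Real.log ((m : ℝ) ^ 3) := by
        refine Real.log_le_log (by linarith) ?_
        rw [hT]
        have := p2_pow (m : ℝ) hx 2 3 (by norm_num)
        have h2 : (1 : ℝ) ≤ (m : ℝ) ^ 2 := one_le_pow₀ (by linarith)
        linarith
      rw [Real.log_pow] at h1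
      push_cast at h1
      linarith
    have hcore := p2_core2 (m : ℝ) (Real.log k) (Real.log (pE m)) (Real.log (plam m k))
      (Real.log ((pT m : ℝ) + 1)) (Real.log 64) (Real.log 100) (Real.log 200) hx hlk0 hlk hEl
      (Real.log_nonneg (by exact_mod_cast hlam0')) hlam (Real.log_nonneg (by linarith)) hT1
      p2_log64 (Real.log_nonneg (by norm_num)) p2_log100 p2_log200 (Real.log_nonneg (by norm_num))
    have hC := p2_l3 (k : ℝ) (pE m : ℝ) (plam m k : ℝ) (pD m) (pT m) hkR hE0 hlam0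
    have hRHS : (m : ℝ) ^ 19 / 4 ≤ 1 / (m : ℝ) * k / 4 := by
      have h1 : ((m ^ 20 : ℕ) : ℝ) ≤ (k : ℝ) := by exact_mod_cast hk1
      rw [Nat.cast_pow] at h1
      have h2 : (m : ℝ) ^ 19 ≤ 1 / (m : ℝ) * k := by
        rw [one_div, ← div_eq_inv_mul, le_div_iff₀ hmR]
        calc (m : ℝ) ^ 19 * m = (m : ℝ) ^ 20 := by ring
          _ ≤ (k : ℝ) := h1
      linarith
    have hcast : (100 * (k : ℝ) ^ 4) * ((pE m * (64 * k ^ 5) ^ (pD m) : ℕ) : ℝ) *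
        (((200 * plam m k * (pT m + 1) * k ^ (pT m)) ^ (2 * (pT m + 1)) : ℕ) : ℝ) =
        100 * (k : ℝ) ^ 4 * ((pE m : ℝ) * (64 * (k : ℝ) ^ 5) ^ (pD m)) *
          (200 * (plam m k : ℝ) * ((pT m : ℝ) + 1) * (k : ℝ) ^ (pT m)) ^ (2 * (pT m + 1)) := by
      simp only [Nat.cast_mul, Nat.cast_pow, Nat.cast_ofNat, Nat.cast_add, Nat.cast_one]
    rw [hcast]
    have hkT : (0 : ℝ) < (k : ℝ) ^ (pT m) := pow_pos hkR _
    have hT1' : (0 : ℝ) < (pT m : ℝ) + 1 := by linarith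
    have hpos : (0 : ℝ) < 100 * (k : ℝ) ^ 4 * ((pE m : ℝ) * (64 * (k : ℝ) ^ 5) ^ (pD m)) *
          (200 * (plam m k : ℝ) * ((pT m : ℝ) + 1) * (k : ℝ) ^ (pT m)) ^ (2 * (pT m + 1)) :=
      mul_pos (mul_pos (mul_pos (by norm_num) (pow_pos hkR 4))
        (mul_pos hE0 (pow_pos (mul_pos (by norm_num) (pow_pos hkR 5)) _)))
        (pow_pos (mul_pos (mul_pos (mul_pos (by norm_num) hlam0) hT1') hkT) _)
    rw [← Real.log_le_iff_le_exp hpos, hC, hD]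
    rw [← hT] at hcore
    exact le_trans hcore hRHS

end Crest.Agent.VDW
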