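import Crest.Agent.VDW.PDefs

/-!
# Row 64 (S0086): parameter inequality `param3`
-/

set_option autoImplicit false

namespace Crest.Agent.VDW

theorem param3_posR (m k : ℕ) (hk : 1 ≤ k) : (0 : ℝ) < (pR m k : ℝ) := by
  have hk0 : (0 : ℝ) < (k : ℝ) := by exact_mod_cast hk
  have hw : (0 : ℝ) < (pW₀ m : ℝ) := by
    unfold pW₀
    exact_mod_cast Nat.factorial_pos _
  have hq : (0 : ℝ) < (pQ m k : ℝ) := by
    unfold pQ
    push_cast
    positivity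
  have hh : (0 : ℝ) < (pH m : ℝ) := by
    unfold pH
    push_cast
    positivity
  have e1 : (pR m k : ℝ) = 512000 * (pQ m k : ℝ) ^ 3 * (pW₀ m : ℝ) * (pH m : ℝ) ^ 3 *
      (100 : ℝ) ^ (pD m + (pD m + 3) ^ 2) := by
    unfold pR plam pW
    push_cast
    ring
  rw [e1]
  positivity

theorem param3_logR (m k : ℕ) (hk : 1 ≤ k) :
    Real.log (pR m k : ℝ) = Real.log 512000 + 3 * ((pS m k : ℝ) * Real.log k) + Real.log (pW₀ m : ℝ)
      + 3 * ((m : ℝ) ^ 14 * Real.log 2) +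
      (((pD m : ℕ) : ℝ) + (((pD m : ℕ) : ℝ) + 3) ^ 2) * Real.log 100 := by
  have hk0 : (0 : ℝ) < (k : ℝ) := by exact_mod_cast hk
  have hw : (0 : ℝ) < (pW₀ m : ℝ) := by
    unfold pW₀
    exact_mod_cast Nat.factorial_pos _
  have hq : (0 : ℝ) < (pQ m k : ℝ) := by
    unfold pQ
    push_cast
    positivity
  have hh : (0 : ℝ) < (pH m : ℝ) := by
    unfold pH
    push_cast
    positivity
  have e1 : (pR m k : ℝ) = 512000 * (pQ m k : ℝ) ^ 3 * (pW₀ m : ℝ) * (pH m : ℝ) ^ 3 *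
      (100 : ℝ) ^ (pD m + (pD m + 3) ^ 2) := by
    unfold pR plam pW
    push_cast
    ring
  have e2 : Real.log (pQ m k : ℝ) = (pS m k : ℝ) * Real.log k := by
    unfold pQ
    push_cast
    rw [Real.log_pow]
  have e3 : Real.log (pH m : ℝ) = (m : ℝ) ^ 14 * Real.log 2 := by
    unfold pH
    push_cast
    rw [Real.log_pow]
    push_cast
    ring
  rw [e1, Real.log_mul (by positivity) (by positivity), Real.log_mul (by positivity) (by positivity),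
    Real.log_mul (by positivity) (by positivity), Real.log_mul (by positivity) (by positivity),
    Real.log_pow, Real.log_pow, Real.log_pow, e2, e3]
  push_cast
  ring

theorem param3_logW (m : ℕ) (hm : 1 ≤ m) :
    Real.log (pW₀ m : ℝ) ≤ 7 * (m : ℝ) ^ 8 := by
  have hm0 : (0 : ℝ) < (m : ℝ) := by exact_mod_cast hm
  have h1 : (pW₀ m : ℝ) ≤ ((m : ℝ) ^ 7) ^ (m ^ 7) := by
    unfold pW₀
    exact_mod_cast Nat.factorial_le_pow (m ^ 7)
  have hw : (0 : ℝ) < (pW₀ m : ℝ) := by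
    unfold pW₀
    exact_mod_cast Nat.factorial_pos _
  have h2 := Real.log_le_log hw h1
  rw [Real.log_pow, Real.log_pow] at h2
  push_cast at h2
  have h3 : Real.log (m : ℝ) ≤ m := (Real.log_le_sub_one_of_pos hm0).trans (by linarith)
  have h4 : (m : ℝ) ^ 7 * (7 * Real.log m) ≤ (m : ℝ) ^ 7 * (7 * m) := by gcongr
  calc Real.log (pW₀ m : ℝ) ≤ (m : ℝ) ^ 7 * (7 * Real.log m) := h2
    _ ≤ (m : ℝ) ^ 7 * (7 * m) := h4
    _ = 7 * (m : ℝ) ^ 8 := by ring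

theorem param3_sq1 (M : ℝ) (hM : 4001 ≤ M) : M + 1 ≤ M ^ 2 := by nlinarith

theorem param3_sq2 (M : ℝ) (hM : 4001 ≤ M) : 2048000 ≤ M ^ 2 := by nlinarith

theorem param3_pow (M K : ℝ) (hM1 : 4001 ≤ M) (hKM : M ^ 20 ≤ K) (c : ℝ) (j : ℕ) (hj : j ≤ 19)
    (hc : c ≤ M) : c * M ^ j ≤ K := by
  have h0 : (0 : ℝ) ≤ M ^ j := pow_nonneg (by linarith) j
  calc c * M ^ j ≤ M * M ^ j := mul_le_mul_of_nonneg_right hc h0
    _ = M ^ (j + 1) := (pow_succ' M j).symm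
    _ ≤ M ^ 20 := pow_le_pow_right₀ (by linarith) (by omega)
    _ ≤ K := hKM

theorem param3_core (M K x L Dr Sr lw c100 c64 c2 c10 c5 : ℝ) (hM1 : 4001 ≤ M) (hL : 8000 ≤ L)
    (hLm : L ≤ M) (hKM : M ^ 20 ≤ K) (hK0 : 0 < K) (hx : x ≤ 40 * L) (hx0 : 0 ≤ x) (hD : Dr = M ^ 5 + 1)
    (hS : Sr ≤ K / (100000 * M ^ 5) + 1) (hS0 : 0 ≤ Sr) (hW0 : 0 ≤ lw) (hW : lw ≤ 7 * M ^ 8)
    (h100 : c100 ≤ 100) (hn100 : 0 ≤ c100) (h64 : c64 ≤ 64) (hn64 : 0 ≤ c64) (h2 : c2 ≤ 2) (hn2 : 0 ≤ c2)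
    (h10 : c10 ≤ 10) (h5 : c5 ≤ 512000) (hn5 : 0 ≤ c5) :
    c100 + 4 * x + Dr * (c64 + 2 * (c5 + 3 * (Sr * x) + lw + 3 * (M ^ 14 * c2) +
      (Dr + (Dr + 3) ^ 2) * c100) + 4 * x) + K * c10 ≤ K / 80 * L := by
  have hM0 : 0 < M := by linarith
  have hx1 : x ≤ 40 * M := by linarith
  have hM5 : (1 : ℝ) ≤ M ^ 5 := one_le_pow₀ (by linarith)
  have hM54 : (4 : ℝ) ≤ M ^ 5 := by
    calc (4 : ℝ) ≤ M := by linarith
      _ = M ^ 1 := (pow_one M).symm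
      _ ≤ M ^ 5 := pow_le_pow_right₀ (by linarith) (by norm_num)
  have hD2 : Dr ≤ 2 * M ^ 5 := by rw [hD]; linarith
  have hD3 : Dr + 3 ≤ 2 * M ^ 5 := by rw [hD]; linarith
  have hD0 : 0 ≤ Dr := by rw [hD]; linarith
  have hDD : Dr + (Dr + 3) ^ 2 ≤ 6 * M ^ 10 := by
    have h1 : (Dr + 3) ^ 2 ≤ (2 * M ^ 5) ^ 2 := pow_le_pow_left₀ (by linarith) hD3 2
    have h2 : (2 * M ^ 5) ^ 2 = 4 * M ^ 10 := by ring
    have h3 : M ^ 5 ≤ M ^ 10 := pow_le_pow_right₀ (by linarith) (by norm_num)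
    linarith
  have hDS : Dr * Sr ≤ 2 * (K / 100000) + 2 * M ^ 5 := by
    calc Dr * Sr ≤ (2 * M ^ 5) * (K / (100000 * M ^ 5) + 1) := by gcongr
      _ = 2 * (K / 100000) + 2 * M ^ 5 := by field_simp
  have hpow := param3_pow M K hM1 hKM
  have p1 : c100 + 4 * x ≤ K := by
    have h1 := hpow 260 1 (by norm_num) (by linarith)
    have h2 : M ^ 1 = M := pow_one M
    rw [h2] at h1
    linarith
  have p2 : Dr * c64 + Dr * (4 * x) ≤ K := by
    have h1 : Dr * c64 ≤ (2 * M ^ 5) * 64 := by gcongr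
    have h2 : Dr * (4 * x) ≤ (2 * M ^ 5) * (4 * (40 * M)) := by gcongr
    have h3 := hpow 448 6 (by norm_num) (by linarith)
    have h4 : M ^ 5 ≤ M ^ 6 := pow_le_pow_right₀ (by linarith) (by norm_num)
    have h5 : (2 * M ^ 5) * (4 * (40 * M)) = 320 * M ^ 6 := by ring
    linarith
  have p3 : Dr * (2 * c5) ≤ K := by
    have h1 : Dr * (2 * c5) ≤ (2 * M ^ 5) * (2 * 512000) := by gcongr
    have h2 : (2 * M ^ 5) * (2 * 512000) ≤ 1 * M ^ 7 := by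
      have : (2048000 : ℝ) ≤ M ^ 2 := param3_sq2 _ hM1
      calc (2 * M ^ 5) * (2 * 512000) = 2048000 * M ^ 5 := by ring
        _ ≤ M ^ 2 * M ^ 5 := by gcongr
        _ = 1 * M ^ 7 := by ring
    have h3 := hpow 1 7 (by norm_num) (by linarith)
    linarith
  have p4 : Dr * (2 * lw) ≤ K := by
    have h1 : Dr * (2 * lw) ≤ (2 * M ^ 5) * (2 * (7 * M ^ 8)) := by gcongr
    have h2 : (2 * M ^ 5) * (2 * (7 * M ^ 8)) = 28 * M ^ 13 := by ring
    have h3 := hpow 28 13 (by norm_num) (by linarith)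
    linarith
  have p5 : Dr * (2 * (3 * (M ^ 14 * c2))) ≤ K := by
    have h1 : Dr * (2 * (3 * (M ^ 14 * c2))) ≤ (2 * M ^ 5) * (2 * (3 * (M ^ 14 * 2))) := by
      gcongr
    have h2 : (2 * M ^ 5) * (2 * (3 * (M ^ 14 * 2))) = 24 * M ^ 19 := by ring
    have h3 := hpow 24 19 (by norm_num) (by linarith)
    linarith
  have p6 : Dr * (2 * ((Dr + (Dr + 3) ^ 2) * c100)) ≤ K := by
    have h1 : Dr * (2 * ((Dr + (Dr + 3) ^ 2) * c100)) ≤
        (2 * M ^ 5) * (2 * ((6 * M ^ 10) * 100)) := by gcongr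
    have h2 : (2 * M ^ 5) * (2 * ((6 * M ^ 10) * 100)) = 2400 * M ^ 15 := by ring
    have h3 := hpow 2400 15 (by norm_num) (by linarith)
    linarith
  have p7 : K * c10 ≤ K * 10 := mul_le_mul_of_nonneg_left h10 hK0.le
  have p8 : 6 * (Dr * Sr) * x ≤ 240 * (2 * (K / 100000) + 2 * M ^ 5) * L := by
    calc 6 * (Dr * Sr) * x ≤ 6 * (2 * (K / 100000) + 2 * M ^ 5) * (40 * L) := by gcongr
      _ = 240 * (2 * (K / 100000) + 2 * M ^ 5) * L := by ring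
  have p9 : 240 * (2 * (K / 100000) + 2 * M ^ 5) ≤ K / 100 := by
    have h1 : 100000 * M ^ 5 ≤ K := by
      have : (100000 : ℝ) ≤ M ^ 2 := le_trans (by norm_num) (param3_sq2 _ hM1)
      have h2 := hpow 1 7 (by norm_num) (by linarith)
      have h3 : 100000 * M ^ 5 ≤ M ^ 2 * M ^ 5 := by gcongr
      have h4 : M ^ 2 * M ^ 5 = 1 * M ^ 7 := by ring
      linarith
    linarith
  have p10 : 240 * (2 * (K / 100000) + 2 * M ^ 5) * L ≤ (K / 100) * L :=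
    mul_le_mul_of_nonneg_right p9 (by linarith)
  have p11 : 16 * K ≤ (K / 80 - K / 100) * L := by
    have h1 : (K / 80 - K / 100) * 8000 ≤ (K / 80 - K / 100) * L :=
      mul_le_mul_of_nonneg_left hL (by linarith)
    linarith
  have hfin : c100 + 4 * x + Dr * (c64 + 2 * (c5 + 3 * (Sr * x) + lw + 3 * (M ^ 14 * c2) +
      (Dr + (Dr + 3) ^ 2) * c100) + 4 * x) + K * c10 = (c100 + 4 * x) + (Dr * c64 + Dr * (4 * x)) +
      Dr * (2 * c5) + Dr * (2 * lw) + Dr * (2 * (3 * (M ^ 14 * c2))) +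
      Dr * (2 * ((Dr + (Dr + 3) ^ 2) * c100)) + K * c10 + 6 * (Dr * Sr) * x := by ring
  rw [hfin]
  linarith

/-! R64-P3 -/
theorem param3 : ∃ m₀ : ℕ, ∀ m : ℕ, m₀ ≤ m → ∀ k : ℕ, m ^ 20 ≤ k → k < (m + 1) ^ 20 →
    (100 * (k : ℝ) ^ 4) * (((64 * (pR m k) ^ 2 * k ^ 4) ^ (pD m) : ℕ) : ℝ) * 10 ^ k ≤
      (1 / (1 / (m : ℝ))) ^ ((k : ℝ) / 80) := by
  refine ⟨⌈Real.exp 8000⌉₊, ?_⟩
  intro m hm k hk1 hk2
  have hM : Real.exp 8000 ≤ (m : ℝ) := (Nat.le_ceil _).trans (Nat.cast_le.2 hm)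
  clear hm
  have hKM : (m : ℝ) ^ 20 ≤ (k : ℝ) := by
    have h4 : ((m ^ 20 : ℕ) : ℝ) ≤ (k : ℝ) := Nat.cast_le.2 hk1
    rw [Nat.cast_pow] at h4
    exact h4
  have hKM2 : (k : ℝ) ≤ ((m : ℝ) + 1) ^ 20 := by
    have h4 : ((k : ℕ) : ℝ) ≤ (((m + 1) ^ 20 : ℕ) : ℝ) := Nat.cast_le.2 (le_of_lt hk2)
    rw [Nat.cast_pow, Nat.cast_add, Nat.cast_one] at h4
    exact h4
  clear hk1 hk2
  have hM1 : (4001 : ℝ) ≤ (m : ℝ) := by
    have := Real.add_one_le_exp (8000 : ℝ)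
    exact le_trans (by norm_num) (this.trans hM)
  have hm0 : (0 : ℝ) < (m : ℝ) := lt_of_lt_of_le (by norm_num) hM1
  have hmn : 1 ≤ m := by
    rcases Nat.eq_zero_or_pos m with h | h
    · rw [h] at hm0
      norm_num at hm0
    · exact h
  have hL : 8000 ≤ Real.log (m : ℝ) := by
    rw [Real.le_log_iff_exp_le hm0]
    exact hM
  have hK1 : (1 : ℝ) ≤ (k : ℝ) := le_trans (one_le_pow₀ (le_trans (by norm_num) hM1)) hKM
  have hk0 : (0 : ℝ) < (k : ℝ) := lt_of_lt_of_le one_pos hK1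
  have hkn : 1 ≤ k := by
    rcases Nat.eq_zero_or_pos k with h | h
    · rw [h] at hk0
      norm_num at hk0
    · exact h
  have hR0 : (0 : ℝ) < (pR m k : ℝ) := param3_posR m k hkn
  -- log k
  have hx : Real.log (k : ℝ) ≤ 40 * Real.log (m : ℝ) := by
    have h1 : (k : ℝ) ≤ (m : ℝ) ^ 40 := by
      have h3 : (m : ℝ) + 1 ≤ (m : ℝ) ^ 2 := param3_sq1 _ hM1
      calc (k : ℝ) ≤ ((m : ℝ) + 1) ^ 20 := hKM2
        _ ≤ ((m : ℝ) ^ 2) ^ 20 := pow_le_pow_left₀ (by positivity) h3 20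
        _ = (m : ℝ) ^ 40 := by rw [← pow_mul]
    have h2 := Real.log_le_log hk0 h1
    rw [Real.log_pow] at h2
    have h5 : ((40 : ℕ) : ℝ) = 40 := by norm_num
    rw [h5] at h2
    exact h2
  clear hKM2
  have hx0 : 0 ≤ Real.log (k : ℝ) := Real.log_nonneg hK1
  have hc : ∀ c : ℝ, 0 < c → Real.log c ≤ c := fun c hc =>
    (Real.log_le_sub_one_of_pos hc).trans (by linarith)
  have hLm : Real.log (m : ℝ) ≤ m := hc _ hm0
  have hW0 : 0 ≤ Real.log (pW₀ m : ℝ) := by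
    apply Real.log_nonneg
    unfold pW₀
    exact Nat.one_le_cast.2 (Nat.factorial_pos _)
  have hW := param3_logW m hmn
  have hD : ((pD m : ℕ) : ℝ) = (m : ℝ) ^ 5 + 1 := by
    unfold pD
    rw [Nat.cast_add, Nat.cast_pow, Nat.cast_one]
  have hS : ((pS m k : ℕ) : ℝ) ≤ (k : ℝ) / (100000 * (m : ℝ) ^ 5) + 1 := by
    unfold pS
    rw [Nat.cast_add, Nat.cast_one]
    have h1 := @Nat.cast_div_le ℝ _ _ _ k (100000 * m ^ 5)
    rw [Nat.cast_mul, Nat.cast_pow] at h1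
    have h2 : ((100000 : ℕ) : ℝ) = 100000 := by norm_num
    rw [h2] at h1
    exact add_le_add_left h1 1
  have hlogR := param3_logR m k hkn
  have hcore := param3_core (m : ℝ) (k : ℝ) (Real.log k) (Real.log m) (pD m : ℕ) (pS m k : ℕ)
    (Real.log (pW₀ m : ℝ)) (Real.log 100) (Real.log 64) (Real.log 2) (Real.log 10) (Real.log 512000)
    hM1 hL hLm hKM hk0 hx hx0 hD hS (Nat.cast_nonneg _) hW0 hW (hc _ (by norm_num))
    (Real.log_nonneg (by norm_num)) (hc _ (by norm_num)) (Real.log_nonneg (by norm_num))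
    (hc _ (by norm_num)) (Real.log_nonneg (by norm_num)) (hc _ (by norm_num)) (hc _ (by norm_num))
    (Real.log_nonneg (by norm_num))
  rw [← hlogR] at hcore
  have hcast : (((64 * (pR m k) ^ 2 * k ^ 4) ^ (pD m) : ℕ) : ℝ) =
      (64 * (pR m k : ℝ) ^ 2 * (k : ℝ) ^ 4) ^ (pD m) := by
    rw [Nat.cast_pow, Nat.cast_mul, Nat.cast_mul, Nat.cast_pow, Nat.cast_pow]
    norm_num
  rw [hcast, one_div_one_div]
  have hLpos : 0 < (100 * (k : ℝ) ^ 4) * (64 * (pR m k : ℝ) ^ 2 * (k : ℝ) ^ 4) ^ (pD m) * 10 ^ k := by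
    positivity
  rw [← Real.log_le_log_iff hLpos (by positivity), Real.log_rpow hm0]
  have hlog : Real.log ((100 * (k : ℝ) ^ 4) * (64 * (pR m k : ℝ) ^ 2 * (k : ℝ) ^ 4) ^ (pD m) * 10 ^ k) =
      Real.log 100 + 4 * Real.log k + ((pD m : ℕ) : ℝ) * (Real.log 64 + 2 * Real.log (pR m k : ℝ) +
        4 * Real.log k) + (k : ℝ) * Real.log 10 := by
    rw [Real.log_mul (by positivity) (by positivity), Real.log_mul (by positivity) (by positivity),
      Real.log_mul (by positivity) (by positivity), Real.log_pow, Real.log_pow, Real.log_pow,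
      Real.log_mul (by positivity) (by positivity), Real.log_mul (by positivity) (by positivity),
      Real.log_pow, Real.log_pow]
    push_cast
    ring
  rw [hlog]
  exact hcore

end Crest.Agent.VDW
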