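import Crest.Agent.VDW.Defs

/-!
# Row 64, R64-K: reduction to two colours on the torus of dimension `D+1`
-/

set_option autoImplicit false

namespace Crest.Agent.VDW

theorem reduction (k D Q W₀ : ℕ) (hk : 2 ≤ k) (hD : 1 ≤ D) (hW : 1 ≤ W₀) (hQ : 2 * W₀ ≤ Q)
    (χ : (Fin (D + 1) → ℝ) → Bool)
    (hχ : ∀ x θ : Fin (D + 1) → ℝ,
      (∃ l, ∀ b : ℤ, 1 / (2 * (Q : ℝ)) ≤ |(W₀ : ℝ) * θ l - (b : ℝ)|) →
      ∃ i : ℕ, i < k ∧ χ (fun l => x l + (i : ℝ) * θ l) ≠ χ x)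
    (r N : ℕ) (hr : 2 ≤ r) (hN : N ≤ Q ^ (D * Nat.log 2 r)) :
    ∃ χ' : ℕ → Fin r, ∀ a d : ℕ, 1 ≤ a → 1 ≤ d → a + (k - 1) * d ≤ N →
      ∃ i, i < k ∧ χ' (a + i * d) ≠ χ' a := by
  classical
  set j : ℕ := Nat.log 2 r with hj
  have h2j : 2 ^ j ≤ r := Nat.pow_log_le_self 2 (by omega)
  have hcard : Fintype.card (Fin j → Bool) ≤ Fintype.card (Fin r) := by
    simpa using h2j
  obtain ⟨f⟩ := Function.Embedding.nonempty_of_card_le hcard
  set cs : ℕ → ℕ → Bool := fun s n =>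
    χ (fun l : Fin (D + 1) => (n : ℝ) / (Q : ℝ) ^ (s * D + (l : ℕ) + 1)) with hcs
  refine ⟨fun n => f (fun s => cs s n), fun a d ha hd hle => ?_⟩
  have hQ2 : 2 ≤ Q := by omega
  have hQD : 1 < Q ^ D := Nat.one_lt_pow (by omega) (by omega)
  have hdk : d ≤ (k - 1) * d := Nat.le_mul_of_pos_left d (by omega)
  have hdN : d < (Q ^ D) ^ j := by
    rw [← pow_mul]
    exact lt_of_lt_of_le (by omega) hN
  set s : ℕ := Nat.log (Q ^ D) d with hs
  have hs1 : (Q ^ D) ^ s ≤ d := Nat.pow_log_le_self _ (by omega)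
  have hs2 : d < (Q ^ D) ^ (s + 1) := Nat.lt_pow_succ_log_self hQD d
  have hsj : s < j := Nat.log_lt_of_lt_pow (by omega) hdN
  rw [← pow_mul] at hs1 hs2
  set e : ℕ := Nat.log Q (2 * W₀ * d) with he
  have hpos : 2 * W₀ * d ≠ 0 := by positivity
  have he1 : Q ^ e ≤ 2 * W₀ * d := Nat.pow_log_le_self _ hpos
  have he2 : 2 * W₀ * d < Q ^ (e + 1) := Nat.lt_pow_succ_log_self (by omega) _
  have hse : s * D ≤ e := by
    refine Nat.le_log_of_pow_le (by omega) ?_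
    rw [mul_comm s D]
    exact hs1.trans (Nat.le_mul_of_pos_left d (by omega))
  have hes : e < (s + 1) * D + 1 := by
    refine Nat.log_lt_of_lt_pow hpos ?_
    rw [pow_succ, mul_comm (s + 1) D, mul_comm _ Q]
    exact Nat.mul_lt_mul_of_le_of_lt hQ hs2 (by omega)
  have hlD : e - s * D < D + 1 := by
    rw [add_mul, one_mul] at hes
    omega
  have hQpos : (0 : ℝ) < Q := by exact_mod_cast (by omega : 0 < Q)
  obtain ⟨i, hi, hne⟩ := hχ (fun l => (a : ℝ) / (Q : ℝ) ^ (s * D + (l : ℕ) + 1))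
    (fun l => (d : ℝ) / (Q : ℝ) ^ (s * D + (l : ℕ) + 1)) ⟨⟨e - s * D, hlD⟩, fun b => by
      have e1 : s * D + (e - s * D) + 1 = e + 1 := by omega
      simp only [e1]
      have hp : (0 : ℝ) < (Q : ℝ) ^ (e + 1) := by positivity
      have hlow : 1 / (2 * (Q : ℝ)) ≤ (W₀ : ℝ) * ((d : ℝ) / (Q : ℝ) ^ (e + 1)) := by
        rw [← mul_div_assoc, div_le_div_iff₀ (by positivity) hp]
        have : ((Q ^ e : ℕ) : ℝ) ≤ ((2 * W₀ * d : ℕ) : ℝ) := by exact_mod_cast he1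
        push_cast at this
        rw [pow_succ]
        nlinarith
      have hup : (W₀ : ℝ) * ((d : ℝ) / (Q : ℝ) ^ (e + 1)) < 1 / 2 := by
        rw [← mul_div_assoc, div_lt_div_iff₀ hp (by norm_num)]
        have : ((2 * W₀ * d : ℕ) : ℝ) < ((Q ^ (e + 1) : ℕ) : ℝ) := by exact_mod_cast he2
        push_cast at this
        linarith
      have hQ1 : 1 / (2 * (Q : ℝ)) ≤ 1 / 2 := by
        refine one_div_le_one_div_of_le (by norm_num) ?_
        have : (1 : ℝ) ≤ Q := by exact_mod_cast (by omega : 1 ≤ Q)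
        linarith
      rcases le_or_gt b 0 with hb | hb
      · have hb' : (b : ℝ) ≤ 0 := by exact_mod_cast hb
        refine le_trans ?_ (le_abs_self _)
        linarith
      · have hb' : (1 : ℝ) ≤ b := by exact_mod_cast hb
        refine le_trans ?_ (neg_le_abs _)
        linarith⟩
  refine ⟨i, hi, fun heq => hne ?_⟩
  have h1 := congrFun (f.injective heq) ⟨s, hsj⟩
  simp only [hcs] at h1
  have h2 : (fun l : Fin (D + 1) => (a : ℝ) / (Q : ℝ) ^ (s * D + (l : ℕ) + 1) +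
      (i : ℝ) * ((d : ℝ) / (Q : ℝ) ^ (s * D + (l : ℕ) + 1))) =
      fun l : Fin (D + 1) => ((a + i * d : ℕ) : ℝ) / (Q : ℝ) ^ (s * D + (l : ℕ) + 1) := by
    funext l
    push_cast
    ring
  simp only [h2]
  exact h1

end Crest.Agent.VDW
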