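import Crest.Agent.VDW.Torus2

set_option autoImplicit false

namespace Crest.Agent.VDW

open Finset

open Classical in
/-- the colouring of the torus, abstract parameters -/
theorem torus_colouring (D k E₀ H₀ Q lam L T : ℕ) (W₀ : ℕ) (η : ℝ)
    (hW₀ : W₀ = E₀.factorial) (hE₀ : 1 ≤ E₀) (hkE : 4 * E₀ ≤ k) (hk100 : 100 ≤ k)
    (hQ : 1 ≤ Q) (hL : 1 ≤ L)
    (hkW : (k + 1) ^ 2 ≤ W₀ * H₀)
    (h1 : ∀ q : ℕ, E₀ ≤ q → (64 * (k : ℝ) ^ 5) ^ D * (100 * (k : ℝ) ^ 4) ≤ Real.exp (0.4 * q))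
    (h2 : (64 * ((W₀ * H₀ : ℕ) : ℝ) * (k : ℝ) ^ 4) ^ D * (100 * (k : ℝ) ^ 4) ≤
      Real.exp (0.1 * k - 1))
    (hH : 4000 * 100 ^ (D + 3 * (D + 3) ^ 2) * k ^ 3 ≤ H₀)
    (hlam : 64000 * 100 ^ D * (Q * H₀) ^ 2 ≤ lam)
    (hT : 8 * lam * (100 ^ ((D + 3) ^ 2) * k) ^ (T + 1) ≤ H₀ ^ (T + 1))
    (hlR : 2 * lam * 100 ^ ((D + 3) ^ 2) * W₀ ≤ (4 * Q * (W₀ * H₀)) * L)
    (hη0 : 0 < η) (hη1 : η ≤ 1 / 2)
    (hn1 : (100 * (k : ℝ) ^ 4) * ((E₀ * (64 * k ^ 5) ^ D : ℕ) : ℝ) *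
      (((200 * lam * (T + 1) * k ^ T) ^ (2 * (T + 1)) : ℕ) : ℝ) ≤ Real.exp (η * k / 4))
    (hn2 : (100 * (k : ℝ) ^ 4) * ((64 * k ^ 5) ^ D : ℕ) ≤ Real.exp (η * E₀ / 40))
    (hn3 : (100 * (k : ℝ) ^ 4) * (((64 * ((4 * Q * (W₀ * H₀)) * L) ^ 2 * k ^ 4) ^ D : ℕ) : ℝ) *
      10 ^ k ≤ (1 / η) ^ ((k : ℝ) / 80)) :
    ∃ χ : (Fin D → ℝ) → Bool, ∀ x θ : Fin D → ℝ,
      (∃ l, ∀ b : ℤ, 1 / (2 * (Q : ℝ)) ≤ |(W₀ : ℝ) * θ l - (b : ℝ)|) →
      ∃ i : ℕ, i < k ∧ χ (fun l => x l + (i : ℝ) * θ l) ≠ χ x := by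
  obtain ⟨G, hG⟩ : ∃ G : (Fin D → ℝ) → ℂ, GoodG G := exists_G D
  have hW₀1 : 1 ≤ W₀ := by rw [hW₀]; exact Nat.factorial_pos _
  have hk1 : 1 ≤ k := by omega
  have hH1 : 1 ≤ H₀ := by
    refine le_trans ?_ hH
    have : 0 < 4000 * 100 ^ (D + 3 * (D + 3) ^ 2) * k ^ 3 := by positivity
    omega
  have hkH : 4 * k ≤ H₀ := by
    refine le_trans ?_ hH
    have h3 : k ≤ k ^ 3 := Nat.le_self_pow (by norm_num) k
    have h4 : 1 ≤ 100 ^ (D + 3 * (D + 3) ^ 2) := Nat.one_le_pow _ _ (by norm_num)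
    calc 4 * k ≤ (4000 * 1) * k := by omega
      _ ≤ (4000 * 100 ^ (D + 3 * (D + 3) ^ 2)) * k ^ 3 :=
        Nat.mul_le_mul (Nat.mul_le_mul_left _ h4) h3
  set W : ℕ := W₀ * H₀ with hW
  have hW1 : 1 ≤ W := Nat.mul_pos hW₀1 hH1
  set Rs : ℕ := 4 * Q * W with hRs
  have hRs1 : 1 ≤ Rs := by
    have : 0 < 4 * Q * W := by positivity
    omega
  set R : ℕ := Rs * L with hR
  have hR1 : 1 ≤ R := Nat.mul_pos hRs1 hL
  have : NeZero W := ⟨by omega⟩
  have : NeZero Rs := ⟨by omega⟩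
  have : NeZero R := ⟨by omega⟩
  have hdWRs : W ∣ Rs := ⟨4 * Q, by rw [hRs]; ring⟩
  have hdRsR : Rs ∣ R := ⟨L, rfl⟩
  have hWRs : W ≤ Rs := Nat.le_of_dvd (by omega) hdWRs
  obtain ⟨ψ, hψ⟩ := level1 D W k E₀ hE₀ hkE hk100 h1 h2
  obtain ⟨QQ, hQc, hQQ⟩ := line_net G hG k T lam Q H₀ hk1 hQ hH hlam hT
  -- types and maps
  set gs : (Fin D → ZMod R) → (Fin D → ZMod Rs) := fun g => coarse R Rs g with hgs
  set Zc : (Fin D → ZMod Rs) → (Fin D → ZMod W) := fun g => coarse Rs W g with hZc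
  set Zb : (Fin D → ZMod R) → (Fin D → ZMod W) := fun g => Zc (gs g) with hZb
  set cell : (Fin D → ZMod R) → ℤ × ℤ := fun g => cel (vG G lam W₀ R g) with hcell
  have gs_pat : ∀ (x θ : Fin D → ℝ) (i : Fin k), gs (pat R k x θ i) = pat Rs k x θ i :=
    fun x θ i => coarse_pat hRs1 hR1 hdRsR x θ i
  have Zb_pat : ∀ (x θ : Fin D → ℝ) (i : Fin k), Zb (pat R k x θ i) = pat W k x θ i := by
    intro x θ i
    simp only [hZb, gs_pat, hZc]
    exact coarse_pat hW1 hRs1 hdWRs x θ i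
  set PP : Finset (Fin k → Fin D → ZMod R) :=
    Finset.univ.filter (fun P => ∃ x θ : Fin D → ℝ, pat R k x θ = P) with hPP
  set ZS : Finset (Fin k → Fin D → ZMod W) :=
    Finset.univ.filter (fun Z => ∃ q, 1 ≤ q ∧ q < E₀ ∧ ∃ x θ : Fin D → ℝ,
      Ret W θ q ∧ pat W k x θ = Z) with hZS
  set GS : ℕ → Finset (Fin k → Fin D → ZMod Rs) := fun q =>
    Finset.univ.filter (fun g => 1 ≤ q ∧ q ≤ k ∧ ∃ x θ : Fin D → ℝ,
      Ret Rs θ q ∧ pat Rs k x θ = g) with hGS
  have hA1 : ∀ (i₀ : Fin k) (z : Fin D → ZMod W),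
      (ZS.filter (fun Z => Z i₀ = z)).card ≤ E₀ * (64 * k ^ 5) ^ D := by
    intro i₀ z
    have hsub : ZS.filter (fun Z => Z i₀ = z) ⊆ (Finset.Ico 1 E₀).biUnion (fun q =>
        Finset.univ.filter (fun P : Fin k → Fin D → ZMod W =>
          P i₀ = z ∧ ∃ x θ : Fin D → ℝ, Ret W θ q ∧ pat W k x θ = P)) := by
      intro Z hZ
      simp only [hZS, mem_filter, mem_univ, true_and] at hZ
      obtain ⟨⟨q, hq1, hq2, h⟩, hz⟩ := hZ
      simp only [mem_biUnion, mem_Ico, mem_filter, mem_univ, true_and]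
      exact ⟨q, ⟨hq1, hq2⟩, hz, h⟩
    refine (Finset.card_le_card hsub).trans (Finset.card_biUnion_le.trans ?_)
    calc ∑ q ∈ Finset.Ico 1 E₀, _ ≤ ∑ q ∈ Finset.Ico 1 E₀, (64 * k ^ 5) ^ D := by
          apply Finset.sum_le_sum
          intro q hq
          rw [mem_Ico] at hq
          exact card_pat_near D W k q hq.1 (by omega) i₀ z
      _ = (E₀ - 1) * (64 * k ^ 5) ^ D := by simp
      _ ≤ E₀ * (64 * k ^ 5) ^ D := Nat.mul_le_mul_right _ (by omega)
  have hA3 : ∀ (q : ℕ) (i₀ : Fin k) (z : Fin D → ZMod Rs),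
      ((GS q).filter (fun g => g i₀ = z)).card ≤ (64 * k ^ 5) ^ D := by
    intro q i₀ z
    by_cases hq : 1 ≤ q ∧ q ≤ k
    · refine le_trans (Finset.card_le_card ?_) (card_pat_near D Rs k q hq.1 hq.2 i₀ z)
      intro g hg
      simp only [hGS, mem_filter, mem_univ, true_and] at hg ⊢
      exact ⟨hg.2, hg.1.2.2⟩
    · have : (GS q).filter (fun g => g i₀ = z) = ∅ := by
        rw [Finset.filter_eq_empty_iff]
        intro g hg
        simp only [hGS, mem_filter, mem_univ, true_and] at hg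
        exact absurd ⟨hg.1, hg.2.1⟩ hq
      rw [this]; simp
  have hA4 : PP.card ≤ (64 * R ^ 2 * k ^ 4) ^ D := card_pat_all D R k hk1
  obtain ⟨fire, hfire⟩ := stage2 (Gd := Fin D → ZMod R) (Bx := Fin D → ZMod W)
    (Cs := Fin D → ZMod Rs) k E₀ hk100 hE₀ Zb gs Zc (fun g => rfl) cell ψ η hη0 hη1 PP ZS QQ GS
    (E₀ * (64 * k ^ 5) ^ D) ((200 * lam * (T + 1) * k ^ T) ^ (2 * (T + 1)))
    ((64 * k ^ 5) ^ D) ((64 * R ^ 2 * k ^ 4) ^ D)
    (by intro i z; convert hA1 i z) hQc (by intro q i z; convert hA3 q i z) hA4 hn1 hn2 hn3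
  refine ⟨fun x => xor (ψ (Zb (gpt R x))) (fire (gpt R x)), ?_⟩
  intro x θ hθ
  by_contra hcon
  push Not at hcon
  set P := pat R k x θ with hP
  have hPPP : P ∈ PP := by
    simp only [hPP, mem_filter, mem_univ, true_and]; exact ⟨x, θ, rfl⟩
  have hmono : ∀ i : Fin k, xor (ψ (Zb (P i))) (fire (P i)) =
      xor (ψ (Zb (gpt R x))) (fire (gpt R x)) := fun i => hcon i i.2
  have hfin : ¬ ((((fun i => Zb (P i)) ∈ ZS ∧ (∃ s ∈ QQ, (∀ i, Near (s i) (cell (P i))) ∧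
          ∀ S : Finset (Fin k), ∀ u, (∀ i ∈ S, s i = u) → S.card ≤ 2) ∧ Mult4 Zb gs cell P) ∨
       (∃ q, E₀ ≤ q ∧ q ≤ k ∧ (fun i => gs (P i)) ∈ GS q ∧
          (∀ S : Finset (Fin k), ∀ u, (∀ i ∈ S, gs (P i) = u) → S.card ≤ k / q + 1) ∧
          ∀ b : Bool, k ≤ 20 * (Finset.univ.filter (fun i => ψ (Zb (P i)) = b)).card) ∨
       (Mult4 Zb gs cell P ∧
          ∀ b : Bool, k ≤ 20 * (Finset.univ.filter (fun i => ψ (Zb (P i)) = b)).card))) := by
    intro h
    obtain ⟨i, hi⟩ := hfire P hPPP h (xor (ψ (Zb (gpt R x))) (fire (gpt R x)))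
    exact hi (hmono i)
  apply hfin
  by_cases hS : ∃ q, 1 ≤ q ∧ q < E₀ ∧ Ret W θ q
  · -- slow case
    left
    obtain ⟨q, hq1, hqE, hRq⟩ := hS
    obtain ⟨y, n, hn, hy⟩ := slow_step W₀ H₀ E₀ q hW₀ hH1 hq1 hqE θ hRq
    obtain ⟨l, hl⟩ := hθ
    have hyl : 1 / (2 * (Q : ℝ)) ≤ |y l| := by
      have := hl (n l)
      rwa [hn l, add_sub_cancel_left] at this
    have hQ0 : (0 : ℝ) < Q := by exact_mod_cast hQ
    have hH0 : (1 : ℝ) ≤ H₀ := by exact_mod_cast hH1
    have hyl' : 1 / (4 * (Q : ℝ) * H₀) ≤ |y l| := by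
      refine le_trans ?_ hyl
      apply div_le_div_of_nonneg_left (by norm_num) (by positivity)
      nlinarith
    have happ : ∀ i : Fin k, ‖vG G lam W₀ R (P i) -
        (lam : ℂ) * G (fun l => (W₀ : ℝ) * x l + ((i : ℕ) : ℝ) * y l)‖ ≤ 1 / 2 := by
      intro i
      have h3 := vG_approx G hG lam W₀ R k hR1 hlR x θ i
      rwa [G_step G hG (W₀ : ℝ) x θ y n hn i] at h3
    refine ⟨?_, ?_, ?_, ?_⟩
    · simp only [hZS, mem_filter, mem_univ, true_and]
      refine ⟨q, hq1, hqE, x, θ, hRq, ?_⟩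
      ext i : 1
      exact (Zb_pat x θ i).symm
    · obtain ⟨s, hs, hs1, hs2⟩ := hQQ (fun l => (W₀ : ℝ) * x l) y hy ⟨l, hyl'⟩
        (fun i => vG G lam W₀ R (P i)) happ
      exact ⟨s, hs, hs1, hs2⟩
    · -- distinct cells
      intro S u hSu
      have : S.card ≤ 1 := by
        rw [Finset.card_le_one]
        intro i hi j hj
        by_contra hij
        have aux : ∀ a b : Fin k, a ∈ S → b ∈ S → a < b → False := by
          intro a b ha hb hab
          have h5 : pat Rs k x θ a = pat Rs k x θ b := by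
            rw [← gs_pat, ← gs_pat]
            exact (hSu a ha).trans (hSu b hb).symm
          have h6 := ret_of_pat_eq hRs1 x θ a b hab.le h5
          refine slow_no_ret W₀ H₀ Q k hW₀1 hH1 hQ hkH θ y n hn hy ⟨l, hyl⟩ _ ?_ ?_ h6
          · have : (a : ℕ) < b := hab
            omega
          · have := b.2
            omega
        rcases lt_or_gt_of_ne hij with h | h
        · exact aux i j hi hj h
        · exact aux j i hj hi h
      omega
    · intro S z u hSu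
      refine line_four G hG k lam Q H₀ W₀ R hk1 hQ hH hlam hR1 hlR x θ y n 1 le_rfl ?_ hy
        ⟨l, hyl'⟩ S u (fun i hi => (hSu i hi).2) (fun i _ j _ _ => one_dvd _)
      intro l'
      rw [Nat.cast_one, one_mul]
      exact hn l'
  · right
    have hnoS : ∀ q, 1 ≤ q → q < E₀ → ¬ Ret W θ q := fun q a b c => hS ⟨q, a, b, c⟩
    have hcol : ∀ b : Bool, k ≤ 20 * (Finset.univ.filter (fun i => ψ (Zb (P i)) = b)).card := by
      intro b
      have := hψ x θ hnoS b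
      have e : (Finset.univ.filter (fun i => ψ (Zb (P i)) = b)) =
          (Finset.univ.filter (fun i : Fin k => ψ (pat W k x θ i) = b)) := by
        ext i
        simp only [mem_filter, mem_univ, true_and]
        rw [Zb_pat]
      rw [e]; exact this
    by_cases h2a : ∃ q, 1 ≤ q ∧ 4 * q < k ∧ Ret Rs θ q
    · left
      have hspec := Nat.find_spec h2a
      have hmin : ∀ m, m < Nat.find h2a → ¬ (1 ≤ m ∧ 4 * m < k ∧ Ret Rs θ m) :=
        fun m hm => Nat.find_min h2a hm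
      set q := Nat.find h2a with hq
      refine ⟨q, ?_, by omega, ?_, ?_, hcol⟩
      · by_contra hlt
        push Not at hlt
        exact hnoS q hspec.1 hlt (ret_mono hW1 hWRs θ hspec.2.2)
      · simp only [hGS, mem_filter, mem_univ, true_and]
        refine ⟨hspec.1, by omega, x, θ, hspec.2.2, ?_⟩
        ext i : 1
        exact (gs_pat x θ i).symm
      · intro S u hSu
        apply card_le_of_sep hspec.1
        intro i hi j hj hij
        have h5 : pat Rs k x θ i = pat Rs k x θ j := by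
          rw [← gs_pat, ← gs_pat]
          exact (hSu i hi).trans (hSu j hj).symm
        have h6 := ret_of_pat_eq hRs1 x θ i j hij.le h5
        by_contra hlt
        push Not at hlt
        have h7 : (i : ℕ) < j := hij
        exact hmin _ hlt ⟨by omega, by omega, h6⟩
    · right
      have hnoR : ∀ m, 1 ≤ m → Ret Rs θ m → k ≤ 4 * m := by
        intro m hm hRm
        by_contra hlt
        push Not at hlt
        exact h2a ⟨m, hm, hlt, hRm⟩
      refine ⟨⟨?_, ?_⟩, hcol⟩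
      · intro S u hSu
        apply card_le_four_of_sep hk1 (q := (k + 3) / 4) (by omega)
        intro i hi j hj hij
        have h5 : pat Rs k x θ i = pat Rs k x θ j := by
          rw [← gs_pat, ← gs_pat]
          exact (hSu i hi).trans (hSu j hj).symm
        have h6 := ret_of_pat_eq hRs1 x θ i j hij.le h5
        have h7 : (i : ℕ) < j := hij
        have h8 := hnoR _ (by omega) h6
        omega
      · intro S z u hSu
        have hZeq : ∀ i ∈ S, ∀ j ∈ S, pat W k x θ i = pat W k x θ j := by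
          intro i hi j hj
          rw [← Zb_pat, ← Zb_pat]
          exact (hSu i hi).1.trans (hSu j hj).1.symm
        by_cases h3 : ∃ q, 1 ≤ q ∧ 4 * q < k ∧ Ret W θ q
        · have hspec := Nat.find_spec h3
          have hmin : ∀ m, m < Nat.find h3 → ¬ (1 ≤ m ∧ 4 * m < k ∧ Ret W θ m) :=
            fun m hm => Nat.find_min h3 hm
          set q := Nat.find h3 with hq
          have hnR : ¬ Ret (4 * Q * (W₀ * H₀)) θ q := by
            intro h
            have := hnoR q hspec.1 h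
            omega
          obtain ⟨y, n, hn, hy, hy1⟩ := line_step W₀ H₀ Q q hW₀1 hH1 hQ θ hspec.2.2 hnR
          refine line_four G hG k lam Q H₀ W₀ R hk1 hQ hH hlam hR1 hlR x θ y n q hspec.1 hn hy
            hy1 S u (fun i hi => (hSu i hi).2) ?_
          intro i hi j hj hij
          have h6 := ret_of_pat_eq hW1 x θ i j hij (hZeq i hi j hj)
          refine minimal_ret_dvd hkW θ hspec.1 (by omega) hspec.2.2 ?_ ?_ h6
          · intro m hm1 hm2 hRm
            exact hmin m hm2 ⟨hm1, by omega, hRm⟩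
          · have := j.2
            omega
        · apply card_le_four_of_sep hk1 (q := (k + 3) / 4) (by omega)
          intro i hi j hj hij
          have h6 := ret_of_pat_eq hW1 x θ i j hij.le (hZeq i hi j hj)
          have h7 : (i : ℕ) < j := hij
          by_contra hlt
          push Not at hlt
          exact h3 ⟨_, by omega, by omega, h6⟩

end Crest.Agent.VDW
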