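import Crest.Agent.VDW.Defs

/-!
# Row 64, R64-F : multiplicity along a curve
-/

set_option autoImplicit false

namespace Crest.Agent.VDW

open Finset

/-- quadratic Taylor polynomial of `exp (i x)` -/
private theorem curve_mult_exp (x : ℝ) (hx : |x| ≤ 1) :
    ‖Complex.exp (Complex.I * (x : ℂ)) - (1 + Complex.I * (x : ℂ) - (x : ℂ) ^ 2 / 2)‖ ≤ |x| ^ 3 := by
  have hn : ‖Complex.I * (x : ℂ)‖ = |x| := by
    rw [norm_mul, Complex.norm_I, one_mul, Complex.norm_real, Real.norm_eq_abs]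
  have h := Complex.exp_bound (x := Complex.I * (x : ℂ)) (by rw [hn]; exact hx) (n := 3) (by norm_num)
  rw [hn] at h
  have hs : (∑ m ∈ range 3, (Complex.I * (x : ℂ)) ^ m / (m.factorial : ℂ)) =
      1 + Complex.I * (x : ℂ) - (x : ℂ) ^ 2 / 2 := by
    simp only [Finset.sum_range_succ, Finset.sum_range_zero, Nat.factorial]
    have : (Complex.I * (x : ℂ)) ^ 2 = -(x : ℂ) ^ 2 := by
      rw [mul_pow, Complex.I_sq]; ring
    rw [this]
    push_cast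
    ring
  rw [hs] at h
  refine h.trans ?_
  have h3 : ((Nat.succ 3 : ℕ) : ℝ) * ((Nat.factorial 3 : ℕ) * (3 : ℕ) : ℝ)⁻¹ ≤ 1 := by
    norm_num [Nat.factorial]
  calc |x| ^ 3 * (((Nat.succ 3 : ℕ) : ℝ) * ((Nat.factorial 3 : ℕ) * (3 : ℕ) : ℝ)⁻¹)
      ≤ |x| ^ 3 * 1 := mul_le_mul_of_nonneg_left h3 (by positivity)
    _ = |x| ^ 3 := mul_one _

/-- quadratic Taylor polynomial of `expSum` -/
private theorem curve_mult_expSum {r : ℕ} (k : ℕ) (c : Fin r → ℂ) (ω : Fin r → ℝ) (Ω : ℝ)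
    (h0 : 0 ≤ Ω) (hc : ∑ j, ‖c j‖ ≤ 1) (hω : ∀ j, |ω j| ≤ Ω) (hΩk : Ω * k ≤ 1) (n : ℕ)
    (hn : n < k) :
    ‖expSum c ω n - ((∑ j, c j) + (∑ j, c j * (Complex.I * (ω j : ℂ))) * (n : ℂ) -
      (∑ j, c j * ((ω j : ℝ) : ℂ) ^ 2) / 2 * (n : ℂ) ^ 2)‖ ≤ (Ω * k) ^ 3 := by
  have e : expSum c ω n - ((∑ j, c j) + (∑ j, c j * (Complex.I * (ω j : ℂ))) * (n : ℂ) -
      (∑ j, c j * ((ω j : ℝ) : ℂ) ^ 2) / 2 * (n : ℂ) ^ 2) =
      ∑ j, c j * (Complex.exp (Complex.I * ((ω j * n : ℝ) : ℂ)) -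
        (1 + Complex.I * ((ω j * n : ℝ) : ℂ) - ((ω j * n : ℝ) : ℂ) ^ 2 / 2)) := by
    unfold expSum
    rw [Finset.sum_mul, Finset.sum_div, Finset.sum_mul, ← Finset.sum_add_distrib,
      ← Finset.sum_sub_distrib, ← Finset.sum_sub_distrib]
    refine Finset.sum_congr rfl fun j _ => ?_
    push_cast
    ring
  rw [e]
  have hkn : (n : ℝ) ≤ k := by exact_mod_cast hn.le
  have hb : ∀ j, |ω j * n| ≤ Ω * k := by
    intro j
    rw [abs_mul, Nat.abs_cast]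
    exact mul_le_mul (hω j) hkn (Nat.cast_nonneg n) h0
  have hk0 : 0 ≤ Ω * k := mul_nonneg h0 (Nat.cast_nonneg k)
  calc ‖∑ j, c j * (Complex.exp (Complex.I * ((ω j * n : ℝ) : ℂ)) -
        (1 + Complex.I * ((ω j * n : ℝ) : ℂ) - ((ω j * n : ℝ) : ℂ) ^ 2 / 2))‖
      ≤ ∑ j, ‖c j‖ * (Ω * k) ^ 3 := by
        refine norm_sum_le_of_le _ fun j _ => ?_
        rw [norm_mul]
        refine mul_le_mul_of_nonneg_left ?_ (norm_nonneg _)
        refine (curve_mult_exp (ω j * n) ((hb j).trans hΩk)).trans ?_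
        exact pow_le_pow_left₀ (abs_nonneg _) (hb j) 3
    _ = (∑ j, ‖c j‖) * (Ω * k) ^ 3 := by rw [Finset.sum_mul]
    _ ≤ 1 * (Ω * k) ^ 3 := mul_le_mul_of_nonneg_right hc (by positivity)
    _ = (Ω * k) ^ 3 := one_mul _

open Classical in
theorem curve_mult {r : ℕ} (k : ℕ) (c : Fin r → ℂ) (ω : Fin r → ℝ) (Ω lam κ : ℝ)
    (hlam : 0 < lam) (hc : ∑ j, ‖c j‖ ≤ 1) (hω : ∀ j, |ω j| ≤ Ω) (hΩk : Ω * k ≤ 1)
    (hκ : κ ≤ ‖∑ j, c j * ((ω j : ℝ) : ℂ) ^ 2‖) (hlk : 1000 ≤ lam * κ)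
    (hsm : 1000 * (Ω * k) ^ 3 ≤ κ) (v : ℕ → ℂ)
    (hv : ∀ i, i < k → ‖v i - (lam : ℂ) * expSum c ω i‖ ≤ 1 / 2) (i : ℕ) (hi : i < k) :
    ((Finset.range k).filter (fun j => ‖v j - v i‖ < 5)).card ≤ 2 := by
  have hκ0 : 0 < κ := by
    by_contra h
    push Not at h
    have : lam * κ ≤ 0 := mul_nonpos_of_nonneg_of_nonpos hlam.le h
    linarith
  have h0 : 0 ≤ Ω := by
    by_contra h
    push Not at h
    have he : ∀ j : Fin r, False := fun j => by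
      have := hω j
      have := abs_nonneg (ω j)
      linarith
    have : (∑ j, c j * ((ω j : ℝ) : ℂ) ^ 2) = 0 := Finset.sum_eq_zero fun j _ => (he j).elim
    rw [this, norm_zero] at hκ
    linarith
  set B1 : ℂ := ∑ j, c j * (Complex.I * (ω j : ℂ)) with hB1
  set B2 : ℂ := (∑ j, c j * ((ω j : ℝ) : ℂ) ^ 2) / 2 with hB2
  have hB2n : κ / 2 ≤ ‖B2‖ := by
    rw [hB2, norm_div]
    have : ‖(2 : ℂ)‖ = 2 := by norm_num
    rw [this]
    linarith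
  have hE := curve_mult_expSum k c ω Ω h0 hc hω hΩk
  have key : ∀ j, j < k → j ≠ i → ‖v j - v i‖ < 5 →
      ‖B1 - B2 * ((j : ℂ) + (i : ℂ))‖ ≤ κ / 125 := by
    intro j hj hji hvj
    have e1 : (lam : ℂ) * (((j : ℂ) - (i : ℂ)) * (B1 - B2 * ((j : ℂ) + (i : ℂ)))) =
        (v j - v i) - (v j - (lam : ℂ) * expSum c ω j) + (v i - (lam : ℂ) * expSum c ω i) -
        (lam : ℂ) * (expSum c ω j - ((∑ j, c j) + B1 * (j : ℂ) - B2 * (j : ℂ) ^ 2)) +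
        (lam : ℂ) * (expSum c ω i - ((∑ j, c j) + B1 * (i : ℂ) - B2 * (i : ℂ) ^ 2)) := by
      ring
    have hlamn : ‖(lam : ℂ)‖ = lam := by
      rw [Complex.norm_real, Real.norm_eq_abs, abs_of_pos hlam]
    have e2 : ‖(lam : ℂ) * (((j : ℂ) - (i : ℂ)) * (B1 - B2 * ((j : ℂ) + (i : ℂ))))‖ ≤
        5 + 1 / 2 + 1 / 2 + lam * (Ω * k) ^ 3 + lam * (Ω * k) ^ 3 := by
      rw [e1]
      refine (norm_add_le _ _).trans (add_le_add ((norm_sub_le _ _).trans (add_le_add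
        ((norm_add_le _ _).trans (add_le_add ((norm_sub_le _ _).trans (add_le_add hvj.le
          (hv j hj))) (hv i hi))) ?_)) ?_)
      · rw [norm_mul, hlamn]
        exact mul_le_mul_of_nonneg_left (hE j hj) hlam.le
      · rw [norm_mul, hlamn]
        exact mul_le_mul_of_nonneg_left (hE i hi) hlam.le
    rw [norm_mul, norm_mul, hlamn] at e2
    have h1 : 1 ≤ ‖(j : ℂ) - (i : ℂ)‖ := by
      have e3 : (j : ℂ) - (i : ℂ) = (((j : ℤ) - (i : ℤ) : ℤ) : ℂ) := by push_cast; ring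
      rw [e3, Complex.norm_intCast]
      have h4 : ((j : ℤ) - (i : ℤ)) ≠ 0 := by omega
      exact_mod_cast Int.one_le_abs h4
    have h5 : lam * ‖B1 - B2 * ((j : ℂ) + (i : ℂ))‖ ≤
        lam * (‖(j : ℂ) - (i : ℂ)‖ * ‖B1 - B2 * ((j : ℂ) + (i : ℂ))‖) := by
      refine mul_le_mul_of_nonneg_left ?_ hlam.le
      exact le_mul_of_one_le_left (norm_nonneg _) h1
    have h6 : lam * (1000 * (Ω * k) ^ 3) ≤ lam * κ := mul_le_mul_of_nonneg_left hsm hlam.le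
    have h7 : lam * ‖B1 - B2 * ((j : ℂ) + (i : ℂ))‖ ≤ lam * (κ / 125) := by
      nlinarith
    exact le_of_mul_le_mul_left h7 hlam
  by_contra hcard
  push Not at hcard
  set s := (Finset.range k).filter (fun j => ‖v j - v i‖ < 5) with hs
  have h1 : 1 < (s.erase i).card := by
    have := Finset.pred_card_le_card_erase (s := s) (a := i)
    omega
  obtain ⟨a, ha, b, hb, hab⟩ := Finset.one_lt_card.1 h1
  rw [Finset.mem_erase, hs, Finset.mem_filter, Finset.mem_range] at ha hb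
  have ka := key a ha.2.1 ha.1 ha.2.2
  have kb := key b hb.2.1 hb.1 hb.2.2
  have e4 : (B1 - B2 * ((a : ℂ) + (i : ℂ))) - (B1 - B2 * ((b : ℂ) + (i : ℂ))) =
      B2 * ((b : ℂ) - (a : ℂ)) := by ring
  have h2 : ‖B2 * ((b : ℂ) - (a : ℂ))‖ ≤ κ / 125 + κ / 125 := by
    rw [← e4]
    exact (norm_sub_le _ _).trans (add_le_add ka kb)
  rw [norm_mul] at h2
  have h3 : 1 ≤ ‖(b : ℂ) - (a : ℂ)‖ := by
    have e3 : (b : ℂ) - (a : ℂ) = (((b : ℤ) - (a : ℤ) : ℤ) : ℂ) := by push_cast; ring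
    rw [e3, Complex.norm_intCast]
    have h4 : ((b : ℤ) - (a : ℤ)) ≠ 0 := by omega
    exact_mod_cast Int.one_le_abs h4
  have h4 : ‖B2‖ ≤ ‖B2‖ * ‖(b : ℂ) - (a : ℂ)‖ := le_mul_of_one_le_right (norm_nonneg _) h3
  linarith

end Crest.Agent.VDW
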