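import Crest.Agent.VDW.Defs

/-!
# Row 64 (S0086), chunk R64-G: net of polynomial curves
-/

set_option autoImplicit false

namespace Crest.Agent.VDW

open Finset

private lemma cn_taylor (T : ℕ) (x : ℝ) (hx : |x| ≤ 1) :
    ‖Complex.exp (Complex.I * (x:ℂ)) -
      ∑ n ∈ Finset.range (T+1), (Complex.I * (x:ℂ))^n / (n.factorial : ℂ)‖ ≤ |x|^(T+1) := by
  rcases Nat.eq_zero_or_pos T with h0 | hpos
  · subst h0
    simpa using Real.norm_exp_I_mul_ofReal_sub_one_le (x := x)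
  · have hn : ‖Complex.I * (x:ℂ)‖ = |x| := by simp
    have h := Complex.exp_bound (x := Complex.I * (x:ℂ)) (by rw [hn]; exact hx) (n := T+1) (by omega)
    rw [hn] at h
    refine h.trans ?_
    have hf : (((T+1).succ : ℕ) : ℝ) * (((T+1).factorial : ℝ) * ((T+1 : ℕ) : ℝ))⁻¹ ≤ 1 := by
      have h1 : 2 ≤ (T+1).factorial := by
        calc 2 = Nat.factorial 2 := by norm_num [Nat.factorial]
          _ ≤ (T+1).factorial := Nat.factorial_le (by omega)
      have h2 : (T+1).succ ≤ (T+1).factorial * (T+1) := by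
        calc (T+1).succ ≤ 2 * (T+1) := by simp only [Nat.succ_eq_add_one]; omega
          _ ≤ (T+1).factorial * (T+1) := Nat.mul_le_mul_right _ h1
      have h3 : (0:ℝ) < ((T+1).factorial : ℝ) * ((T+1 : ℕ) : ℝ) := by positivity
      rw [← div_eq_mul_inv, div_le_one h3]
      exact_mod_cast h2
    calc |x| ^ (T+1) * ((((T+1).succ : ℕ) : ℝ) * (((T+1).factorial : ℝ) * ((T+1 : ℕ) : ℝ))⁻¹)
        ≤ |x| ^ (T+1) * 1 := mul_le_mul_of_nonneg_left hf (by positivity)
      _ = |x| ^ (T+1) := mul_one _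

/-- the polynomial curve with rounded coefficients -/
private noncomputable def cnW (k T : ℕ) (g : Fin (T+1) → ℤ × ℤ) (i : ℝ) : ℂ :=
  ∑ n : Fin (T+1), ((((g n).1 : ℂ) + ((g n).2 : ℂ) * Complex.I) /
    ((8 * (T+1) * k ^ (n:ℕ) : ℕ) : ℂ)) * (i : ℂ) ^ (n:ℕ)

private lemma cn_round (a : ℂ) (S : ℕ) (hS : 1 ≤ S) :
    ‖((((round (a.re * S) : ℤ)) : ℂ) + ((round (a.im * S) : ℤ) : ℂ) * Complex.I) / ((S : ℕ) : ℂ) - a‖
      ≤ 1 / (S : ℝ) := by
  have hS0 : (0:ℝ) < S := by exact_mod_cast hS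
  have hSc : ((S:ℕ):ℂ) ≠ 0 := by
    exact_mod_cast (by omega : S ≠ 0)
  have hz : ((((round (a.re * S) : ℤ)) : ℂ) + ((round (a.im * S) : ℤ) : ℂ) * Complex.I) / ((S : ℕ) : ℂ) - a
      = ((((((round (a.re * S) : ℤ)) : ℝ) - a.re * S : ℝ) : ℂ) + (((((round (a.im * S) : ℤ)) : ℝ) - a.im * S : ℝ) : ℂ) * Complex.I) / ((S:ℕ):ℂ) := by
    rw [div_sub' hSc]
    congr 1
    apply Complex.ext
    · simp [mul_comm]
    · simp [mul_comm]
  rw [hz, norm_div]
  have h1 : ‖((((((round (a.re * S) : ℤ)) : ℝ) - a.re * S : ℝ) : ℂ) + (((((round (a.im * S) : ℤ)) : ℝ) - a.im * S : ℝ) : ℂ) * Complex.I)‖ ≤ 1 := by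
    refine (norm_add_le _ _).trans ?_
    rw [norm_mul, Complex.norm_I, mul_one, Complex.norm_real, Complex.norm_real, Real.norm_eq_abs, Real.norm_eq_abs]
    have ha := abs_sub_round (a.re * S)
    have hb := abs_sub_round (a.im * S)
    rw [abs_sub_comm] at ha hb
    linarith
  have h2 : ‖((S:ℕ):ℂ)‖ = (S:ℝ) := by simp
  rw [h2]
  exact div_le_div_of_nonneg_right h1 hS0.le

private lemma cn_round_bd (y : ℝ) (B : ℕ) (hy : |y| ≤ B) : |round y| ≤ (B : ℤ) := by
  have h := abs_sub_round y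
  have h1 : |((round y : ℤ) : ℝ)| ≤ |y| + 1/2 := by
    have : ((round y : ℤ) : ℝ) = y - (y - round y) := by ring
    rw [this]
    exact (abs_sub _ _).trans (by linarith)
  have h2 : |((round y : ℤ) : ℝ)| < (B : ℝ) + 1 := by linarith
  have h3 : ((|round y| : ℤ) : ℝ) < ((B + 1 : ℤ) : ℝ) := by push_cast; exact h2
  have h4 : |round y| < (B:ℤ) + 1 := by exact_mod_cast h3
  omega

theorem curve_net (k T lam : ℕ) (hk : 1 ≤ k) (hlam : 1 ≤ lam) :
    ∃ QQ : Finset (Fin k → ℤ × ℤ), QQ.card ≤ (200 * lam * (T + 1) * k ^ T) ^ (2 * (T + 1)) ∧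
      ∀ (r : ℕ) (c : Fin r → ℂ) (ω : Fin r → ℝ) (Ω : ℝ), (∑ j, ‖c j‖ ≤ 1) →
        (∀ j, |ω j| ≤ Ω) → Ω * k ≤ 1 → 8 * lam * (Ω * k) ^ (T + 1) ≤ 1 →
        ∃ w : Fin k → ℂ, (∀ i : Fin k, ‖w i - (lam : ℂ) * expSum c ω ((i : ℕ) : ℝ)‖ ≤ 1 / 4) ∧
          (fun i => (⌊(w i).re⌋, ⌊(w i).im⌋)) ∈ QQ := by
  classical
  set B : ℕ := 8 * lam * (T+1) * k ^ T with hB
  set box : Finset (Fin (T+1) → ℤ × ℤ) :=
    Fintype.piFinset (fun _ : Fin (T+1) => (Finset.Icc (-(B:ℤ)) B) ×ˢ (Finset.Icc (-(B:ℤ)) B)) with hbox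
  refine ⟨box.image (fun g => fun i : Fin k => (⌊(cnW k T g ((i:ℕ):ℝ)).re⌋, ⌊(cnW k T g ((i:ℕ):ℝ)).im⌋)), ?_, ?_⟩
  · refine Finset.card_image_le.trans ?_
    rw [hbox, Fintype.card_piFinset]
    simp only [Finset.card_product, Int.card_Icc, Finset.prod_const, Finset.card_univ, Fintype.card_fin]
    have e1 : ((B:ℤ) + 1 - -(B:ℤ)).toNat = 2 * B + 1 := by omega
    rw [e1, ← pow_two, ← pow_mul]
    apply Nat.pow_le_pow_left
    have hpos : 1 ≤ lam * (T+1) * k ^ T := by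
      have : 0 < lam * (T+1) * k ^ T := by positivity
      exact this
    rw [hB]
    nlinarith [hpos]
  · intro r c ω Ω hc hω hΩ hT
    -- coefficients
    set a : ℕ → ℂ := fun n => (lam : ℂ) * ∑ j, c j * (Complex.I * (ω j : ℂ)) ^ n / (n.factorial : ℂ) with ha
    have hω1 : ∀ j, |ω j| ≤ 1 := by
      intro j
      have h0 : 0 ≤ Ω := (abs_nonneg _).trans (hω j)
      have hk1 : (1:ℝ) ≤ k := by exact_mod_cast hk
      nlinarith [hω j]
    have hanorm : ∀ n, ‖a n‖ ≤ lam := by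
      intro n
      rw [ha]
      simp only
      rw [norm_mul, Complex.norm_natCast]
      have : ‖∑ j, c j * (Complex.I * (ω j : ℂ)) ^ n / (n.factorial : ℂ)‖ ≤ 1 := by
        refine (norm_sum_le _ _).trans (le_trans ?_ hc)
        apply Finset.sum_le_sum
        intro j _
        rw [norm_div, norm_mul, norm_pow, norm_mul, Complex.norm_I, one_mul, Complex.norm_real, Real.norm_eq_abs,
          Complex.norm_natCast]
        have hf : (1:ℝ) ≤ (n.factorial : ℝ) := by exact_mod_cast Nat.one_le_iff_ne_zero.mpr (Nat.factorial_ne_zero n)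
        have hp : |ω j| ^ n ≤ 1 := pow_le_one₀ (abs_nonneg _) (hω1 j)
        rw [div_le_iff₀ (by linarith)]
        have h0 : 0 ≤ ‖c j‖ := norm_nonneg _
        nlinarith [mul_le_mul_of_nonneg_left hp h0, mul_le_mul_of_nonneg_left hf h0]
      calc (lam:ℝ) * _ ≤ (lam:ℝ) * 1 := mul_le_mul_of_nonneg_left this (by positivity)
        _ = lam := mul_one _
    set S : ℕ → ℕ := fun n => 8 * (T+1) * k ^ n with hS
    set g : Fin (T+1) → ℤ × ℤ := fun n =>
      (round ((a n).re * (S n : ℕ)), round ((a n).im * (S n : ℕ))) with hg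
    refine ⟨fun i => cnW k T g ((i:ℕ):ℝ), ?_, ?_⟩
    · intro i
      have hik : ((i:ℕ):ℝ) ≤ k := by exact_mod_cast i.2.le
      have hi0 : (0:ℝ) ≤ ((i:ℕ):ℝ) := by positivity
      -- polynomial part
      have hpoly : ‖cnW k T g ((i:ℕ):ℝ) - ∑ n ∈ Finset.range (T+1), a n * (((i:ℕ):ℝ):ℂ) ^ n‖ ≤ 1/8 := by
        rw [Finset.sum_range, cnW, ← Finset.sum_sub_distrib]
        refine (norm_sum_le _ _).trans ?_
        have hterm : ∀ n : Fin (T+1), ‖((((g n).1 : ℂ) + ((g n).2 : ℂ) * Complex.I) /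
            ((8 * (T+1) * k ^ (n:ℕ) : ℕ) : ℂ)) * ((((i:ℕ):ℝ)) : ℂ) ^ (n:ℕ) - a n * (((i:ℕ):ℝ):ℂ) ^ (n:ℕ)‖
            ≤ 1 / (8 * ((T:ℝ)+1)) := by
          intro n
          rw [← sub_mul, norm_mul, norm_pow, Complex.norm_real, Real.norm_eq_abs, abs_of_nonneg hi0]
          have h1 := cn_round (a n) (S n) (by
            have : 0 < S n := by rw [hS]; positivity
            exact this)
          have h1' : ‖((((g n).1 : ℂ) + ((g n).2 : ℂ) * Complex.I) /
            ((8 * (T+1) * k ^ (n:ℕ) : ℕ) : ℂ)) - a n‖ ≤ 1 / (S n : ℝ) := h1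
          have hpk : ((i:ℕ):ℝ) ^ (n:ℕ) ≤ (k:ℝ) ^ (n:ℕ) := pow_le_pow_left₀ hi0 hik _
          calc _ ≤ 1 / (S n : ℝ) * (k:ℝ) ^ (n:ℕ) := mul_le_mul h1' hpk (by positivity) (by positivity)
            _ = 1 / (8 * ((T:ℝ)+1)) := by
                have hk0 : (k:ℝ) ^ (n:ℕ) ≠ 0 := by
                  have : (0:ℝ) < (k:ℝ) ^ (n:ℕ) := by positivity
                  exact this.ne'
                simp only [hS]
                push_cast
                field_simp
        calc _ ≤ ∑ n : Fin (T+1), 1 / (8 * ((T:ℝ)+1)) := Finset.sum_le_sum (fun n _ => hterm n)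
          _ = 1/8 := by
              simp only [Finset.sum_const, Finset.card_univ, Fintype.card_fin, nsmul_eq_mul]
              push_cast
              field_simp
      -- Taylor part
      have htay : ‖(∑ n ∈ Finset.range (T+1), a n * (((i:ℕ):ℝ):ℂ) ^ n) - (lam : ℂ) * expSum c ω ((i : ℕ) : ℝ)‖ ≤ 1/8 := by
        have hrew : (∑ n ∈ Finset.range (T+1), a n * (((i:ℕ):ℝ):ℂ) ^ n) =
            (lam:ℂ) * ∑ j, c j * ∑ n ∈ Finset.range (T+1), (Complex.I * ((ω j * ((i:ℕ):ℝ) : ℝ) : ℂ)) ^ n / (n.factorial : ℂ) := by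
          simp only [ha, Finset.mul_sum, Finset.sum_mul]
          rw [Finset.sum_comm]
          apply Finset.sum_congr rfl
          intro j _
          apply Finset.sum_congr rfl
          intro n _
          push_cast
          ring
        rw [hrew, expSum, ← mul_sub, ← Finset.sum_sub_distrib, norm_mul, Complex.norm_natCast]
        have hsum : ‖∑ j, (c j * ∑ n ∈ Finset.range (T+1), (Complex.I * ((ω j * ((i:ℕ):ℝ) : ℝ) : ℂ)) ^ n / (n.factorial : ℂ)
            - c j * Complex.exp (Complex.I * ((ω j * ((i:ℕ):ℝ) : ℝ) : ℂ)))‖ ≤ ∑ j, ‖c j‖ * (Ω * k) ^ (T+1) := by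
          refine (norm_sum_le _ _).trans (Finset.sum_le_sum ?_)
          intro j _
          rw [← mul_sub, norm_mul]
          apply mul_le_mul_of_nonneg_left _ (norm_nonneg _)
          rw [norm_sub_rev]
          have hx : |ω j * ((i:ℕ):ℝ)| ≤ Ω * k := by
            rw [abs_mul, abs_of_nonneg hi0]
            exact mul_le_mul (hω j) hik hi0 ((abs_nonneg _).trans (hω j))
          refine (cn_taylor T _ (hx.trans hΩ)).trans ?_
          exact pow_le_pow_left₀ (abs_nonneg _) hx _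
        rcases Nat.eq_zero_or_pos r with hr | hr
        · subst hr
          simp
        · have hΩ0 : 0 ≤ Ω := (abs_nonneg _).trans (hω ⟨0, hr⟩)
          have hP : 0 ≤ (Ω * k) ^ (T+1) := by positivity
          have h2 : ∑ j, ‖c j‖ * (Ω * k) ^ (T+1) ≤ (Ω * k) ^ (T+1) := by
            rw [← Finset.sum_mul]
            calc _ ≤ 1 * (Ω * k) ^ (T+1) := mul_le_mul_of_nonneg_right hc hP
              _ = _ := one_mul _
          calc (lam:ℝ) * _ ≤ (lam:ℝ) * (Ω * k) ^ (T+1) := mul_le_mul_of_nonneg_left (hsum.trans h2) (by positivity)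
            _ ≤ 1/8 := by linarith
      have := norm_sub_le_norm_sub_add_norm_sub (cnW k T g ((i:ℕ):ℝ)) (∑ n ∈ Finset.range (T+1), a n * (((i:ℕ):ℝ):ℂ) ^ n) ((lam : ℂ) * expSum c ω ((i : ℕ) : ℝ))
      linarith
    · rw [Finset.mem_image]
      refine ⟨g, ?_, rfl⟩
      rw [hbox, Fintype.mem_piFinset]
      intro n
      rw [Finset.mem_product, Finset.mem_Icc, Finset.mem_Icc]
      have hSB : lam * S n ≤ B := by
        rw [hS, hB]
        simp only
        have : k ^ (n:ℕ) ≤ k ^ T := Nat.pow_le_pow_right hk (by omega)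
        calc lam * (8 * (T+1) * k ^ (n:ℕ)) = 8 * lam * (T+1) * k ^ (n:ℕ) := by ring
          _ ≤ 8 * lam * (T+1) * k ^ T := Nat.mul_le_mul_left _ this
      have hSBr : (lam:ℝ) * (S n : ℝ) ≤ (B:ℝ) := by exact_mod_cast hSB
      have h1 : |round ((a n).re * (S n : ℕ))| ≤ (B:ℤ) := by
        apply cn_round_bd
        rw [abs_mul, Nat.abs_cast]
        refine le_trans ?_ hSBr
        exact mul_le_mul_of_nonneg_right ((Complex.abs_re_le_norm _).trans (hanorm n)) (by positivity)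
      have h2 : |round ((a n).im * (S n : ℕ))| ≤ (B:ℤ) := by
        apply cn_round_bd
        rw [abs_mul, Nat.abs_cast]
        refine le_trans ?_ hSBr
        exact mul_le_mul_of_nonneg_right ((Complex.abs_im_le_norm _).trans (hanorm n)) (by positivity)
      exact ⟨abs_le.mp h1, abs_le.mp h2⟩

end Crest.Agent.VDW
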