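import Crest.Agent.VDW.Defs

/-!
# Row 64 (S0086): digital lines are few (chunk R64-B)
-/

set_option autoImplicit false

namespace Crest.Agent.VDW

open Finset

/-- decoded value of `⌊t β⌋` -/
private def dlG (r : ℕ) (p : ℤ) (b : Bool) (t : ℤ) : ℤ :=
  if 0 ≤ t then (t * p) / r else if b then (t * p) / r else -(((-t) * p) / r) - 1

/-- division of integers and floor -/
private theorem dl_div {r : ℕ} (hr : 0 < r) {a F : ℤ} (h1 : F * r ≤ a) (h2 : a < (F + 1) * r) :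
    a / (r : ℤ) = F := by
  have hr' : (0 : ℤ) < r := by exact_mod_cast hr
  have e1 : F ≤ a / (r : ℤ) := (Int.le_ediv_iff_mul_le hr').2 h1
  have e2 : a / (r : ℤ) < F + 1 := (Int.ediv_lt_iff_lt_mul hr').2 h2
  omega

private theorem dl_pos {n r : ℕ} (hr : 0 < r) {β : ℝ}
    (hmax : ∀ k : ℕ, 1 ≤ k → k ≤ n → (⌊(k : ℝ) * β⌋ : ℝ) / k ≤ (⌊(r : ℝ) * β⌋ : ℝ) / r)
    (k : ℕ) (hk : 1 ≤ k) (hkn : k ≤ n) :
    ((k : ℤ) * ⌊(r : ℝ) * β⌋) / (r : ℤ) = ⌊(k : ℝ) * β⌋ := by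
  have hr' : (0 : ℝ) < r := by exact_mod_cast hr
  have hk' : (0 : ℝ) < k := by exact_mod_cast hk
  have h1 := hmax k hk hkn
  rw [div_le_div_iff₀ hk' hr'] at h1
  have h2 : (⌊(r : ℝ) * β⌋ : ℝ) ≤ r * β := Int.floor_le _
  have h3 : (k : ℝ) * β < ⌊(k : ℝ) * β⌋ + 1 := Int.lt_floor_add_one _
  refine dl_div hr ?_ ?_
  · have : ((⌊(k : ℝ) * β⌋ * (r : ℤ) : ℤ) : ℝ) ≤ (((k : ℤ) * ⌊(r : ℝ) * β⌋ : ℤ) : ℝ) := by
      push_cast
      linarith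
    exact_mod_cast this
  · have : ((((k : ℤ) * ⌊(r : ℝ) * β⌋ : ℤ)) : ℝ) < (((⌊(k : ℝ) * β⌋ + 1) * (r : ℤ) : ℤ) : ℝ) := by
      push_cast
      nlinarith
    exact_mod_cast this

private theorem dl_G {n r : ℕ} (hr : 0 < r) {β : ℝ}
    (hmax : ∀ k : ℕ, 1 ≤ k → k ≤ n → (⌊(k : ℝ) * β⌋ : ℝ) / k ≤ (⌊(r : ℝ) * β⌋ : ℝ) / r)
    (b : Bool) (hb : b = true ↔ (⌊(r : ℝ) * β⌋ : ℝ) = r * β) (t : ℤ) (ht : |t| ≤ n) :
    ⌊(t : ℝ) * β⌋ = dlG r ⌊(r : ℝ) * β⌋ b t := by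
  have hr' : (0 : ℝ) < r := by exact_mod_cast hr
  unfold dlG
  split_ifs with h0 hb'
  · obtain ⟨k, rfl⟩ := Int.eq_ofNat_of_zero_le h0
    rcases Nat.eq_zero_or_pos k with hk | hk
    · subst hk
      simp
    · have hkn : k ≤ n := by
        have : |((k : ℕ) : ℤ)| = k := abs_of_nonneg (by positivity)
        omega
      rw [dl_pos hr hmax k hk hkn]
      norm_cast
  · have e := hb.1 hb'
    symm
    refine dl_div hr ?_ ?_
    · have h1 : (⌊(t : ℝ) * β⌋ : ℝ) ≤ t * β := Int.floor_le _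
      have : ((⌊(t : ℝ) * β⌋ * (r : ℤ) : ℤ) : ℝ) ≤ ((t * ⌊(r : ℝ) * β⌋ : ℤ) : ℝ) := by
        push_cast
        rw [e]
        nlinarith
      exact_mod_cast this
    · have h1 : (t : ℝ) * β < ⌊(t : ℝ) * β⌋ + 1 := Int.lt_floor_add_one _
      have : ((t * ⌊(r : ℝ) * β⌋ : ℤ) : ℝ) < (((⌊(t : ℝ) * β⌋ + 1) * (r : ℤ) : ℤ) : ℝ) := by
        push_cast
        rw [e]
        nlinarith
      exact_mod_cast this
  · have h0' : 0 < -t := by omega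
    obtain ⟨k, hk⟩ := Int.eq_ofNat_of_zero_le h0'.le
    have hk1 : 1 ≤ k := by omega
    have hkn : k ≤ n := by
      have : |t| = -t := abs_of_neg (by omega)
      omega
    have hk' : (0 : ℝ) < k := by exact_mod_cast hk1
    have e1 : t = -(k : ℤ) := by omega
    rw [hk]
    rw [dl_pos hr hmax k hk1 hkn, e1]
    have hne : (⌊(k : ℝ) * β⌋ : ℝ) ≠ k * β := by
      intro h
      have h1 := hmax k hk1 hkn
      rw [h, mul_div_cancel_left₀ _ hk'.ne', le_div_iff₀ hr'] at h1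
      have h2 : (⌊(r : ℝ) * β⌋ : ℝ) ≤ r * β := Int.floor_le _
      exact hb' (hb.2 (le_antisymm h2 (by linarith)))
    have h1 : (⌊(k : ℝ) * β⌋ : ℝ) ≤ k * β := Int.floor_le _
    have h2 : (k : ℝ) * β < ⌊(k : ℝ) * β⌋ + 1 := Int.lt_floor_add_one _
    have h3 : (⌊(k : ℝ) * β⌋ : ℝ) < k * β := lt_of_le_of_ne h1 hne
    rw [Int.floor_eq_iff]
    push_cast
    constructor <;> linarith

private theorem dl_shift {n : ℕ} (i₀ : Fin n) (α β : ℝ) :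
    ∃ (s : Fin n) (M : ℤ), ∀ i : Fin n,
      ⌊α + ((i : ℕ) : ℝ) * β⌋ = M + ⌊((((i : ℕ) : ℤ) - ((s : ℕ) : ℤ) : ℤ) : ℝ) * β⌋ := by
  obtain ⟨s, _, hs⟩ := Finset.exists_min_image (univ : Finset (Fin n))
    (fun i => Int.fract (α + ((i : ℕ) : ℝ) * β)) ⟨i₀, Finset.mem_univ _⟩
  refine ⟨s, ⌊α + ((s : ℕ) : ℝ) * β⌋, fun i => ?_⟩
  have h1 := hs i (Finset.mem_univ _)
  rw [← Int.floor_intCast_add]
  have e : ((⌊α + ((s : ℕ) : ℝ) * β⌋ : ℤ) : ℝ) +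
      ((((i : ℕ) : ℤ) - ((s : ℕ) : ℤ) : ℤ) : ℝ) * β =
      α + ((i : ℕ) : ℝ) * β - Int.fract (α + ((s : ℕ) : ℝ) * β) := by
    have h2 := Int.floor_add_fract (α + ((s : ℕ) : ℝ) * β)
    push_cast
    linarith
  rw [e]
  symm
  rw [Int.floor_eq_iff]
  have h3 := Int.floor_add_fract (α + ((i : ℕ) : ℝ) * β)
  have h4 := Int.fract_nonneg (α + ((s : ℕ) : ℝ) * β)
  have h5 := Int.lt_floor_add_one (α + ((i : ℕ) : ℝ) * β)

  constructor <;> linarith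

private noncomputable def dlDec (V n : ℕ) (i₀ : Fin n) (m : ZMod V) (b₀ : ℝ)
    (c : Fin n × ℕ × ℕ × Bool) : Fin n → ZMod V := fun i =>
  m + ((dlG c.2.1 (⌊(c.2.1 : ℝ) * (b₀ - 1)⌋ + (c.2.2.1 : ℕ)) c.2.2.2
      (((i : ℕ) : ℤ) - ((c.1 : ℕ) : ℤ)) -
    dlG c.2.1 (⌊(c.2.1 : ℝ) * (b₀ - 1)⌋ + (c.2.2.1 : ℕ)) c.2.2.2
      (((i₀ : ℕ) : ℤ) - ((c.1 : ℕ) : ℤ)) : ℤ) : ZMod V)

/-! R64-B : digital lines -/
theorem dl_core (V n : ℕ) [NeZero V] (i₀ : Fin n) (m : ZMod V) (b₀ : ℝ) :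
    ∃ SS : Finset (Fin n → ZMod V), SS.card ≤ 64 * n ^ 4 ∧
      ∀ α β : ℝ, |β - b₀| ≤ 1 →
        ((⌊α + ((i₀ : ℕ) : ℝ) * β⌋ : ℤ) : ZMod V) = m →
        (fun i : Fin n => ((⌊α + ((i : ℕ) : ℝ) * β⌋ : ℤ) : ZMod V)) ∈ SS := by
  classical
  have hn : 1 ≤ n := by
    have := i₀.2
    omega
  refine ⟨((univ : Finset (Fin n)) ×ˢ range (n + 1) ×ˢ range (4 * n) ×ˢ
    (univ : Finset Bool)).image (dlDec V n i₀ m b₀), ?_, ?_⟩
  · refine Finset.card_image_le.trans ?_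
    rw [Finset.card_product, Finset.card_product, Finset.card_product, Finset.card_univ,
      Finset.card_univ, Fintype.card_fin, Fintype.card_bool, Finset.card_range,
      Finset.card_range]
    have h1 : n * ((n + 1) * (4 * n * 2)) ≤ n * ((2 * n) * (4 * n * 2)) := by
      gcongr
      omega
    refine h1.trans ?_
    have h2 : n ^ 3 ≤ n ^ 4 := Nat.pow_le_pow_right hn (by norm_num)
    calc n * ((2 * n) * (4 * n * 2)) = 16 * n ^ 3 := by ring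
      _ ≤ 64 * n ^ 4 := by omega
  · intro α β hβ hm
    obtain ⟨s, M, hsM⟩ := dl_shift i₀ α β
    obtain ⟨r, hr, hmax⟩ := Finset.exists_max_image (Finset.Icc 1 n)
      (fun k : ℕ => (⌊(k : ℝ) * β⌋ : ℝ) / k) ⟨1, Finset.mem_Icc.2 ⟨le_rfl, hn⟩⟩
    rw [Finset.mem_Icc] at hr
    have hmax' : ∀ k : ℕ, 1 ≤ k → k ≤ n →
        (⌊(k : ℝ) * β⌋ : ℝ) / k ≤ (⌊(r : ℝ) * β⌋ : ℝ) / r :=
      fun k h1 h2 => hmax k (Finset.mem_Icc.2 ⟨h1, h2⟩)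
    have hr0 : (0 : ℝ) < r := by exact_mod_cast hr.1
    rw [abs_le] at hβ
    -- the numerator
    have hp1 : ⌊(r : ℝ) * (b₀ - 1)⌋ ≤ ⌊(r : ℝ) * β⌋ :=
      Int.floor_le_floor (mul_le_mul_of_nonneg_left (by linarith) hr0.le)
    obtain ⟨j, hj⟩ := Int.le.dest hp1
    have hj4 : j < 4 * n := by
      have h1 : (⌊(r : ℝ) * β⌋ : ℝ) ≤ r * β := Int.floor_le _
      have h2 : (r : ℝ) * (b₀ - 1) < ⌊(r : ℝ) * (b₀ - 1)⌋ + 1 := Int.lt_floor_add_one _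
      have h3 : ((⌊(r : ℝ) * (b₀ - 1)⌋ + (j : ℤ) : ℤ) : ℝ) = (⌊(r : ℝ) * β⌋ : ℝ) := by
        exact_mod_cast hj
      push_cast at h3
      have h4 : (r : ℝ) * β ≤ r * (b₀ - 1) + 2 * r := by nlinarith
      have h5 : (j : ℝ) < 2 * r + 1 := by linarith
      have h6 : j < 2 * r + 1 := by exact_mod_cast h5
      have := hr.2
      omega
    refine Finset.mem_image.2 ⟨(s, r, j, decide ((⌊(r : ℝ) * β⌋ : ℝ) = r * β)), ?_, ?_⟩
    · refine Finset.mem_product.2 ⟨Finset.mem_univ _, Finset.mem_product.2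
        ⟨Finset.mem_range.2 (by have := hr.2; show r < n + 1; omega),
          Finset.mem_product.2 ⟨Finset.mem_range.2 hj4, Finset.mem_univ _⟩⟩⟩
    · funext i
      show m + ((dlG r (⌊(r : ℝ) * (b₀ - 1)⌋ + (j : ℤ)) _ _ - dlG r _ _ _ : ℤ) : ZMod V) = _
      rw [hj]
      have hG : ∀ i : Fin n, ⌊((((i : ℕ) : ℤ) - ((s : ℕ) : ℤ) : ℤ) : ℝ) * β⌋ =
          dlG r ⌊(r : ℝ) * β⌋ (decide ((⌊(r : ℝ) * β⌋ : ℝ) = r * β))
            (((i : ℕ) : ℤ) - ((s : ℕ) : ℤ)) := by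
        intro i
        refine dl_G (by omega) hmax' _ (by rw [decide_eq_true_iff]) _ ?_
        rw [abs_le]
        have h1 := i.2
        have h2 := s.2
        constructor <;> omega
      rw [← hG i, ← hG i₀, ← hm, hsM i₀, hsM i]
      push_cast
      ring

end Crest.Agent.VDW
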