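import Mathlib

/-!
# Row 64 (S0086): definitions for the colouring of the torus without monochromatic progressions
-/

set_option autoImplicit false

namespace Crest.Agent.VDW

open Finset

/-- The digital pattern at precision `V` of the progression `x + i θ`, `i < n`, in the torus. -/
noncomputable def pat {D : ℕ} (V n : ℕ) (x θ : Fin D → ℝ) : Fin n → Fin D → ZMod V :=
  fun i l => ((⌊(V : ℝ) * (x l + ((i : ℕ) : ℝ) * θ l)⌋ : ℤ) : ZMod V)

/-- `q` is a return time of `θ` at precision `1/V`. -/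
def Ret {D : ℕ} (V : ℕ) (θ : Fin D → ℝ) (q : ℕ) : Prop :=
  ∀ l, ∃ b : ℤ, |(q : ℝ) * θ l - (b : ℝ)| < 1 / (V : ℝ)

/-- nearby cells of `ℤ × ℤ` (sup distance at most one) -/
def Near (a b : ℤ × ℤ) : Prop := |a.1 - b.1| ≤ 1 ∧ |a.2 - b.2| ≤ 1

/-- coarsening a digit vector from precision `V` to precision `V'` (`V' ∣ V`). -/
def coarse {D : ℕ} (V V' : ℕ) (g : Fin D → ZMod V) : Fin D → ZMod V' :=
  fun l => (((g l).val / (V / V') : ℕ) : ZMod V')

/-- finite exponential sum -/
noncomputable def expSum {r : ℕ} (c : Fin r → ℂ) (ω : Fin r → ℝ) (t : ℝ) : ℂ :=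
  ∑ j, c j * Complex.exp (Complex.I * ((ω j * t : ℝ) : ℂ))

end Crest.Agent.VDW
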