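import Crest.Agent.VDW.Defs

/-!
# Row 64 (S0086): definitions around the torus function `G`
-/

set_option autoImplicit false

namespace Crest.Agent.VDW

open Finset

/-- the value of `lam * G` at a grid point -/
noncomputable def vG {D : ℕ} (G : (Fin D → ℝ) → ℂ) (lam W₀ R : ℕ) (g : Fin D → ZMod R) : ℂ :=
  (lam : ℂ) * G (fun l => (W₀ : ℝ) * ((g l).val : ℝ) / (R : ℝ))

/-- the cell of a complex number -/
noncomputable def cel (v : ℂ) : ℤ × ℤ := (⌊v.re⌋, ⌊v.im⌋)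

/-- the property of `G` supplied by `exists_G` -/
def GoodG {D : ℕ} (G : (Fin D → ℝ) → ℂ) : Prop :=
    (∀ (z : Fin D → ℝ) (n : Fin D → ℤ), G (fun l => z l + (n l : ℝ)) = G z) ∧
    ∀ (z y : Fin D → ℝ) (Y : ℝ), (∀ l, |y l| ≤ Y) → ∃ (r : ℕ) (c : Fin r → ℂ) (ω : Fin r → ℝ),
      (∀ t : ℝ, G (fun l => z l + t * y l) = expSum c ω t) ∧
      (∑ j, ‖c j‖ ≤ 1) ∧ (∀ j, |ω j| ≤ 100 ^ ((D + 3) ^ 2) * Y) ∧
      (∀ l, (y l) ^ 2 ≤ 4 * 100 ^ D * ‖∑ j, c j * ((ω j : ℝ) : ℂ) ^ 2‖)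

/-- the variables of the fire function near a grid point have multiplicity at most four -/
def Mult4 {Gd Bx Cs : Type} {k : ℕ} (Zb : Gd → Bx) (gs : Gd → Cs) (cell : Gd → ℤ × ℤ)
    (P : Fin k → Gd) : Prop :=
  (∀ S : Finset (Fin k), ∀ u : Cs, (∀ i ∈ S, gs (P i) = u) → S.card ≤ 4) ∧
  (∀ S : Finset (Fin k), ∀ z : Bx, ∀ u : ℤ × ℤ,
    (∀ i ∈ S, Zb (P i) = z ∧ Near u (cell (P i))) → S.card ≤ 4)

end Crest.Agent.VDW
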