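/-
Finite asymmetric Lovász Local Lemma over a product space (row 64 and others).
-/
import Mathlib

set_option autoImplicit false

open Finset

namespace Crest.Agent.VDW

section Abstract

variable {Ω ι : Type*} [Fintype Ω]

/-- Weight of a predicate under a weight function on a finite set. -/
noncomputable def PrW (W : Ω → ℝ) (E : Ω → Prop) : ℝ :=
  open Classical in ∑ ω, if E ω then W ω else 0

theorem PrW_nonneg (W : Ω → ℝ) (hW : ∀ ω, 0 ≤ W ω) (E : Ω → Prop) : 0 ≤ PrW W E := by
  classical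
  unfold PrW
  refine Finset.sum_nonneg fun ω _ => ?_
  split_ifs
  · exact hW ω
  · exact le_rfl

theorem PrW_mono (W : Ω → ℝ) (hW : ∀ ω, 0 ≤ W ω) {E F : Ω → Prop} (h : ∀ ω, E ω → F ω) :
    PrW W E ≤ PrW W F := by
  classical
  unfold PrW
  refine Finset.sum_le_sum fun ω _ => ?_
  by_cases hE : E ω
  · have hF := h ω hE
    simp [hE, hF]
  · by_cases hF : F ω
    · simp [hE, hF, hW ω]
    · simp [hE, hF]

theorem PrW_congr (W : Ω → ℝ) {E F : Ω → Prop} (h : ∀ ω, E ω ↔ F ω) :
    PrW W E = PrW W F := by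
  have : E = F := by
    funext ω
    exact propext (h ω)
  rw [this]

theorem PrW_true (W : Ω → ℝ) : PrW W (fun _ => True) = ∑ ω, W ω := by
  classical
  unfold PrW
  simp

theorem PrW_split (W : Ω → ℝ) (E F : Ω → Prop) :
    PrW W F = PrW W (fun ω => E ω ∧ F ω) + PrW W (fun ω => ¬ E ω ∧ F ω) := by
  classical
  unfold PrW
  rw [← Finset.sum_add_distrib]
  refine Finset.sum_congr rfl fun ω _ => ?_
  by_cases hE : E ω <;> by_cases hF : F ω <;> simp [hE, hF]

/-- Union bound. -/
theorem PrW_exists_le (W : Ω → ℝ) (hW : ∀ ω, 0 ≤ W ω) {J : Type*} (s : Finset J)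
    (E : J → Ω → Prop) :
    PrW W (fun ω => ∃ j ∈ s, E j ω) ≤ ∑ j ∈ s, PrW W (E j) := by
  classical
  unfold PrW
  rw [Finset.sum_comm]
  refine Finset.sum_le_sum fun ω _ => ?_
  by_cases h : ∃ j ∈ s, E j ω
  · rw [if_pos h]
    obtain ⟨j, hj, hE⟩ := h
    have h1 : (if E j ω then W ω else 0) ≤ ∑ j ∈ s, (if E j ω then W ω else 0) := by
      refine Finset.single_le_sum (f := fun j => (if E j ω then W ω else 0)) ?_ hj
      intro i _
      split_ifs
      · exact hW ω
      · exact le_rfl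
    rw [if_pos hE] at h1
    exact h1
  · rw [if_neg h]
    refine Finset.sum_nonneg fun j _ => ?_
    split_ifs
    · exact hW ω
    · exact le_rfl

/-- Abstract asymmetric local lemma (lopsided form). -/
theorem lll_abstract [DecidableEq ι] (W : Ω → ℝ) (hW : ∀ ω, 0 ≤ W ω)
    (E : ι → Ω → Prop) (N : ι → Finset ι) (x : ι → ℝ)
    (hx0 : ∀ i, 0 ≤ x i) (hx1 : ∀ i, x i < 1)
    (hind : ∀ (i : ι) (T : Finset ι), i ∉ T → (∀ j ∈ T, j ∉ N i) →
      PrW W (fun ω => E i ω ∧ ∀ j ∈ T, ¬ E j ω) ≤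
        PrW W (E i) * PrW W (fun ω => ∀ j ∈ T, ¬ E j ω))
    (hP : ∀ i, PrW W (E i) ≤ x i * ∏ j ∈ N i, (1 - x j)) :
    ∀ (n : ℕ) (T : Finset ι), T.card ≤ n → ∀ i, i ∉ T →
      PrW W (fun ω => E i ω ∧ ∀ j ∈ T, ¬ E j ω) ≤
        x i * PrW W (fun ω => ∀ j ∈ T, ¬ E j ω) := by
  classical
  intro n
  induction n with
  | zero =>
    intro T hT i hi
    have hT0 : T = ∅ := by
      rw [← Finset.card_eq_zero]; omega
    subst hT0
    refine le_trans (hind i ∅ hi (by simp)) ?_
    refine mul_le_mul_of_nonneg_right ?_ (PrW_nonneg W hW _)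
    refine le_trans (hP i) ?_
    have : ∏ j ∈ N i, (1 - x j) ≤ 1 :=
      Finset.prod_le_one (fun j _ => by linarith [hx1 j]) (fun j _ => by linarith [hx0 j])
    calc x i * ∏ j ∈ N i, (1 - x j) ≤ x i * 1 := mul_le_mul_of_nonneg_left this (hx0 i)
      _ = x i := mul_one _
  | succ n ih =>
    intro T hT i hi
    set T1 := T.filter (fun j => j ∈ N i) with hT1
    set T2 := T.filter (fun j => j ∉ N i) with hT2
    have hunion : T1 ∪ T2 = T := by
      rw [hT1, hT2]; exact Finset.filter_union_filter_not_eq _ _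
    have hdisj : Disjoint T1 T2 := by
      rw [hT1, hT2]; exact Finset.disjoint_filter_filter_not _ _ _
    -- adding the elements of T1 one at a time
    have hadd : ∀ S : Finset ι, S ⊆ T1 →
        (∏ j ∈ S, (1 - x j)) * PrW W (fun ω => ∀ j ∈ T2, ¬ E j ω) ≤
          PrW W (fun ω => ∀ j ∈ S ∪ T2, ¬ E j ω) := by
      intro S
      induction S using Finset.induction_on with
      | empty =>
        intro _
        simp
      | insert a S ha ihS =>
        intro hS
        have hS' : S ⊆ T1 := fun y hy => hS (Finset.mem_insert_of_mem hy)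
        have haT1 : a ∈ T1 := hS (Finset.mem_insert_self a S)
        have h1 := ihS hS'
        have haT2 : a ∉ T2 := fun h => (Finset.disjoint_left.mp hdisj haT1 h)
        have hanot : a ∉ S ∪ T2 := by
          rw [Finset.mem_union]; push Not; exact ⟨ha, haT2⟩
        have hcard : (S ∪ T2).card ≤ n := by
          have hsub : insert a (S ∪ T2) ⊆ T := by
            rw [← hunion]
            intro y hy
            rw [Finset.mem_insert, Finset.mem_union] at hy
            rw [Finset.mem_union]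
            rcases hy with rfl | hy | hy
            · exact Or.inl haT1
            · exact Or.inl (hS' hy)
            · exact Or.inr hy
          have := Finset.card_le_card hsub
          rw [Finset.card_insert_of_notMem hanot] at this
          omega
        have h2 := ih (S ∪ T2) hcard a hanot
        have h3 := PrW_split W (E a) (fun ω => ∀ j ∈ S ∪ T2, ¬ E j ω)
        have h4 : PrW W (fun ω => ¬ E a ω ∧ ∀ j ∈ S ∪ T2, ¬ E j ω) =
            PrW W (fun ω => ∀ j ∈ insert a S ∪ T2, ¬ E j ω) := by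
          refine PrW_congr W fun ω => ?_
          rw [Finset.insert_union]
          simp only [Finset.mem_insert, forall_eq_or_imp]
        rw [Finset.prod_insert ha, ← h4]
        have h5 : (1 - x a) * PrW W (fun ω => ∀ j ∈ S ∪ T2, ¬ E j ω) ≤
            PrW W (fun ω => ¬ E a ω ∧ ∀ j ∈ S ∪ T2, ¬ E j ω) := by
          have := h3
          linarith
        refine le_trans ?_ h5
        rw [mul_assoc]
        exact mul_le_mul_of_nonneg_left h1 (by linarith [hx1 a])
    have hfull := hadd T1 (le_refl _)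
    rw [hunion] at hfull
    have h6 : PrW W (fun ω => E i ω ∧ ∀ j ∈ T, ¬ E j ω) ≤
        PrW W (fun ω => E i ω ∧ ∀ j ∈ T2, ¬ E j ω) := by
      refine PrW_mono W hW fun ω h => ⟨h.1, fun j hj => h.2 j ?_⟩
      rw [← hunion]; exact Finset.mem_union_right _ hj
    have h7 := hind i T2 (fun h => hi (by rw [← hunion]; exact Finset.mem_union_right _ h))
      (fun j hj => (Finset.mem_filter.mp hj).2)
    have hB2 : 0 ≤ PrW W (fun ω => ∀ j ∈ T2, ¬ E j ω) := PrW_nonneg W hW _
    have h8 : ∏ j ∈ N i, (1 - x j) ≤ ∏ j ∈ T1, (1 - x j) := by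
      have hsub : T1 ⊆ N i := fun j hj => (Finset.mem_filter.mp hj).2
      rw [← Finset.prod_sdiff hsub]
      have h9 : ∏ j ∈ N i \ T1, (1 - x j) ≤ 1 :=
        Finset.prod_le_one (fun j _ => by linarith [hx1 j]) (fun j _ => by linarith [hx0 j])
      have h10 : 0 ≤ ∏ j ∈ T1, (1 - x j) :=
        Finset.prod_nonneg fun j _ => by linarith [hx1 j]
      calc (∏ j ∈ N i \ T1, (1 - x j)) * ∏ j ∈ T1, (1 - x j)
          ≤ 1 * ∏ j ∈ T1, (1 - x j) := mul_le_mul_of_nonneg_right h9 h10
        _ = _ := one_mul _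
    calc PrW W (fun ω => E i ω ∧ ∀ j ∈ T, ¬ E j ω)
        ≤ PrW W (E i) * PrW W (fun ω => ∀ j ∈ T2, ¬ E j ω) := le_trans h6 h7
      _ ≤ (x i * ∏ j ∈ N i, (1 - x j)) * PrW W (fun ω => ∀ j ∈ T2, ¬ E j ω) :=
          mul_le_mul_of_nonneg_right (hP i) hB2
      _ ≤ (x i * ∏ j ∈ T1, (1 - x j)) * PrW W (fun ω => ∀ j ∈ T2, ¬ E j ω) :=
          mul_le_mul_of_nonneg_right (mul_le_mul_of_nonneg_left h8 (hx0 i)) hB2
      _ = x i * ((∏ j ∈ T1, (1 - x j)) * PrW W (fun ω => ∀ j ∈ T2, ¬ E j ω)) := by ring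
      _ ≤ x i * PrW W (fun ω => ∀ j ∈ T, ¬ E j ω) :=
          mul_le_mul_of_nonneg_left hfull (hx0 i)

/-- Positive probability of avoiding all events. -/
theorem lll_abstract_pos [DecidableEq ι] (W : Ω → ℝ) (hW : ∀ ω, 0 ≤ W ω)
    (hW1 : ∑ ω, W ω = 1)
    (E : ι → Ω → Prop) (N : ι → Finset ι) (x : ι → ℝ)
    (hx0 : ∀ i, 0 ≤ x i) (hx1 : ∀ i, x i < 1)
    (hind : ∀ (i : ι) (T : Finset ι), i ∉ T → (∀ j ∈ T, j ∉ N i) →
      PrW W (fun ω => E i ω ∧ ∀ j ∈ T, ¬ E j ω) ≤
        PrW W (E i) * PrW W (fun ω => ∀ j ∈ T, ¬ E j ω))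
    (hP : ∀ i, PrW W (E i) ≤ x i * ∏ j ∈ N i, (1 - x j)) (T : Finset ι) :
    ∏ j ∈ T, (1 - x j) ≤ PrW W (fun ω => ∀ j ∈ T, ¬ E j ω) := by
  classical
  have key := lll_abstract W hW E N x hx0 hx1 hind hP
  induction T using Finset.induction_on with
  | empty =>
    simp only [Finset.prod_empty]
    have : PrW W (fun ω => ∀ j ∈ (∅ : Finset ι), ¬ E j ω) = PrW W (fun _ => True) :=
      PrW_congr W fun ω => by simp
    rw [this, PrW_true, hW1]
  | insert a S ha ihS =>
    have h2 := key S.card S le_rfl a ha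
    have h3 := PrW_split W (E a) (fun ω => ∀ j ∈ S, ¬ E j ω)
    have h4 : PrW W (fun ω => ¬ E a ω ∧ ∀ j ∈ S, ¬ E j ω) =
        PrW W (fun ω => ∀ j ∈ insert a S, ¬ E j ω) := by
      refine PrW_congr W fun ω => ?_
      simp only [Finset.mem_insert, forall_eq_or_imp]
    rw [Finset.prod_insert ha, ← h4]
    have h5 : (1 - x a) * PrW W (fun ω => ∀ j ∈ S, ¬ E j ω) ≤
        PrW W (fun ω => ¬ E a ω ∧ ∀ j ∈ S, ¬ E j ω) := by linarith
    exact le_trans (mul_le_mul_of_nonneg_left ihS (by linarith [hx1 a])) h5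

end Abstract

section Product

variable {V α : Type*} [Fintype V] [DecidableEq V] [Fintype α]

/-- Product weight. -/
noncomputable def prodW (w : V → α → ℝ) (ω : V → α) : ℝ := ∏ v, w v (ω v)

/-- Probability of a predicate on the product space. -/
noncomputable def Pr (w : V → α → ℝ) (E : (V → α) → Prop) : ℝ := PrW (prodW w) E

/-- `E` depends only on the coordinates in `A`. -/
def DependsOnly (E : (V → α) → Prop) (A : Finset V) : Prop :=
  ∀ ω ω' : V → α, (∀ v ∈ A, ω v = ω' v) → (E ω ↔ E ω')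

theorem prodW_nonneg (w : V → α → ℝ) (hw : ∀ v a, 0 ≤ w v a) (ω : V → α) : 0 ≤ prodW w ω :=
  Finset.prod_nonneg fun v _ => hw v (ω v)

omit [Fintype α] in
theorem DependsOnly.mono {E : (V → α) → Prop} {A B : Finset V} (h : DependsOnly E A)
    (hAB : A ⊆ B) : DependsOnly E B :=
  fun ω ω' hω => h ω ω' fun v hv => hω v (hAB hv)

theorem sum_prodW (w : V → α → ℝ) (hw1 : ∀ v, ∑ a, w v a = 1) : ∑ ω, prodW w ω = 1 := by
  classical
  unfold prodW
  have h := Finset.prod_univ_sum (fun _ : V => (Finset.univ : Finset α)) (fun v a => w v a)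
  rw [Fintype.piFinset_univ] at h
  rw [← h]
  simp [hw1]

/-- Independence of functions of disjoint sets of coordinates. -/
theorem sum_mul_of_disjoint (w : V → α → ℝ) (hw1 : ∀ v, ∑ a, w v a = 1)
    (A : Finset V) (f g : (V → α) → ℝ)
    (hf : ∀ ω ω' : V → α, (∀ v ∈ A, ω v = ω' v) → f ω = f ω')
    (hg : ∀ ω ω' : V → α, (∀ v ∉ A, ω v = ω' v) → g ω = g ω') :
    ∑ ω, prodW w ω * (f ω * g ω) = (∑ ω, prodW w ω * f ω) * (∑ ω, prodW w ω * g ω) := by
  classical
  rcases isEmpty_or_nonempty (V → α) with hE | ⟨⟨ω₀⟩⟩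
  · simp
  · let e := Equiv.piEquivPiSubtypeProd (fun v => v ∈ A) (fun _ : V => α)
    -- weights
    let wA : ({v // v ∈ A} → α) → ℝ := fun a => ∏ v : {v // v ∈ A}, w v (a v)
    let wB : ({v // v ∉ A} → α) → ℝ := fun b => ∏ v : {v // v ∉ A}, w v (b v)
    have hprod : ∀ ω, prodW w ω = wA (e ω).1 * wB (e ω).2 := by
      intro ω
      unfold prodW
      rw [← Fintype.prod_subtype_mul_prod_subtype (fun v => v ∈ A) (fun v => w v (ω v))]
      simp only [wA, wB]
      congr 1
      exact Finset.prod_congr (by ext; simp) (fun v _ => rfl)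
    let f' : ({v // v ∈ A} → α) → ℝ := fun a => f (e.symm (a, (e ω₀).2))
    let g' : ({v // v ∉ A} → α) → ℝ := fun b => g (e.symm ((e ω₀).1, b))
    have hf' : ∀ ω, f ω = f' (e ω).1 := by
      intro ω
      refine hf _ _ fun v hv => ?_
      simp [e, Equiv.piEquivPiSubtypeProd, hv]
    have hg' : ∀ ω, g ω = g' (e ω).2 := by
      intro ω
      refine hg _ _ fun v hv => ?_
      simp [e, Equiv.piEquivPiSubtypeProd, hv]
    have hA1 : ∑ a, wA a = 1 := by
      have := sum_prodW (V := {v // v ∈ A}) (α := α) (fun v a => w v a) (fun v => hw1 v)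
      exact this
    have hB1 : ∑ b, wB b = 1 := by
      have := sum_prodW (V := {v // v ∉ A}) (α := α) (fun v a => w v a) (fun v => hw1 v)
      exact this
    have hsum : ∀ F : ({v // v ∈ A} → α) → ({v // v ∉ A} → α) → ℝ,
        ∑ ω, F (e ω).1 (e ω).2 = ∑ a, ∑ b, F a b := by
      intro F
      rw [← Fintype.sum_prod_type']
      exact Equiv.sum_comp e (fun p : ({v // v ∈ A} → α) × ({v // v ∉ A} → α) => F p.1 p.2)
    have h1 : ∑ ω, prodW w ω * (f ω * g ω) =
        ∑ a, ∑ b, (wA a * f' a) * (wB b * g' b) := by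
      rw [← hsum]
      refine Finset.sum_congr rfl fun ω _ => ?_
      rw [hprod ω, hf' ω, hg' ω]; ring
    have h2 : ∑ ω, prodW w ω * f ω = ∑ a, wA a * f' a := by
      have : ∑ ω, prodW w ω * f ω = ∑ a, ∑ b, (wA a * f' a) * wB b := by
        rw [← hsum]
        refine Finset.sum_congr rfl fun ω _ => ?_
        rw [hprod ω, hf' ω]; ring
      rw [this]
      refine Finset.sum_congr rfl fun a _ => ?_
      rw [← Finset.mul_sum, hB1, mul_one]
    have h3 : ∑ ω, prodW w ω * g ω = ∑ b, wB b * g' b := by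
      have : ∑ ω, prodW w ω * g ω = ∑ a, ∑ b, wA a * (wB b * g' b) := by
        rw [← hsum]
        refine Finset.sum_congr rfl fun ω _ => ?_
        rw [hprod ω, hg' ω]; ring
      rw [this]
      simp_rw [← Finset.mul_sum]
      rw [← Finset.sum_mul, hA1, one_mul]
    rw [h1, h2, h3, Finset.sum_mul_sum]

theorem Pr_eq_sum (w : V → α → ℝ) (E : (V → α) → Prop) :
    Pr w E = ∑ ω, prodW w ω * (open Classical in if E ω then (1 : ℝ) else 0) := by
  classical
  unfold Pr PrW
  refine Finset.sum_congr rfl fun ω _ => ?_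
  by_cases h : E ω <;> simp [h]

/-- Independence for predicates. -/
theorem Pr_and_of_disjoint (w : V → α → ℝ) (hw1 : ∀ v, ∑ a, w v a = 1)
    (A B : Finset V) (hAB : Disjoint A B) (E F : (V → α) → Prop)
    (hE : DependsOnly E A) (hF : DependsOnly F B) :
    Pr w (fun ω => E ω ∧ F ω) = Pr w E * Pr w F := by
  classical
  have h := sum_mul_of_disjoint w hw1 A (fun ω => if E ω then (1 : ℝ) else 0)
    (fun ω => if F ω then (1 : ℝ) else 0)
    (fun ω ω' hω => by simp only [hE ω ω' hω])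
    (fun ω ω' hω => by
      have : F ω ↔ F ω' := hF ω ω' fun v hv => hω v fun hvA => Finset.disjoint_left.mp hAB hvA hv
      simp only [this])
  rw [Pr_eq_sum, Pr_eq_sum, Pr_eq_sum, ← h]
  refine Finset.sum_congr rfl fun ω _ => ?_
  by_cases h1 : E ω <;> by_cases h2 : F ω <;> simp [h1, h2]

theorem Pr_nonneg (w : V → α → ℝ) (hw : ∀ v a, 0 ≤ w v a) (E : (V → α) → Prop) : 0 ≤ Pr w E :=
  PrW_nonneg _ (prodW_nonneg w hw) E

theorem Pr_mono (w : V → α → ℝ) (hw : ∀ v a, 0 ≤ w v a) {E F : (V → α) → Prop}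
    (h : ∀ ω, E ω → F ω) : Pr w E ≤ Pr w F :=
  PrW_mono _ (prodW_nonneg w hw) h

theorem Pr_congr (w : V → α → ℝ) {E F : (V → α) → Prop} (h : ∀ ω, E ω ↔ F ω) :
    Pr w E = Pr w F :=
  PrW_congr _ h

theorem Pr_exists_le (w : V → α → ℝ) (hw : ∀ v a, 0 ≤ w v a) {J : Type*} (s : Finset J)
    (E : J → (V → α) → Prop) :
    Pr w (fun ω => ∃ j ∈ s, E j ω) ≤ ∑ j ∈ s, Pr w (E j) :=
  PrW_exists_le _ (prodW_nonneg w hw) s E

theorem Pr_true (w : V → α → ℝ) (hw1 : ∀ v, ∑ a, w v a = 1) : Pr w (fun _ => True) = 1 := by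
  unfold Pr
  rw [PrW_true, sum_prodW w hw1]

theorem Pr_le_one (w : V → α → ℝ) (hw : ∀ v a, 0 ≤ w v a) (hw1 : ∀ v, ∑ a, w v a = 1)
    (E : (V → α) → Prop) : Pr w E ≤ 1 := by
  rw [← Pr_true w hw1]
  exact Pr_mono w hw fun _ _ => trivial

/-- Probability of a box: independent constraints on the coordinates. -/
theorem Pr_forall (w : V → α → ℝ) (hw1 : ∀ v, ∑ a, w v a = 1)
    (A : Finset V) (S : V → Finset α) :
    Pr w (fun ω => ∀ v ∈ A, ω v ∈ S v) = ∏ v ∈ A, ∑ a ∈ S v, w v a := by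
  classical
  induction A using Finset.induction_on with
  | empty =>
    rw [Finset.prod_empty, ← Pr_true w hw1]
    exact Pr_congr w fun ω => by simp
  | insert a A ha ih =>
    rw [Finset.prod_insert ha, ← ih]
    have h1 : Pr w (fun ω => ∀ v ∈ insert a A, ω v ∈ S v) =
        Pr w (fun ω => (ω a ∈ S a) ∧ (∀ v ∈ A, ω v ∈ S v)) :=
      Pr_congr w fun ω => by simp only [Finset.mem_insert, forall_eq_or_imp]
    rw [h1, Pr_and_of_disjoint w hw1 {a} A (by simpa using ha) (fun ω => ω a ∈ S a)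
      (fun ω => ∀ v ∈ A, ω v ∈ S v)
      (fun ω ω' h => by
        have h' := h a (Finset.mem_singleton_self a)
        simp only [h'])
      (fun ω ω' h => by
        refine forall₂_congr fun v hv => ?_
        rw [h v hv])]
    congr 1
    -- single coordinate
    let S' : V → Finset α := fun v => if v = a then S a else Finset.univ
    have h2 : Pr w (fun ω => ω a ∈ S a) = ∏ v, ∑ b ∈ S' v, w v b := by
      rw [Finset.prod_univ_sum]
      have h3 : Pr w (fun ω => ω a ∈ S a) =
          ∑ ω ∈ Finset.univ.filter (fun ω : V → α => ω a ∈ S a), ∏ v, w v (ω v) := by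
        rw [Finset.sum_filter]
        unfold Pr PrW prodW
        refine Finset.sum_congr rfl fun ω _ => ?_
        by_cases h : ω a ∈ S a <;> simp [h]
      rw [h3]
      refine Finset.sum_congr ?_ fun _ _ => rfl
      ext ω
      simp only [Finset.mem_filter, Finset.mem_univ, true_and, Fintype.mem_piFinset, S']
      constructor
      · intro h v
        by_cases hv : v = a
        · subst hv; simpa using h
        · simp [hv]
      · intro h
        simpa using h a
    rw [h2, Finset.prod_eq_single a]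
    · simp [S']
    · intro b _ hb
      simp [S', hb, hw1]
    · intro h; exact absurd (Finset.mem_univ a) h

theorem one_sub_sum_le_prod {ι : Type*} (s : Finset ι) (x : ι → ℝ) (h0 : ∀ i, 0 ≤ x i)
    (h1 : ∀ i, x i ≤ 1) : 1 - ∑ i ∈ s, x i ≤ ∏ i ∈ s, (1 - x i) := by
  classical
  induction s using Finset.induction_on with
  | empty => simp
  | insert a s ha ih =>
    rw [Finset.sum_insert ha, Finset.prod_insert ha]
    have h2 : ∏ i ∈ s, (1 - x i) ≤ 1 :=
      Finset.prod_le_one (fun j _ => by linarith [h1 j]) (fun j _ => by linarith [h0 j])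
    have h3 : 0 ≤ ∏ i ∈ s, (1 - x i) := Finset.prod_nonneg fun j _ => by linarith [h1 j]
    nlinarith [h0 a, h1 a]

/-- Asymmetric Lovász local lemma on a finite product space. -/
theorem lll_product {ι : Type*} [Fintype ι] [DecidableEq ι]
    (w : V → α → ℝ) (hw : ∀ v a, 0 ≤ w v a) (hw1 : ∀ v, ∑ a, w v a = 1)
    (E : ι → (V → α) → Prop) (vbl : ι → Finset V) (hdep : ∀ i, DependsOnly (E i) (vbl i))
    (x : ι → ℝ) (hx0 : ∀ i, 0 ≤ x i) (hx1 : ∀ i, x i < 1)
    (hP : ∀ i, Pr w (E i) ≤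
      x i * ∏ j ∈ Finset.univ.filter (fun j => j ≠ i ∧ ¬ Disjoint (vbl i) (vbl j)), (1 - x j)) :
    ∃ ω : V → α, ∀ i, ¬ E i ω := by
  classical
  set N : ι → Finset ι := fun i =>
    Finset.univ.filter (fun j => j ≠ i ∧ ¬ Disjoint (vbl i) (vbl j)) with hN
  have hind : ∀ (i : ι) (T : Finset ι), i ∉ T → (∀ j ∈ T, j ∉ N i) →
      PrW (prodW w) (fun ω => E i ω ∧ ∀ j ∈ T, ¬ E j ω) ≤
        PrW (prodW w) (E i) * PrW (prodW w) (fun ω => ∀ j ∈ T, ¬ E j ω) := by
    intro i T hi hT
    refine le_of_eq ?_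
    refine Pr_and_of_disjoint w hw1 (vbl i) (T.biUnion vbl) ?_ _ _ (hdep i) ?_
    · rw [Finset.disjoint_biUnion_right]
      intro j hj
      have := hT j hj
      simp only [hN, Finset.mem_filter, Finset.mem_univ, true_and, not_and, not_not] at this
      exact this fun h => hi (h ▸ hj)
    · intro ω ω' h
      refine forall₂_congr fun j hj => not_congr ?_
      refine hdep j ω ω' fun v hv => h v ?_
      exact Finset.mem_biUnion.mpr ⟨j, hj, hv⟩
  have hpos := lll_abstract_pos (prodW w) (prodW_nonneg w hw) (sum_prodW w hw1) E N x hx0 hx1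
    hind hP Finset.univ
  have hpp : 0 < ∏ j : ι, (1 - x j) := Finset.prod_pos fun j _ => by linarith [hx1 j]
  by_contra hcon
  push Not at hcon
  have hzero : PrW (prodW w) (fun ω => ∀ j ∈ (Finset.univ : Finset ι), ¬ E j ω) = 0 := by
    unfold PrW
    refine Finset.sum_eq_zero fun ω _ => ?_
    rw [if_neg]
    intro h
    obtain ⟨i, hi⟩ := hcon ω
    exact h i (Finset.mem_univ i) hi
  rw [hzero] at hpos
  linarith

/-- Handy corollary: all events depend on at most `K` coordinates and for every coordinate the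
sum of (upper bounds of) the probabilities of the events depending on it is at most `1/(8K)`. -/
theorem lll_simple {ι : Type*} [Fintype ι]
    (w : V → α → ℝ) (hw : ∀ v a, 0 ≤ w v a) (hw1 : ∀ v, ∑ a, w v a = 1)
    (E : ι → (V → α) → Prop) (vbl : ι → Finset V) (hdep : ∀ i, DependsOnly (E i) (vbl i))
    (K : ℕ) (hK : ∀ i, (vbl i).card ≤ K) (hne : ∀ i, (vbl i).Nonempty)
    (p : ι → ℝ) (hp : ∀ i, Pr w (E i) ≤ p i)
    (hsum : ∀ v, ∑ i, (open Classical in if v ∈ vbl i then p i else 0) ≤ 1 / (8 * K)) :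
    ∃ ω : V → α, ∀ i, ¬ E i ω := by
  classical
  rcases isEmpty_or_nonempty ι with hι | ⟨⟨i₀⟩⟩
  · have : Nonempty (V → α) := by
      by_contra h
      rw [not_nonempty_iff] at h
      have h1 := sum_prodW w hw1
      rw [Finset.univ_eq_empty, Finset.sum_empty] at h1
      exact absurd h1 (by norm_num)
    obtain ⟨ω⟩ := this
    exact ⟨ω, fun i => (hι.false i).elim⟩
  have hKpos : 0 < K := lt_of_lt_of_le (Finset.card_pos.mpr (hne i₀)) (hK i₀)
  have hKR : (0 : ℝ) < K := by exact_mod_cast hKpos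
  have hp0 : ∀ i, 0 ≤ p i := fun i => le_trans (Pr_nonneg w hw _) (hp i)
  have hpsmall : ∀ i, p i ≤ 1 / (8 * K) := by
    intro i
    obtain ⟨v, hv⟩ := hne i
    refine le_trans ?_ (hsum v)
    have h1 : (if v ∈ vbl i then p i else 0) ≤ ∑ i, (if v ∈ vbl i then p i else 0) := by
      refine Finset.single_le_sum (f := fun i => (if v ∈ vbl i then p i else 0)) ?_
        (Finset.mem_univ i)
      intro j _
      split_ifs
      · exact hp0 j
      · exact le_rfl
    rw [if_pos hv] at h1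
    exact h1
  have h8 : (1 : ℝ) / (8 * K) ≤ 1 / 8 := by
    have hK1 : (1 : ℝ) ≤ K := by exact_mod_cast hKpos
    refine one_div_le_one_div_of_le (by norm_num) ?_
    linarith
  refine lll_product w hw hw1 E vbl hdep (fun i => 2 * p i) (fun i => by linarith [hp0 i])
    (fun i => by linarith [hpsmall i, h8]) ?_
  intro i
  -- the product is at least 1/2
  set N := Finset.univ.filter (fun j => j ≠ i ∧ ¬ Disjoint (vbl i) (vbl j)) with hN
  have hs : ∑ j ∈ N, (2 * p j) ≤ 1 / 2 := by
    have h1 : ∑ j ∈ N, p j ≤ ∑ v ∈ vbl i, ∑ j, (if v ∈ vbl j then p j else 0) := by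
      rw [Finset.sum_comm]
      have h2 : ∑ j ∈ N, p j ≤ ∑ j ∈ N, ∑ v ∈ vbl i, (if v ∈ vbl j then p j else 0) := by
        refine Finset.sum_le_sum fun j hj => ?_
        have hj' := (Finset.mem_filter.mp hj).2.2
        rw [Finset.not_disjoint_iff] at hj'
        obtain ⟨v, hv1, hv2⟩ := hj'
        have h3 : (if v ∈ vbl j then p j else 0) ≤
            ∑ v ∈ vbl i, (if v ∈ vbl j then p j else 0) := by
          refine Finset.single_le_sum (f := fun v => (if v ∈ vbl j then p j else 0)) ?_ hv1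
          intro u _
          split_ifs
          · exact hp0 j
          · exact le_rfl
        rw [if_pos hv2] at h3
        exact h3
      refine le_trans h2 ?_
      refine Finset.sum_le_sum_of_subset_of_nonneg (Finset.subset_univ _) ?_
      intro j _ _
      refine Finset.sum_nonneg fun v _ => ?_
      split_ifs
      · exact hp0 j
      · exact le_rfl
    have h4 : ∑ v ∈ vbl i, ∑ j, (if v ∈ vbl j then p j else 0) ≤
        ∑ v ∈ vbl i, (1 : ℝ) / (8 * K) :=
      Finset.sum_le_sum fun v _ => hsum v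
    have h5 : ∑ v ∈ vbl i, (1 : ℝ) / (8 * K) ≤ 1 / 8 := by
      rw [Finset.sum_const, nsmul_eq_mul]
      have h6 : ((vbl i).card : ℝ) ≤ K := by exact_mod_cast hK i
      calc ((vbl i).card : ℝ) * (1 / (8 * K)) ≤ K * (1 / (8 * K)) :=
            mul_le_mul_of_nonneg_right h6 (by positivity)
        _ = 1 / 8 := by field_simp
    rw [← Finset.mul_sum]
    linarith
  have hprod : 1 - ∑ j ∈ N, (2 * p j) ≤ ∏ j ∈ N, (1 - 2 * p j) :=
    one_sub_sum_le_prod N (fun j => 2 * p j)
      (fun j => by linarith [hp0 j]) (fun j => by linarith [hpsmall j, h8])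
  have hprod' : (1 : ℝ) / 2 ≤ ∏ j ∈ N, (1 - 2 * p j) := by linarith
  calc Pr w (E i) ≤ p i := hp i
    _ = 2 * p i * (1 / 2) := by ring
    _ ≤ 2 * p i * ∏ j ∈ N, (1 - 2 * p j) :=
        mul_le_mul_of_nonneg_left hprod' (by linarith [hp0 i])

end Product

end Crest.Agent.VDW
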