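/-
Cylinder version of the local lemma (row 64).
-/
import Mathlib
import Crest.Agent.VDW.LLL

set_option autoImplicit false

open Finset

namespace Crest.Agent.VDW

open Classical in
theorem lll_cyl {V α : Type} [DecidableEq V] (E : Finset α) (F : α → Finset V) (u : α → V → Bool)
    (p : ℝ) (hp0 : 0 < p) (hp1 : p < 1) (K : ℕ) (hK : 1 ≤ K) (hF : ∀ a ∈ E, (F a).card ≤ K)
    (hne : ∀ a ∈ E, (F a).Nonempty)
    (hsum : ∀ v, ∑ a ∈ E.filter (fun a => v ∈ F a), ∏ w ∈ F a, (if u a w then p else 1 - p) ≤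
      1 / (8 * K)) :
    ∃ ω : V → Bool, ∀ a ∈ E, ∃ v ∈ F a, ω v ≠ u a v := by
  -- restrict to the union of the supports
  set X : Finset V := E.biUnion F with hX
  let V' := {v // v ∈ X}
  let E' := {a // a ∈ E}
  let w : V' → Bool → ℝ := fun _ b => if b then p else 1 - p
  have hw : ∀ v a, 0 ≤ w v a := by
    intro v a
    simp only [w]
    split_ifs
    · exact hp0.le
    · linarith
  have hw1 : ∀ v, ∑ a, w v a = 1 := by
    intro v
    simp [w]
  let vbl : E' → Finset V' := fun a => Finset.univ.filter (fun v : V' => v.1 ∈ F a.1)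
  let Ev : E' → (V' → Bool) → Prop := fun a ω => ∀ v ∈ vbl a, ω v = u a.1 v.1
  have hdep : ∀ a, DependsOnly (Ev a) (vbl a) := by
    intro a ω ω' h
    refine forall₂_congr fun v hv => ?_
    rw [h v hv]
  have hmap : ∀ a : E', (vbl a).map (Function.Embedding.subtype _) = F a.1 := by
    intro a
    ext v
    simp only [Finset.mem_map, vbl, Finset.mem_filter, Finset.mem_univ, true_and,
      Function.Embedding.coe_subtype, Subtype.exists, exists_and_left, exists_prop,
      exists_eq_right_right]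
    constructor
    · rintro ⟨h, -⟩; exact h
    · intro h
      exact ⟨h, Finset.mem_biUnion.mpr ⟨a.1, a.2, h⟩⟩
  have hcard : ∀ a : E', (vbl a).card = (F a.1).card := by
    intro a
    rw [← hmap a, Finset.card_map]
  have hPr : ∀ a : E', Pr w (Ev a) = ∏ v ∈ F a.1, (if u a.1 v then p else 1 - p) := by
    intro a
    have h1 := Pr_forall w hw1 (vbl a) (fun v => {u a.1 v.1})
    have h2 : Pr w (Ev a) = Pr w (fun ω => ∀ v ∈ vbl a, ω v ∈ ({u a.1 v.1} : Finset Bool)) :=
      Pr_congr w fun ω => by simp only [Ev, Finset.mem_singleton]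
    rw [h2, h1]
    have h3 : ∀ v ∈ vbl a, ∑ b ∈ ({u a.1 v.1} : Finset Bool), w v b =
        (if u a.1 v.1 then p else 1 - p) := by
      intro v _
      rw [Finset.sum_singleton]
    rw [Finset.prod_congr rfl h3, ← hmap a, Finset.prod_map]
    rfl
  obtain ⟨ω, hω⟩ := lll_simple w hw hw1 Ev vbl hdep K
    (fun a => by rw [hcard a]; exact hF a.1 a.2)
    (fun a => by
      rw [← Finset.card_pos, hcard a, Finset.card_pos]
      exact hne a.1 a.2)
    (fun a => ∏ v ∈ F a.1, (if u a.1 v then p else 1 - p))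
    (fun a => (hPr a).le)
    (by
      intro v
      refine le_trans (le_of_eq ?_) (hsum v.1)
      rw [Finset.sum_filter]
      have h4 : ∑ a ∈ E, (if v.1 ∈ F a then ∏ w ∈ F a, (if u a w then p else 1 - p) else 0) =
          ∑ a : E', (if v.1 ∈ F a.1 then ∏ w ∈ F a.1, (if u a.1 w then p else 1 - p) else 0) :=
        (Finset.sum_coe_sort E (fun a => if v.1 ∈ F a then
          ∏ w ∈ F a, (if u a w then p else 1 - p) else 0)).symm
      rw [h4]
      refine Finset.sum_congr rfl fun a _ => ?_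
      have h5 : v ∈ vbl a ↔ v.1 ∈ F a.1 := by simp [vbl]
      by_cases h6 : v.1 ∈ F a.1
      · rw [if_pos (h5.2 h6), if_pos h6]
      · rw [if_neg (fun h => h6 (h5.1 h)), if_neg h6])
  refine ⟨fun v => if h : v ∈ X then ω ⟨v, h⟩ else false, ?_⟩
  intro a ha
  have h7 := hω ⟨a, ha⟩
  simp only [Ev] at h7
  push Not at h7
  obtain ⟨v, hv, hne'⟩ := h7
  have hvF : v.1 ∈ F a := by
    have := (Finset.mem_filter.mp hv).2
    exact this
  refine ⟨v.1, hvF, ?_⟩
  have h8 : (fun v => if h : v ∈ X then ω ⟨v, h⟩ else false) v.1 = ω v := by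
    show (if h : v.1 ∈ X then ω ⟨v.1, h⟩ else false) = ω v
    rw [dif_pos v.2]
  rw [h8]
  exact hne'

end Crest.Agent.VDW
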