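import Crest.Agent.VDW.DL

/-!
# R64-C : pattern counting (from R64-B)
-/

set_option autoImplicit false

namespace Crest.Agent.VDW

open Finset

private theorem pc_floor (V : ℕ) (α β : ℝ) (k : ℤ) (i : ℕ) :
    ((⌊α + (i : ℝ) * (β - (V : ℝ) * (k : ℝ))⌋ : ℤ) : ZMod V) =
      ((⌊α + (i : ℝ) * β⌋ : ℤ) : ZMod V) := by
  have h : α + (i : ℝ) * (β - (V : ℝ) * (k : ℝ)) =
      (α + (i : ℝ) * β) - (((i : ℤ) * ((V : ℤ) * k) : ℤ) : ℝ) := by
    push_cast; ring
  rw [h, Int.floor_sub_intCast]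
  push_cast
  simp

private theorem pc_one (V n : ℕ) [NeZero V] (i₀ : Fin n) (m : ZMod V) (R : ℕ) (bb : ℕ → ℝ) :
    ∃ U : Finset (Fin n → ZMod V), U.card ≤ R * (64 * n ^ 4) ∧
      ∀ (α β : ℝ) (k : ℤ) (r : ℕ), r < R → |β - (V : ℝ) * (k : ℝ) - bb r| ≤ 1 →
        ((⌊α + ((i₀ : ℕ) : ℝ) * β⌋ : ℤ) : ZMod V) = m →
        (fun i : Fin n => ((⌊α + ((i : ℕ) : ℝ) * β⌋ : ℤ) : ZMod V)) ∈ U := by
  classical
  choose SS hc hS using fun r : ℕ => dl_core V n i₀ m (bb r)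
  refine ⟨(Finset.range R).biUnion SS, ?_, ?_⟩
  · have h := Finset.card_biUnion_le_card_mul (Finset.range R) SS (64 * n ^ 4) fun r _ => hc r
    rwa [Finset.card_range] at h
  · intro α β k r hr hb hm
    rw [Finset.mem_biUnion]
    refine ⟨r, Finset.mem_range.2 hr, ?_⟩
    have h := hS r α (β - (V : ℝ) * (k : ℝ)) hb (by rw [pc_floor]; exact hm)
    have e : (fun i : Fin n => ((⌊α + ((i : ℕ) : ℝ) * (β - (V : ℝ) * (k : ℝ))⌋ : ℤ) : ZMod V)) =
        (fun i : Fin n => ((⌊α + ((i : ℕ) : ℝ) * β⌋ : ℤ) : ZMod V)) := by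
      funext i
      exact pc_floor V α β k i
    rwa [e] at h

private theorem pc_pi {D V n B : ℕ} (S : Finset (Fin n → Fin D → ZMod V))
    (U : Fin D → Finset (Fin n → ZMod V)) (hU : ∀ l, (U l).card ≤ B)
    (hS : ∀ P ∈ S, ∀ l, (fun i => P i l) ∈ U l) : S.card ≤ B ^ D := by
  classical
  have h1 : S.card ≤ (Fintype.piFinset U).card := by
    refine Finset.card_le_card_of_injOn (fun P l i => P i l) ?_ ?_
    · intro P hP
      rw [Finset.mem_coe, Fintype.mem_piFinset]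
      exact hS P hP
    · intro P _ Q _ h
      funext i l
      exact congrFun (congrFun h l) i
  refine h1.trans ?_
  rw [Fintype.card_piFinset]
  refine (Finset.prod_le_prod' fun l _ => hU l).trans ?_
  simp

private theorem pc_pat {D : ℕ} (V n : ℕ) (x θ : Fin D → ℝ) (l : Fin D) :
    (fun i => pat V n x θ i l) =
      (fun i : Fin n => ((⌊(V : ℝ) * x l + ((i : ℕ) : ℝ) * ((V : ℝ) * θ l)⌋ : ℤ) : ZMod V)) := by
  funext i
  unfold pat
  congr 2
  ring_nf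

open Classical in
theorem card_pat_near (D V n q : ℕ) [NeZero V] (hq : 1 ≤ q) (hqn : q ≤ n) (i₀ : Fin n)
    (z : Fin D → ZMod V) :
    (Finset.univ.filter (fun P : Fin n → Fin D → ZMod V =>
      P i₀ = z ∧ ∃ x θ : Fin D → ℝ, Ret V θ q ∧ pat V n x θ = P)).card ≤ (64 * n ^ 5) ^ D := by
  choose U hc hU using fun l : Fin D =>
    pc_one V n i₀ (z l) q (fun r => (V : ℝ) * (r : ℝ) / (q : ℝ))
  refine pc_pi _ U (fun l => (hc l).trans ?_) ?_
  · calc q * (64 * n ^ 4) ≤ n * (64 * n ^ 4) := Nat.mul_le_mul_right _ hqn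
      _ = 64 * n ^ 5 := by ring
  · intro P hP l
    rw [Finset.mem_filter] at hP
    obtain ⟨-, hz, x, θ, hR, rfl⟩ := hP
    obtain ⟨b, hb⟩ := hR l
    have hV : (0 : ℝ) < (V : ℝ) := by
      have := NeZero.pos V
      exact_mod_cast this
    have hq0 : (0 : ℝ) < (q : ℝ) := by exact_mod_cast hq
    have hqz : (0 : ℤ) < (q : ℤ) := by exact_mod_cast hq
    rw [pc_pat]
    have hmod : (((b % (q : ℤ)).toNat : ℕ) : ℤ) = b % (q : ℤ) :=
      Int.toNat_of_nonneg (Int.emod_nonneg _ hqz.ne')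
    refine hU l _ _ (b / (q : ℤ)) ((b % (q : ℤ)).toNat) ?_ ?_ ?_
    · have := Int.emod_lt_of_pos b hqz
      omega
    · have hdecomp : (b : ℝ) = (q : ℝ) * ((b / (q : ℤ) : ℤ) : ℝ) +
          (((b % (q : ℤ)).toNat : ℕ) : ℝ) := by
        have h1 : b = (q : ℤ) * (b / (q : ℤ)) + (((b % (q : ℤ)).toNat : ℕ) : ℤ) := by
          rw [hmod]
          exact (Int.mul_ediv_add_emod b q).symm
        have h2 : (b : ℝ) = (((q : ℤ) * (b / (q : ℤ)) + (((b % (q : ℤ)).toNat : ℕ) : ℤ) : ℤ) : ℝ) := by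
          rw [← h1]
        rw [h2]
        push_cast
        ring
      have he : (V : ℝ) * θ l - (V : ℝ) * ((b / (q : ℤ) : ℤ) : ℝ) -
          (V : ℝ) * (((b % (q : ℤ)).toNat : ℕ) : ℝ) / (q : ℝ) =
          ((V : ℝ) / (q : ℝ)) * ((q : ℝ) * θ l - (b : ℝ)) := by
        rw [hdecomp]
        field_simp
        ring
      rw [he, abs_mul, abs_of_pos (div_pos hV hq0)]
      have h3 : (V : ℝ) / (q : ℝ) * |(q : ℝ) * θ l - (b : ℝ)| ≤ (V : ℝ) / (q : ℝ) * (1 / (V : ℝ)) :=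
        mul_le_mul_of_nonneg_left hb.le (div_pos hV hq0).le
      refine h3.trans ?_
      have h4 : (V : ℝ) / (q : ℝ) * (1 / (V : ℝ)) = 1 / (q : ℝ) := by
        field_simp
      rw [h4, div_le_one hq0]
      exact_mod_cast hq
    · have h5 := congrFun hz l
      have h6 := congrFun (pc_pat V n x θ l) i₀
      rw [← h6]
      exact h5

private theorem pc_at (V n : ℕ) [NeZero V] (i₀ : Fin n) (m : ZMod V) :
    ∃ U : Finset (Fin n → ZMod V), U.card ≤ V * (64 * n ^ 4) ∧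
      ∀ (α β : ℝ), ((⌊α + ((i₀ : ℕ) : ℝ) * β⌋ : ℤ) : ZMod V) = m →
        (fun i : Fin n => ((⌊α + ((i : ℕ) : ℝ) * β⌋ : ℤ) : ZMod V)) ∈ U := by
  obtain ⟨U, hc, hU⟩ := pc_one V n i₀ m V (fun r => (r : ℝ))
  refine ⟨U, hc, fun α β hm => ?_⟩
  have hV : (0 : ℝ) < (V : ℝ) := by
    have := NeZero.pos V
    exact_mod_cast this
  set k : ℤ := ⌊β / (V : ℝ)⌋ with hk
  set β' : ℝ := β - (V : ℝ) * (k : ℝ) with hβ'
  have h0 : 0 ≤ β' := by
    have h1 := Int.floor_le (β / (V : ℝ))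
    rw [← hk, le_div_iff₀ hV] at h1
    rw [hβ']
    linarith
  have h1 : β' < V := by
    have h2 := Int.lt_floor_add_one (β / (V : ℝ))
    rw [← hk, div_lt_iff₀ hV] at h2
    rw [hβ']
    linarith
  refine hU α β k ⌊β'⌋₊ ?_ ?_ hm
  · exact (Nat.floor_lt h0).2 h1
  · rw [← hβ', abs_le]
    have h2 := Nat.floor_le h0
    have h3 := Nat.lt_floor_add_one β'
    constructor <;> linarith

open Classical in
theorem card_pat_at (D V n : ℕ) [NeZero V] (i₀ : Fin n) (z : Fin D → ZMod V) :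
    (Finset.univ.filter (fun P : Fin n → Fin D → ZMod V =>
      P i₀ = z ∧ ∃ x θ : Fin D → ℝ, pat V n x θ = P)).card ≤ (64 * V * n ^ 4) ^ D := by
  choose U hc hU using fun l : Fin D => pc_at V n i₀ (z l)
  refine pc_pi _ U (fun l => (hc l).trans ?_) ?_
  · exact le_of_eq (by ring)
  · intro P hP l
    rw [Finset.mem_filter] at hP
    obtain ⟨-, hz, x, θ, rfl⟩ := hP
    rw [pc_pat]
    refine hU l _ _ ?_
    have h6 := congrFun (pc_pat V n x θ l) i₀
    rw [← h6]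
    exact congrFun hz l

open Classical in
theorem card_pat_all (D V n : ℕ) [NeZero V] (hn : 1 ≤ n) :
    (Finset.univ.filter (fun P : Fin n → Fin D → ZMod V =>
      ∃ x θ : Fin D → ℝ, pat V n x θ = P)).card ≤ (64 * V ^ 2 * n ^ 4) ^ D := by
  have : NeZero n := ⟨by omega⟩
  choose U hc hU using fun m : ZMod V => pc_at V n (0 : Fin n) m
  refine pc_pi _ (fun _ => (Finset.univ : Finset (ZMod V)).biUnion U) (fun l => ?_) ?_
  · have h := Finset.card_biUnion_le_card_mul (Finset.univ : Finset (ZMod V)) U (V * (64 * n ^ 4))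
      fun m _ => hc m
    rw [Finset.card_univ, ZMod.card] at h
    refine h.trans (le_of_eq (by ring))
  · intro P hP l
    rw [Finset.mem_filter] at hP
    obtain ⟨-, x, θ, rfl⟩ := hP
    rw [pc_pat, Finset.mem_biUnion]
    exact ⟨_, Finset.mem_univ _, hU _ _ _ rfl⟩

end Crest.Agent.VDW
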