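import Crest.Agent.VDW.Defs

/-!
# Row 64 (S0086), chunk R64-D: elementary structure of return times
-/

set_option autoImplicit false

namespace Crest.Agent.VDW

open Finset

theorem ret_of_pat_eq {D V n : ℕ} (hV : 1 ≤ V) (x θ : Fin D → ℝ) (i j : Fin n) (hij : i ≤ j)
    (h : pat V n x θ i = pat V n x θ j) : Ret V θ ((j : ℕ) - (i : ℕ)) := by
  intro l
  have h1 := congrFun h l
  simp only [pat] at h1
  rw [ZMod.intCast_eq_intCast_iff_dvd_sub] at h1
  obtain ⟨b, hb⟩ := h1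
  refine ⟨b, ?_⟩
  have hij' : (i : ℕ) ≤ (j : ℕ) := hij
  have hVR : (0 : ℝ) < V := by exact_mod_cast hV
  have hbR : (⌊(V : ℝ) * (x l + ((j : ℕ) : ℝ) * θ l)⌋ : ℝ) -
      (⌊(V : ℝ) * (x l + ((i : ℕ) : ℝ) * θ l)⌋ : ℝ) = (V : ℝ) * b := by exact_mod_cast hb
  have f1 := Int.floor_le ((V : ℝ) * (x l + ((j : ℕ) : ℝ) * θ l))
  have f2 := Int.lt_floor_add_one ((V : ℝ) * (x l + ((j : ℕ) : ℝ) * θ l))
  have f3 := Int.floor_le ((V : ℝ) * (x l + ((i : ℕ) : ℝ) * θ l))
  have f4 := Int.lt_floor_add_one ((V : ℝ) * (x l + ((i : ℕ) : ℝ) * θ l))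
  rw [Nat.cast_sub hij', lt_div_iff₀ hVR]
  have e : |(((j : ℕ) : ℝ) - ((i : ℕ) : ℝ)) * θ l - b| * (V : ℝ) =
      |((((j : ℕ) : ℝ) - ((i : ℕ) : ℝ)) * θ l - b) * (V : ℝ)| := by
    rw [abs_mul, abs_of_pos hVR]
  rw [e, abs_lt]
  constructor
  · nlinarith
  · nlinarith

theorem ret_mono {D V V' q : ℕ} (hV : 1 ≤ V) (hVV : V ≤ V') (θ : Fin D → ℝ) (h : Ret V' θ q) :
    Ret V θ q := by
  intro l
  obtain ⟨b, hb⟩ := h l
  refine ⟨b, hb.trans_le ?_⟩
  have hVR : (0 : ℝ) < V := by exact_mod_cast hV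
  exact one_div_le_one_div_of_le hVR (by exact_mod_cast hVV)

/-- a set of indices with pairwise differences at least `q` is mapped injectively by `/ q` -/
theorem sep_injOn {k q : ℕ} (hq : 1 ≤ q) (S : Finset (Fin k))
    (hS : ∀ i ∈ S, ∀ j ∈ S, i < j → q ≤ (j : ℕ) - (i : ℕ)) :
    Set.InjOn (fun i : Fin k => (i : ℕ) / q) (S : Set (Fin k)) := by
  have key : ∀ i ∈ S, ∀ j ∈ S, i < j → (i : ℕ) / q < (j : ℕ) / q := by
    intro i hi j hj hij
    have h1 := hS i hi j hj hij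
    have h2 : (i : ℕ) < (j : ℕ) := hij
    have h3 : (i : ℕ) + q ≤ (j : ℕ) := by omega
    have h4 : ((i : ℕ) + q) / q ≤ (j : ℕ) / q := Nat.div_le_div_right h3
    rw [Nat.add_div_right _ hq] at h4
    omega
  intro i hi j hj hij
  have hij' : (i : ℕ) / q = (j : ℕ) / q := hij
  rcases lt_trichotomy i j with h | h | h
  · have := key i hi j hj h; omega
  · exact h
  · have := key j hj i hi h; omega

/-- a set of indices with pairwise differences at least `q` is small -/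
theorem card_le_of_sep {k q : ℕ} (hq : 1 ≤ q) (S : Finset (Fin k))
    (hS : ∀ i ∈ S, ∀ j ∈ S, i < j → q ≤ (j : ℕ) - (i : ℕ)) : S.card ≤ k / q + 1 := by
  rw [← Finset.card_image_of_injOn (sep_injOn hq S hS)]
  calc (S.image fun i : Fin k => (i : ℕ) / q).card ≤ (Finset.range (k / q + 1)).card := by
        refine Finset.card_le_card ?_
        intro a ha
        rw [Finset.mem_image] at ha
        obtain ⟨i, -, rfl⟩ := ha
        rw [Finset.mem_range]
        have : (i : ℕ) / q ≤ k / q := Nat.div_le_div_right i.2.le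
        omega
    _ = k / q + 1 := by simp

theorem card_le_four_of_sep {k q : ℕ} (hk : 1 ≤ k) (hq : k ≤ 4 * q) (S : Finset (Fin k))
    (hS : ∀ i ∈ S, ∀ j ∈ S, i < j → q ≤ (j : ℕ) - (i : ℕ)) : S.card ≤ 4 := by
  have hq1 : 1 ≤ q := by omega
  rw [← Finset.card_image_of_injOn (sep_injOn hq1 S hS)]
  calc (S.image fun i : Fin k => (i : ℕ) / q).card ≤ (Finset.range 4).card := by
        refine Finset.card_le_card ?_
        intro a ha
        rw [Finset.mem_image] at ha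
        obtain ⟨i, -, rfl⟩ := ha
        rw [Finset.mem_range, Nat.div_lt_iff_lt_mul hq1]
        exact i.2.trans_le hq
    _ = 4 := by simp

/-- the minimal return time divides every other return time below `k` -/
theorem minimal_ret_dvd {D V k q m : ℕ} (hV : (k + 1) ^ 2 ≤ V) (θ : Fin D → ℝ)
    (hq0 : 1 ≤ q) (hqk : q < k) (hq : Ret V θ q) (hmin : ∀ j, 1 ≤ j → j < q → ¬ Ret V θ j)
    (hm : m < k) (hRm : Ret V θ m) : q ∣ m := by
  by_contra hnd
  set t := m / q with ht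
  set r := m % q with hr
  have hmr : q * t + r = m := Nat.div_add_mod m q
  have hrq : r < q := Nat.mod_lt _ hq0
  have hr0 : 1 ≤ r := by
    rcases Nat.eq_zero_or_pos r with h | h
    · exact absurd (Nat.dvd_of_mod_eq_zero h) hnd
    · exact h
  have htm : t ≤ m := Nat.div_le_self _ _
  have hVR : (0 : ℝ) < V := by
    have : 0 < V := lt_of_lt_of_le (by positivity) hV
    exact_mod_cast this
  have hqR : (0 : ℝ) < q := by exact_mod_cast hq0
  have hVk : ((k : ℝ) + 1) ^ 2 ≤ V := by exact_mod_cast hV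
  have htk : (t : ℝ) + 1 ≤ k := by exact_mod_cast (by omega : t + 1 ≤ k)
  have hqkR : (q : ℝ) < k := by exact_mod_cast hqk
  have hrqR : (r : ℝ) < q := by exact_mod_cast hrq
  have hrR : (0 : ℝ) < r := by exact_mod_cast hr0
  have ht0 : (0 : ℝ) ≤ t := Nat.cast_nonneg _
  have hmR : (q : ℝ) * t + r = m := by exact_mod_cast hmr
  have hvinv : (0 : ℝ) < 1 / V := by positivity
  -- the gcd
  set e := Nat.gcd r q with he
  have he1 : 1 ≤ e := Nat.gcd_pos_of_pos_left _ hr0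
  have heq : e < q := lt_of_le_of_lt (Nat.gcd_le_left _ hr0) hrq
  refine hmin e he1 heq ?_
  intro l
  obtain ⟨b, hb⟩ := hq l
  obtain ⟨c', hc'⟩ := hRm l
  -- r b = q c
  have hrb : (r : ℤ) * b = q * (c' - t * b) := by
    have h1 : |(r : ℝ) * b - q * (c' - t * b)| < 1 := by
      have e1 : (r : ℝ) * b - q * (c' - t * b) =
          (m : ℝ) * b - q * c' := by rw [← hmR]; ring
      have e2 : (m : ℝ) * b - q * c' = q * ((m : ℝ) * θ l - c') - m * ((q : ℝ) * θ l - b) := by ring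
      rw [e1, e2]
      have hmk : (m : ℝ) + 1 ≤ k := by exact_mod_cast (by omega : m + 1 ≤ k)
      have hm0 : (0 : ℝ) ≤ m := Nat.cast_nonneg _
      calc |(q : ℝ) * ((m : ℝ) * θ l - c') - m * ((q : ℝ) * θ l - b)|
          ≤ |(q : ℝ) * ((m : ℝ) * θ l - c')| + |(m : ℝ) * ((q : ℝ) * θ l - b)| := abs_sub _ _
        _ = q * |(m : ℝ) * θ l - c'| + m * |(q : ℝ) * θ l - b| := by
            rw [abs_mul, abs_mul, abs_of_pos hqR, abs_of_nonneg hm0]
        _ ≤ q * (1 / V) + m * (1 / V) := by gcongr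
        _ = (q + m) / V := by ring
        _ < 1 := by
            rw [div_lt_one hVR]
            nlinarith
    have h2 : ((|(r : ℤ) * b - q * (c' - t * b)| : ℤ) : ℝ) < 1 := by
      push_cast
      exact h1
    have h3 : |(r : ℤ) * b - q * (c' - t * b)| < 1 := by exact_mod_cast h2
    have h4 := Int.abs_lt_one_iff.mp h3
    linarith
  -- Bezout
  set d : ℤ := (c' - t * b) * Nat.gcdA r q + b * Nat.gcdB r q with hd
  have heb : (e : ℤ) * b = q * d := by
    have hbez : (e : ℤ) = r * Nat.gcdA r q + q * Nat.gcdB r q := Nat.gcd_eq_gcd_ab r q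
    rw [hbez, hd]
    linear_combination (Nat.gcdA r q) * hrb
  have hebR : (e : ℝ) * b = q * d := by exact_mod_cast heb
  refine ⟨d, ?_⟩
  have heR : (0 : ℝ) < e := by exact_mod_cast he1
  have heqR : (e : ℝ) < q := by exact_mod_cast heq
  have h5 : (e : ℝ) * θ l - d = (e / q) * ((q : ℝ) * θ l - b) := by
    field_simp
    linarith
  rw [h5, abs_mul, abs_of_pos (div_pos heR hqR)]
  have h6 : (e : ℝ) / q < 1 := (div_lt_one hqR).mpr heqR
  calc (e : ℝ) / q * |(q : ℝ) * θ l - b| ≤ 1 * |(q : ℝ) * θ l - b| := by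
        gcongr
    _ < 1 / V := by rw [one_mul]; exact hb

/-- coarsening -/
theorem coarse_pat {D V V' n : ℕ} (hV' : 1 ≤ V') (hV : 1 ≤ V) (h : V' ∣ V) (x θ : Fin D → ℝ)
    (i : Fin n) : coarse V V' (pat V n x θ i) = pat V' n x θ i := by
  obtain ⟨c, rfl⟩ := h
  have hc : 1 ≤ c := by
    rcases Nat.eq_zero_or_pos c with h | h
    · subst h; simp at hV
    · exact h
  have : NeZero (V' * c) := ⟨by omega⟩
  have : NeZero V' := ⟨by omega⟩
  funext l
  simp only [coarse, pat]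
  set y : ℝ := x l + ((i : ℕ) : ℝ) * θ l with hy
  set N : ℤ := ⌊((V' * c : ℕ) : ℝ) * y⌋ with hN
  have hcR : (0 : ℝ) < c := by exact_mod_cast hc
  have hcZ : (0 : ℤ) < c := by exact_mod_cast hc
  have h1 : ⌊(V' : ℝ) * y⌋ = N / (c : ℤ) := by
    rw [Int.floor_eq_iff]
    have f1 := Int.floor_le (((V' * c : ℕ) : ℝ) * y)
    have f2 := Int.lt_floor_add_one (((V' * c : ℕ) : ℝ) * y)
    rw [← hN] at f1 f2
    have g1 := Int.mul_ediv_add_emod N (c : ℤ)
    have g2 := Int.emod_nonneg N hcZ.ne'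
    have g3 := Int.emod_lt_of_pos N hcZ
    have g4 : (c : ℤ) * (N / c) ≤ N := by linarith
    have g5 : N + 1 ≤ (c : ℤ) * (N / c + 1) := by
      have : N < (c : ℤ) * (N / c) + c := by linarith
      nlinarith
    have g4R : (c : ℝ) * ((N / (c : ℤ) : ℤ) : ℝ) ≤ N := by exact_mod_cast g4
    have g5R : (N : ℝ) + 1 ≤ (c : ℝ) * (((N / (c : ℤ) : ℤ) : ℝ) + 1) := by exact_mod_cast g5
    push_cast at f1 f2
    constructor
    · by_contra hcon
      push Not at hcon
      have := mul_lt_mul_of_pos_left hcon hcR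
      nlinarith
    · by_contra hcon
      push Not at hcon
      have := mul_le_mul_of_nonneg_left hcon hcR.le
      nlinarith
  rw [h1]
  have hVc : V' * c / V' = c := Nat.mul_div_cancel_left c hV'
  rw [hVc]
  have h2 : (((((N : ℤ) : ZMod (V' * c)).val / c : ℕ) : ℤ)) = (N % ((V' * c : ℕ) : ℤ)) / c := by
    rw [Int.natCast_div, ZMod.val_intCast]
  have h3 : N / (c : ℤ) = (V' : ℤ) * (N / ((V' * c : ℕ) : ℤ)) + (N % ((V' * c : ℕ) : ℤ)) / c := by
    have g1 := Int.mul_ediv_add_emod N ((V' * c : ℕ) : ℤ)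
    conv_lhs => rw [← g1]
    rw [show ((V' * c : ℕ) : ℤ) * (N / ((V' * c : ℕ) : ℤ)) + N % ((V' * c : ℕ) : ℤ) =
      N % ((V' * c : ℕ) : ℤ) + ((V' : ℤ) * (N / ((V' * c : ℕ) : ℤ))) * c by push_cast; ring]
    rw [Int.add_mul_ediv_right _ _ hcZ.ne']
    ring
  rw [h3, ← h2, Int.cast_add, Int.cast_mul, Int.cast_natCast, Int.cast_natCast,
    ZMod.natCast_self, zero_mul, zero_add]

end Crest.Agent.VDW
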