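import Crest.Agent.VDW.Defs
import Crest.Agent.VDW.LLLCyl
import Crest.Agent.VDW.PatCount
import Crest.Agent.VDW.RetLemmas

/-!
# Row 64 (S0086), R64-H: the level-one colouring
-/

set_option autoImplicit false

namespace Crest.Agent.VDW

open Finset

/-! ### sums over subsets -/

/-- `exp (-6)` is large enough -/
private theorem num_const : (28 : ℝ) * (15 / 14) ^ 15 ≤ 2 ^ 15 * Real.exp (-6) := by
  have h : Real.exp 6 ≤ 403.5 := by
    have h1 : Real.exp 6 = Real.exp 1 ^ 6 := by
      rw [← Real.exp_nat_mul]; norm_num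
    rw [h1]
    have h2 := Real.exp_one_lt_d9
    calc Real.exp 1 ^ 6 ≤ 2.7182818286 ^ 6 := by
          refine pow_le_pow_left₀ (Real.exp_pos 1).le ?_ 6
          linarith
      _ ≤ 403.5 := by norm_num
  have h3 : (1 : ℝ) / 403.5 ≤ Real.exp (-6) := by
    rw [Real.exp_neg, one_div]
    exact inv_anti₀ (Real.exp_pos 6) h
  calc (28 : ℝ) * (15 / 14) ^ 15 ≤ 2 ^ 15 * (1 / 403.5) := by norm_num
    _ ≤ _ := by
      refine mul_le_mul_of_nonneg_left h3 (by norm_num)

/-- `28 ^ m (15/14) ^ q ≤ 2 ^ q exp (-0.4 q)` for `15 m ≤ q` -/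
private theorem pow_const (m q : ℕ) (h : 15 * m ≤ q) :
    (28 : ℝ) ^ m * (15 / 14) ^ q ≤ 2 ^ q * Real.exp (-(0.4 * q)) := by
  have hR : 0 ≤ (2 : ℝ) ^ q * Real.exp (-(0.4 * q)) := by positivity
  refine le_of_pow_le_pow_left₀ (n := 15) (by norm_num) hR ?_
  have e1 : ((28 : ℝ) ^ m * (15 / 14) ^ q) ^ 15 = 28 ^ (15 * m) * ((15 / 14) ^ 15) ^ q := by
    rw [mul_pow, ← pow_mul, ← pow_mul, ← pow_mul, mul_comm m 15, mul_comm q 15]
  have e2 : ((2 : ℝ) ^ q * Real.exp (-(0.4 * q))) ^ 15 = (2 ^ 15 * Real.exp (-6)) ^ q := by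
    rw [mul_pow, mul_pow, ← pow_mul, ← pow_mul, mul_comm q 15, ← Real.exp_nat_mul,
      ← Real.exp_nat_mul]
    congr 2
    push_cast
    ring
  rw [e1, e2]
  calc (28 : ℝ) ^ (15 * m) * ((15 / 14) ^ 15) ^ q ≤ 28 ^ q * ((15 / 14) ^ 15) ^ q := by
        refine mul_le_mul_of_nonneg_right ?_ (by positivity)
        exact pow_le_pow_right₀ (by norm_num) h
    _ = (28 * (15 / 14) ^ 15) ^ q := by rw [mul_pow]
    _ ≤ _ := pow_le_pow_left₀ (by positivity) num_const q

/-- the sum of `2 ^ (-|I|)` over the large subsets of a set of size `q` -/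
private theorem sum_large {β : Type} [DecidableEq β] (T : Finset β) (hT : 1 ≤ T.card) :
    ∑ I ∈ T.powerset.filter (fun I => 14 * T.card < 15 * I.card), ((1 : ℝ) / 2) ^ I.card ≤
      Real.exp (-(0.4 * T.card)) := by
  set q := T.card with hq
  set m := (q - 1) / 15 with hm
  have hm1 : 15 * m ≤ q := by omega
  -- compare with complements
  have h1 : ∀ I ∈ T.powerset.filter (fun I => 14 * q < 15 * I.card),
      ((1 : ℝ) / 2) ^ I.card ≤ (28 ^ m / 2 ^ q) * (1 / 14) ^ (T \ I).card := by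
    intro I hI
    rw [mem_filter, mem_powerset] at hI
    have hc : (T \ I).card = q - I.card := card_sdiff_of_subset hI.1
    have hle : I.card ≤ q := card_le_card hI.1
    set j := (T \ I).card with hj
    have hjm : j ≤ m := by omega
    have e1 : I.card = q - j := by omega
    have hjq : j ≤ q := by omega
    rw [e1]
    have e2 : ((1 : ℝ) / 2) ^ (q - j) = 2 ^ j / 2 ^ q := by
      rw [eq_div_iff (by positivity), one_div, inv_pow, inv_mul_eq_div, div_eq_iff (by positivity),
        ← pow_add]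
      congr 1
      omega
    rw [e2, div_mul_eq_mul_div]
    refine div_le_div_of_nonneg_right ?_ (by positivity)
    have e3 : (2 : ℝ) ^ j = 28 ^ j * (1 / 14) ^ j := by
      rw [← mul_pow]; norm_num
    rw [e3]
    refine mul_le_mul_of_nonneg_right ?_ (by positivity)
    exact pow_le_pow_right₀ (by norm_num) hjm
  have h2 : ∑ I ∈ T.powerset.filter (fun I => 14 * q < 15 * I.card),
      (28 ^ m / 2 ^ q : ℝ) * (1 / 14) ^ (T \ I).card ≤
      ∑ I ∈ T.powerset, (28 ^ m / 2 ^ q : ℝ) * (1 / 14) ^ (T \ I).card :=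
    sum_le_sum_of_subset_of_nonneg (filter_subset _ _) (fun _ _ _ => by positivity)
  have h3 : ∑ I ∈ T.powerset, (28 ^ m / 2 ^ q : ℝ) * (1 / 14) ^ (T \ I).card =
      (28 ^ m / 2 ^ q : ℝ) * (15 / 14) ^ q := by
    rw [← mul_sum]
    congr 1
    have h4 := Finset.prod_add (fun _ : β => (1 : ℝ)) (fun _ : β => (1 / 14 : ℝ)) T
    simp only [prod_const, one_pow, one_mul] at h4
    rw [← h4, ← hq]
    norm_num
  calc _ ≤ ∑ I ∈ T.powerset.filter (fun I => 14 * q < 15 * I.card),
      (28 ^ m / 2 ^ q : ℝ) * (1 / 14) ^ (T \ I).card := sum_le_sum h1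
    _ ≤ _ := h2
    _ = (28 ^ m / 2 ^ q : ℝ) * (15 / 14) ^ q := h3
    _ = (28 ^ m * (15 / 14) ^ q) / 2 ^ q := by ring
    _ ≤ Real.exp (-(0.4 * q)) := by
      rw [div_le_iff₀ (by positivity), mul_comm (Real.exp _)]
      exact pow_const m q hm1

/-! ### windows -/

/-- counting along disjoint windows of length `q` -/
private theorem windows (g : ℕ → ℕ) (q : ℕ) (m : ℕ)
    (h : ∀ j < m, q ≤ 15 * ∑ i ∈ range q, g (j * q + i)) :
    m * q ≤ 15 * ∑ n ∈ range (m * q), g n := by
  induction m with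
  | zero => simp
  | succ m ih =>
    have h1 := ih (fun j hj => h j (Nat.lt_succ_of_lt hj))
    have h2 := h m (Nat.lt_succ_self m)
    rw [Nat.succ_mul, sum_range_add, Nat.mul_add]
    omega

/-- the local lemma part -/
private theorem level1_lll (D W k E₀ m2 : ℕ) [NeZero W] (hE : 1 ≤ E₀) (hk2 : 100 ≤ k)
    (hm2 : m2 = k / 4) (hEm : E₀ ≤ m2)
    (h1 : ∀ q : ℕ, E₀ ≤ q → (64 * (k : ℝ) ^ 5) ^ D * (100 * (k : ℝ) ^ 4) ≤ Real.exp (0.4 * q))
    (h2 : (64 * (W : ℝ) * (k : ℝ) ^ 4) ^ D * (100 * (k : ℝ) ^ 4) ≤ Real.exp (0.1 * k - 1)) :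
    ∃ ψ : (Fin D → ZMod W) → Bool, ∀ q, E₀ ≤ q → q ≤ m2 → ∀ P : Fin k → Fin D → ZMod W,
      (∃ x θ : Fin D → ℝ, (Ret W θ q ∨ q = m2) ∧ pat W k x θ = P) →
      (∀ i j : Fin k, (i : ℕ) < q → (j : ℕ) < q → P i = P j → i = j) →
      ∀ (I : Finset (Fin k)), (∀ i ∈ I, (i : ℕ) < q) → 14 * q < 15 * I.card → ∀ b : Bool,
        ∃ i ∈ I, ψ (P i) ≠ b := by
  classical
  have hkpos : 0 < k := by omega
  have hkR : (0 : ℝ) < k := by exact_mod_cast hkpos
  have hm2k : m2 ≤ k := by omega
  let T : ℕ → Finset (Fin k) := fun q => univ.filter (fun i => (i : ℕ) < q)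
  have hT : ∀ q, q ≤ k → (T q).card = q := by
    intro q hq
    have := Fin.card_filter_val_lt (n := k) (m := q)
    simp only [T]
    rw [this]
    exact min_eq_right hq
  let pats : ℕ → Finset (Fin k → Fin D → ZMod W) := fun q =>
    univ.filter (fun P => ∃ x θ : Fin D → ℝ, (Ret W θ q ∨ q = m2) ∧ pat W k x θ = P)
  let subs : ℕ → Finset (Finset (Fin k)) := fun q =>
    (T q).powerset.filter (fun I => 14 * (T q).card < 15 * I.card)
  let box : Finset (ℕ × (Fin k → Fin D → ZMod W) × Finset (Fin k) × Bool) :=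
    Icc E₀ m2 ×ˢ (univ ×ˢ (univ ×ˢ univ))
  let E : Finset (ℕ × (Fin k → Fin D → ZMod W) × Finset (Fin k) × Bool) :=
    box.filter (fun a => a.2.1 ∈ pats a.1 ∧ a.2.2.1 ∈ subs a.1 ∧
      ∀ i ∈ T a.1, ∀ j ∈ T a.1, a.2.1 i = a.2.1 j → i = j)
  let F : ℕ × (Fin k → Fin D → ZMod W) × Finset (Fin k) × Bool → Finset (Fin D → ZMod W) :=
    fun a => a.2.2.1.image a.2.1
  have hpos : ∀ a ∈ E, 0 < a.2.2.1.card := by
    intro a ha
    have h := (mem_filter.1 ha).2.2.1
    have h' := (mem_filter.1 h).2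
    omega
  have hinj : ∀ a ∈ E, (F a).card = a.2.2.1.card := by
    intro a ha
    obtain ⟨-, h3, h4⟩ := (mem_filter.1 ha).2
    refine card_image_of_injOn ?_
    have hsub := mem_powerset.1 (mem_filter.1 h3).1
    intro i hi j hj hij
    exact h4 i (hsub hi) j (hsub hj) hij
  have key := lll_cyl E F (fun a _ => a.2.2.2) (1 / 2) (by norm_num) (by norm_num) k (by omega)
    (fun a ha => by
      rw [hinj a ha]
      exact (card_le_univ _).trans_eq (Fintype.card_fin k))
    (fun a ha => by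
      have := hpos a ha
      exact (card_pos.1 this).image _)
    (fun v => by
      -- the terms
      let pv : ℕ → Finset (Fin k → Fin D → ZMod W) := fun q =>
        (pats q).filter (fun P => ∃ i₀, P i₀ = v)
      have hterm : ∀ a ∈ E.filter (fun a => v ∈ F a),
          (∏ w ∈ F a, (if a.2.2.2 = true then (1 / 2 : ℝ) else 1 - 1 / 2)) =
          (if a.2.1 ∈ pv a.1 then (1 : ℝ) else 0) *
            (if a.2.2.1 ∈ subs a.1 then (1 / 2 : ℝ) ^ a.2.2.1.card else 0) := by
        intro a ha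
        obtain ⟨haE, hav⟩ := mem_filter.1 ha
        obtain ⟨i₀, -, hi₀⟩ := mem_image.1 hav
        obtain ⟨h3, h4, -⟩ := (mem_filter.1 haE).2
        have h5 : a.2.1 ∈ pv a.1 := mem_filter.2 ⟨h3, i₀, hi₀⟩
        rw [if_pos h5, if_pos h4, one_mul, ← hinj a haE]
        have : ∀ w ∈ F a, (if a.2.2.2 = true then (1 / 2 : ℝ) else 1 - 1 / 2) = 1 / 2 := by
          intro w _
          split_ifs <;> norm_num
        rw [prod_congr rfl this, prod_const]
      have hsum1 : ∑ a ∈ E.filter (fun a => v ∈ F a),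
          (∏ w ∈ F a, (if a.2.2.2 = true then (1 / 2 : ℝ) else 1 - 1 / 2)) ≤
          ∑ a ∈ box, (if a.2.1 ∈ pv a.1 then (1 : ℝ) else 0) *
            (if a.2.2.1 ∈ subs a.1 then (1 / 2 : ℝ) ^ a.2.2.1.card else 0) := by
        rw [sum_congr rfl hterm]
        refine sum_le_sum_of_subset_of_nonneg ?_ ?_
        · exact (filter_subset _ _).trans (filter_subset _ _)
        · intro a _ _
          split_ifs <;> positivity
      have hsum2 : ∑ a ∈ box, (if a.2.1 ∈ pv a.1 then (1 : ℝ) else 0) *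
            (if a.2.2.1 ∈ subs a.1 then (1 / 2 : ℝ) ^ a.2.2.1.card else 0) =
          ∑ q ∈ Icc E₀ m2, 2 * (((pv q).card : ℝ) * ∑ I ∈ subs q, (1 / 2 : ℝ) ^ I.card) := by
        simp only [box]
        rw [sum_product]
        refine sum_congr rfl fun q _ => ?_
        rw [sum_product]
        have e1 : ∀ P : Fin k → Fin D → ZMod W,
            ∑ y ∈ (univ : Finset (Finset (Fin k))) ×ˢ (univ : Finset Bool),
              (if P ∈ pv q then (1 : ℝ) else 0) *
                (if y.1 ∈ subs q then (1 / 2 : ℝ) ^ y.1.card else 0) =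
            (if P ∈ pv q then (1 : ℝ) else 0) * (2 * ∑ I ∈ subs q, (1 / 2 : ℝ) ^ I.card) := by
          intro P
          rw [← mul_sum, sum_product]
          congr 1
          simp only [sum_const, card_univ, Fintype.card_bool, nsmul_eq_mul]
          rw [← mul_sum, sum_ite_mem, univ_inter]
          norm_num
        rw [sum_congr rfl (fun P _ => e1 P), ← sum_mul, sum_ite_mem, univ_inter, sum_const,
          nsmul_eq_mul, mul_one]
        ring
      have hbd : ∀ q ∈ Icc E₀ m2,
          ((pv q).card : ℝ) * ∑ I ∈ subs q, (1 / 2 : ℝ) ^ I.card ≤ 1 / (100 * (k : ℝ) ^ 3) := by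
        intro q hq
        obtain ⟨hq1, hq2⟩ := mem_Icc.1 hq
        have hqk : q ≤ k := hq2.trans hm2k
        have hS : ∑ I ∈ subs q, (1 / 2 : ℝ) ^ I.card ≤ Real.exp (-(0.4 * q)) := by
          have := sum_large (T q) (by rw [hT q hqk]; omega)
          rw [hT q hqk] at this
          simp only [subs]
          rw [hT q hqk]
          exact this
        have hcard : ∀ N : ℕ, (∀ i₀ : Fin k, ((pats q).filter (fun P => P i₀ = v)).card ≤ N) →
            (pv q).card ≤ k * N := by
          intro N hN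
          have hsub : pv q ⊆ univ.biUnion (fun i₀ : Fin k => (pats q).filter (fun P => P i₀ = v)) := by
            intro P hP
            obtain ⟨hP1, i₀, hi₀⟩ := mem_filter.1 hP
            exact mem_biUnion.2 ⟨i₀, mem_univ _, mem_filter.2 ⟨hP1, hi₀⟩⟩
          refine (card_le_card hsub).trans (card_biUnion_le.trans ?_)
          refine (sum_le_card_nsmul _ _ N (fun i₀ _ => hN i₀)).trans ?_
          rw [card_univ, Fintype.card_fin, smul_eq_mul]
        have hfin : ∀ N : ℕ, (∀ i₀ : Fin k, ((pats q).filter (fun P => P i₀ = v)).card ≤ N) →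
            (N : ℝ) * (100 * (k : ℝ) ^ 4) ≤ Real.exp (0.4 * q) →
            ((pv q).card : ℝ) * ∑ I ∈ subs q, (1 / 2 : ℝ) ^ I.card ≤ 1 / (100 * (k : ℝ) ^ 3) := by
          intro N hN hexp
          have h3 : ((pv q).card : ℝ) ≤ k * N := by exact_mod_cast hcard N hN
          have h4 : ((pv q).card : ℝ) * ∑ I ∈ subs q, (1 / 2 : ℝ) ^ I.card ≤
              (k * N) * Real.exp (-(0.4 * q)) :=
            mul_le_mul h3 hS (sum_nonneg fun _ _ => by positivity) (by positivity)
          refine h4.trans ?_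
          rw [le_div_iff₀ (by positivity), Real.exp_neg]
          have h5 : (0 : ℝ) < Real.exp (0.4 * q) := Real.exp_pos _
          calc (k : ℝ) * N * (Real.exp (0.4 * q))⁻¹ * (100 * (k : ℝ) ^ 3)
              = (N * (100 * (k : ℝ) ^ 4)) * (Real.exp (0.4 * q))⁻¹ := by ring
            _ ≤ Real.exp (0.4 * q) * (Real.exp (0.4 * q))⁻¹ :=
                mul_le_mul_of_nonneg_right hexp (by positivity)
            _ = 1 := mul_inv_cancel₀ h5.ne'
        by_cases hqm : q = m2
        · refine hfin ((64 * W * k ^ 4) ^ D) (fun i₀ => ?_) ?_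
          · refine le_trans (card_le_card ?_) (card_pat_at D W k i₀ v)
            intro P hP
            obtain ⟨hP1, hP2⟩ := mem_filter.1 hP
            obtain ⟨-, x, θ, -, hP3⟩ := mem_filter.1 hP1
            exact mem_filter.2 ⟨mem_univ _, hP2, x, θ, hP3⟩
          · push_cast
            refine h2.trans (Real.exp_le_exp.2 ?_)
            have h6 : k ≤ 4 * q + 3 := by omega
            have h7 : (k : ℝ) ≤ 4 * q + 3 := by exact_mod_cast h6
            linarith
        · refine hfin ((64 * k ^ 5) ^ D) (fun i₀ => ?_) ?_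
          · refine le_trans (card_le_card ?_)
              (card_pat_near D W k q (by omega) hqk i₀ v)
            intro P hP
            obtain ⟨hP1, hP2⟩ := mem_filter.1 hP
            obtain ⟨-, x, θ, h8, hP3⟩ := mem_filter.1 hP1
            exact mem_filter.2 ⟨mem_univ _, hP2, x, θ, h8.resolve_right hqm, hP3⟩
          · push_cast
            exact h1 q hq1
      refine hsum1.trans ?_
      rw [hsum2]
      have h9 : ∑ q ∈ Icc E₀ m2, 2 * (((pv q).card : ℝ) * ∑ I ∈ subs q, (1 / 2 : ℝ) ^ I.card) ≤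
          ∑ q ∈ Icc E₀ m2, 2 * (1 / (100 * (k : ℝ) ^ 3)) :=
        sum_le_sum fun q hq => mul_le_mul_of_nonneg_left (hbd q hq) (by norm_num)
      refine h9.trans ?_
      rw [sum_const, nsmul_eq_mul]
      have h10 : ((Icc E₀ m2).card : ℝ) ≤ k / 4 := by
        have h11 : (Icc E₀ m2).card ≤ m2 := by
          rw [Nat.card_Icc]; omega
        have h12 : 4 * (Icc E₀ m2).card ≤ k := by omega
        have h13 : (4 : ℝ) * (Icc E₀ m2).card ≤ k := by exact_mod_cast h12
        linarith
      have hk100 : (100 : ℝ) ≤ k := by exact_mod_cast hk2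
      calc ((Icc E₀ m2).card : ℝ) * (2 * (1 / (100 * (k : ℝ) ^ 3)))
          ≤ (k / 4) * (2 * (1 / (100 * (k : ℝ) ^ 3))) :=
            mul_le_mul_of_nonneg_right h10 (by positivity)
        _ = 1 / (200 * (k : ℝ) ^ 2) := by
            field_simp
            norm_num
        _ ≤ 1 / (8 * (k : ℝ)) := by
            refine one_div_le_one_div_of_le (by positivity) ?_
            nlinarith)
  obtain ⟨ψ, hψ⟩ := key
  refine ⟨ψ, ?_⟩
  intro q hq1 hq2 P hP hPi I hI hIc b
  have hqk : q ≤ k := hq2.trans hm2k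
  have hmem : (q, P, I, b) ∈ E := by
    refine mem_filter.2 ⟨?_, ?_, ?_, ?_⟩
    · exact mem_product.2 ⟨mem_Icc.2 ⟨hq1, hq2⟩, mem_product.2 ⟨mem_univ _,
        mem_product.2 ⟨mem_univ _, mem_univ _⟩⟩⟩
    · exact mem_filter.2 ⟨mem_univ _, hP⟩
    · refine mem_filter.2 ⟨mem_powerset.2 ?_, ?_⟩
      · intro i hi
        exact mem_filter.2 ⟨mem_univ _, hI i hi⟩
      · show 14 * (T q).card < 15 * I.card
        rw [hT q hqk]
        exact hIc
    · intro i hi j hj hij
      exact hPi i j (mem_filter.1 hi).2 (mem_filter.1 hj).2 hij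
  obtain ⟨v, hv, hne⟩ := hψ _ hmem
  obtain ⟨i, hi, rfl⟩ := mem_image.1 hv
  exact ⟨i, hi, hne⟩

open Classical in
/-- R64-H: the level-one colouring. -/
theorem level1 (D W k E₀ : ℕ) [NeZero W] (hE : 1 ≤ E₀) (hk : 4 * E₀ ≤ k) (hk2 : 100 ≤ k)
    (h1 : ∀ q : ℕ, E₀ ≤ q → (64 * (k : ℝ) ^ 5) ^ D * (100 * (k : ℝ) ^ 4) ≤ Real.exp (0.4 * q))
    (h2 : (64 * (W : ℝ) * (k : ℝ) ^ 4) ^ D * (100 * (k : ℝ) ^ 4) ≤ Real.exp (0.1 * k - 1)) :
    ∃ ψ : (Fin D → ZMod W) → Bool, ∀ x θ : Fin D → ℝ,
      (∀ q, 1 ≤ q → q < E₀ → ¬ Ret W θ q) → ∀ b : Bool,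
        k ≤ 20 * (Finset.univ.filter (fun i : Fin k => ψ (pat W k x θ i) = b)).card := by
  have hW : 1 ≤ W := Nat.one_le_iff_ne_zero.2 (NeZero.ne W)
  have hEm : E₀ ≤ k / 4 := by omega
  obtain ⟨ψ, hψ⟩ := level1_lll D W k E₀ (k / 4) hE hk2 rfl hEm h1 h2
  refine ⟨ψ, ?_⟩
  intro x θ hnr b
  -- the window length
  obtain ⟨q, hq1, hq2, hqR, hqm⟩ : ∃ q, E₀ ≤ q ∧ q ≤ k / 4 ∧ (Ret W θ q ∨ q = k / 4) ∧
      ∀ j, 1 ≤ j → j < q → ¬ Ret W θ j := by
    by_cases h : ∃ q, 1 ≤ q ∧ q < k / 4 ∧ Ret W θ q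
    · refine ⟨Nat.find h, ?_, (Nat.find_spec h).2.1.le, Or.inl (Nat.find_spec h).2.2, ?_⟩
      · by_contra hlt
        exact hnr _ (Nat.find_spec h).1 (not_le.1 hlt) (Nat.find_spec h).2.2
      · intro j hj1 hj2 hR
        exact Nat.find_min h hj2 ⟨hj1, hj2.trans (Nat.find_spec h).2.1, hR⟩
    · exact ⟨k / 4, hEm, le_rfl, Or.inr rfl, fun j hj1 hj2 hR => h ⟨j, hj1, hj2, hR⟩⟩
  have hq0 : 1 ≤ q := hE.trans hq1
  -- the counting function
  let g : ℕ → ℕ := fun n => if h : n < k then
    (if ψ (pat W k x θ ⟨n, h⟩) = b then 1 else 0) else 0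
  have hcount : (Finset.univ.filter (fun i : Fin k => ψ (pat W k x θ i) = b)).card =
      ∑ n ∈ range k, g n := by
    rw [card_filter, Finset.sum_range]
    refine sum_congr rfl fun i _ => ?_
    simp only [g, i.isLt, dif_pos]
  have hwin : ∀ j < k / q, q ≤ 15 * ∑ i ∈ range q, g (j * q + i) := by
    intro j hj
    have hjq : (j + 1) * q ≤ k := by
      calc (j + 1) * q ≤ (k / q) * q := Nat.mul_le_mul_right _ hj
        _ ≤ k := Nat.div_mul_le_self _ _
    have hjq' : j * q + q ≤ k := by linarith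
    let x' : Fin D → ℝ := fun l => x l + ((j * q : ℕ) : ℝ) * θ l
    have hpat : ∀ i : Fin k, (i : ℕ) < q → ∀ h : j * q + (i : ℕ) < k,
        pat W k x' θ i = pat W k x θ ⟨j * q + i, h⟩ := by
      intro i _ h
      funext l
      simp only [pat, x']
      congr 3
      push_cast
      ring
    by_contra hlt
    rw [not_le] at hlt
    -- the set of indices of the window with the other colour
    let I : Finset (Fin k) := univ.filter (fun i => (i : ℕ) < q ∧ ψ (pat W k x' θ i) ≠ b)
    have hIcard : I.card + ∑ i ∈ range q, g (j * q + i) = q := by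
      have hqk : q ≤ k := by omega
      have e1 : ∑ i ∈ range q, g (j * q + i) =
          (univ.filter (fun i : Fin k => (i : ℕ) < q ∧ ψ (pat W k x' θ i) = b)).card := by
        rw [card_filter]
        have e2 : ∀ i : Fin k, (if (i : ℕ) < q ∧ ψ (pat W k x' θ i) = b then 1 else 0) =
            (fun n => if n < q then g (j * q + n) else 0) (i : ℕ) := by
          intro i
          by_cases hi : (i : ℕ) < q
          · have h : j * q + (i : ℕ) < k := by omega
            simp only [hi, true_and, if_true, g, h, dif_pos]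
            rw [hpat i hi h]
          · simp [hi]
        rw [sum_congr rfl (fun i _ => e2 i), ← Finset.sum_range
          (fun n => if n < q then g (j * q + n) else 0), ← sum_filter]
        refine sum_congr ?_ (fun _ _ => rfl)
        ext n
        simp only [mem_range, mem_filter]
        omega
      rw [e1]
      have e3 : (univ.filter (fun i : Fin k => (i : ℕ) < q)).card = q := by
        rw [Fin.card_filter_val_lt]
        exact min_eq_right hqk
      rw [add_comm]
      refine Eq.trans ?_ e3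
      rw [← card_union_of_disjoint]
      · congr 1
        ext i
        simp only [I, mem_union, mem_filter, mem_univ, true_and]
        tauto
      · rw [disjoint_left]
        intro i hi1 hi2
        exact (mem_filter.1 hi2).2.2 (mem_filter.1 hi1).2.2
    have hinj : ∀ i i' : Fin k, (i : ℕ) < q → (i' : ℕ) < q →
        pat W k x' θ i = pat W k x' θ i' → i = i' := by
      intro i i' hi hi' he
      by_contra hne
      rcases lt_or_gt_of_ne hne with hlt' | hlt'
      · have hR := ret_of_pat_eq hW x' θ i i' hlt'.le he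
        have : (i : ℕ) < i' := hlt'
        exact hqm _ (by omega) (by omega) hR
      · have hR := ret_of_pat_eq hW x' θ i' i hlt'.le he.symm
        have : (i' : ℕ) < i := hlt'
        exact hqm _ (by omega) (by omega) hR
    obtain ⟨i, hi, hne⟩ := hψ q hq1 hq2 (pat W k x' θ) ⟨x', θ, hqR, rfl⟩ hinj I
      (fun i hi => (mem_filter.1 hi).2.1) (by omega) (!b)
    have h3 := (mem_filter.1 hi).2.2
    revert hne h3
    cases ψ (pat W k x' θ i) <;> cases b <;> simp
  have hw := windows g q (k / q) hwin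
  have hsub : ∑ n ∈ range (k / q * q), g n ≤ ∑ n ∈ range k, g n :=
    sum_le_sum_of_subset (range_subset_range.2 (Nat.div_mul_le_self k q))
  rw [hcount]
  have h4 : k < (k / q) * q + q := by
    have := Nat.lt_div_mul_add (a := k) (b := q) (by omega)
    exact this
  have h5 : 4 * q ≤ k := by omega
  omega

end Crest.Agent.VDW
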