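import Crest.Agent.VDW.Defs
import Crest.Agent.VDW.GDefs
import Crest.Agent.VDW.CurveMult
import Crest.Agent.VDW.CurveNet

/-!
# Row 64, chunk R64-J2: slow lines through the torus function `G`
-/

set_option autoImplicit false

namespace Crest.Agent.VDW

open Finset

/-- the data of a slow line -/
theorem line_data {D : ℕ} (G : (Fin D → ℝ) → ℂ) (hG : GoodG G) (k lam Q H₀ : ℕ) (hk : 1 ≤ k)
    (hQ : 1 ≤ Q) (hH : 4000 * 100 ^ (D + 3 * (D + 3) ^ 2) * k ^ 3 ≤ H₀)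
    (hlam : 64000 * 100 ^ D * (Q * H₀) ^ 2 ≤ lam) (z y : Fin D → ℝ)
    (hy : ∀ l, |y l| ≤ 1 / (H₀ : ℝ)) (hy1 : ∃ l, 1 / (4 * (Q : ℝ) * H₀) ≤ |y l|) :
    ∃ (r : ℕ) (c : Fin r → ℂ) (ω : Fin r → ℝ) (Ω κ : ℝ),
      (∀ t : ℝ, G (fun l => z l + t * y l) = expSum c ω t) ∧ (0 : ℝ) < lam ∧
      (∑ j, ‖c j‖ ≤ 1) ∧ (∀ j, |ω j| ≤ Ω) ∧ Ω * k ≤ 1 ∧ 0 ≤ Ω ∧
      Ω * k ≤ (100 ^ ((D + 3) ^ 2) * k : ℕ) / (H₀ : ℝ) ∧
      κ ≤ ‖∑ j, c j * ((ω j : ℝ) : ℂ) ^ 2‖ ∧ 1000 ≤ lam * κ ∧ 1000 * (Ω * k) ^ 3 ≤ κ := by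
  have hH0 : 0 < H₀ := by
    have : 0 < 4000 * 100 ^ (D + 3 * (D + 3) ^ 2) * k ^ 3 := by positivity
    omega
  have hHR : (0 : ℝ) < H₀ := by exact_mod_cast hH0
  have hQR : (0 : ℝ) < Q := by exact_mod_cast hQ
  have hkR : (1 : ℝ) ≤ k := by exact_mod_cast hk
  have hlam0 : 0 < lam := by
    have : 0 < 64000 * 100 ^ D * (Q * H₀) ^ 2 := by positivity
    omega
  have hlamR : (0 : ℝ) < lam := by exact_mod_cast hlam0
  obtain ⟨l₁, hl₁⟩ := hy1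
  have : Nonempty (Fin D) := ⟨l₁⟩
  obtain ⟨l₀, -, hmax⟩ := Finset.exists_max_image Finset.univ (fun l => |y l|)
    Finset.univ_nonempty
  set Y := |y l₀| with hYdef
  have hYle : ∀ l, |y l| ≤ Y := fun l => hmax l (Finset.mem_univ l)
  have hY1 : 1 / (4 * (Q : ℝ) * H₀) ≤ Y := le_trans hl₁ (hYle l₁)
  have hYH : Y ≤ 1 / (H₀ : ℝ) := hy l₀
  have hY0 : 0 < Y := lt_of_lt_of_le (by positivity) hY1
  obtain ⟨r, c, ω, hGt, hc, hω, hκ⟩ := hG.2 z y Y hYle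
  set B : ℝ := 100 ^ ((D + 3) ^ 2) with hB
  have hB1 : 1 ≤ B := one_le_pow₀ (by norm_num)
  have hHreal : 4000 * (100 : ℝ) ^ D * B ^ 3 * (k : ℝ) ^ 3 ≤ H₀ := by
    have h1 : ((4000 * 100 ^ (D + 3 * (D + 3) ^ 2) * k ^ 3 : ℕ) : ℝ) ≤ (H₀ : ℝ) := by
      exact_mod_cast hH
    refine le_trans (le_of_eq ?_) h1
    push_cast
    rw [hB, pow_add, mul_comm 3 ((D + 3) ^ 2), pow_mul (100 : ℝ) ((D + 3) ^ 2) 3]
    ring
  have hD1 : (1 : ℝ) ≤ 100 ^ D := one_le_pow₀ (by norm_num)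
  have hYk : 4000 * (100 : ℝ) ^ D * B ^ 3 * (k : ℝ) ^ 3 * Y ≤ 1 := by
    calc 4000 * (100 : ℝ) ^ D * B ^ 3 * (k : ℝ) ^ 3 * Y ≤ H₀ * (1 / (H₀ : ℝ)) :=
          mul_le_mul hHreal hYH hY0.le hHR.le
      _ = 1 := by field_simp
  have hBk : B * k ≤ 4000 * (100 : ℝ) ^ D * B ^ 3 * (k : ℝ) ^ 3 := by
    have h1 : B ≤ B ^ 3 := le_self_pow₀ hB1 (by norm_num)
    have h2 : (k : ℝ) ≤ (k : ℝ) ^ 3 := le_self_pow₀ hkR (by norm_num)
    have h3 : B * k ≤ B ^ 3 * (k : ℝ) ^ 3 := mul_le_mul h1 h2 (by linarith) (by positivity)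
    have h4 : B ^ 3 * (k : ℝ) ^ 3 ≤ (4000 * (100 : ℝ) ^ D) * (B ^ 3 * (k : ℝ) ^ 3) := by
      refine le_mul_of_one_le_left (by positivity) ?_
      linarith
    calc B * k ≤ B ^ 3 * (k : ℝ) ^ 3 := h3
      _ ≤ (4000 * (100 : ℝ) ^ D) * (B ^ 3 * (k : ℝ) ^ 3) := h4
      _ = _ := by ring
  refine ⟨r, c, ω, B * Y, Y ^ 2 / (4 * 100 ^ D), hGt, hlamR, hc, hω, ?_, by positivity, ?_, ?_,
    ?_, ?_⟩
  · calc B * Y * k = (B * k) * Y := by ring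
      _ ≤ (4000 * (100 : ℝ) ^ D * B ^ 3 * (k : ℝ) ^ 3) * Y :=
          mul_le_mul_of_nonneg_right hBk hY0.le
      _ ≤ 1 := hYk
  · have h1 : ((100 ^ ((D + 3) ^ 2) * k : ℕ) : ℝ) = B * k := by
      push_cast; rw [hB]
    rw [h1]
    calc B * Y * k = (B * k) * Y := by ring
      _ ≤ (B * k) * (1 / (H₀ : ℝ)) := mul_le_mul_of_nonneg_left hYH (by positivity)
      _ = B * k / H₀ := by ring
  · rw [div_le_iff₀ (by positivity)]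
    have := hκ l₀
    have hYsq : Y ^ 2 = (y l₀) ^ 2 := by rw [hYdef, sq_abs]
    rw [hYsq]
    linarith
  · have h1 : 64000 * (100 : ℝ) ^ D * (Q * H₀) ^ 2 ≤ lam := by
      have : ((64000 * 100 ^ D * (Q * H₀) ^ 2 : ℕ) : ℝ) ≤ (lam : ℝ) := by exact_mod_cast hlam
      push_cast at this
      exact this
    have h2 : 1 ≤ (4 * (Q : ℝ) * H₀) * Y := by
      have h3 := mul_le_mul_of_nonneg_left hY1 (show (0 : ℝ) ≤ 4 * (Q : ℝ) * H₀ by positivity)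
      have h4 : 4 * (Q : ℝ) * H₀ * (1 / (4 * (Q : ℝ) * H₀)) = 1 := by field_simp
      linarith
    have h5 : 1 ≤ ((4 * (Q : ℝ) * H₀) * Y) ^ 2 := one_le_pow₀ h2
    have h6 : 64000 * (100 : ℝ) ^ D * (Q * H₀) ^ 2 * (Y ^ 2 / (4 * 100 ^ D)) =
        1000 * ((4 * (Q : ℝ) * H₀) * Y) ^ 2 := by
      field_simp
      ring
    calc (1000 : ℝ) ≤ 1000 * ((4 * (Q : ℝ) * H₀) * Y) ^ 2 := by linarith
      _ = 64000 * (100 : ℝ) ^ D * (Q * H₀) ^ 2 * (Y ^ 2 / (4 * 100 ^ D)) := h6.symm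
      _ ≤ lam * (Y ^ 2 / (4 * 100 ^ D)) := mul_le_mul_of_nonneg_right h1 (by positivity)
  · rw [le_div_iff₀ (by positivity)]
    calc 1000 * (B * Y * k) ^ 3 * (4 * 100 ^ D) =
        (4000 * (100 : ℝ) ^ D * B ^ 3 * (k : ℝ) ^ 3 * Y) * Y ^ 2 := by ring
      _ ≤ 1 * Y ^ 2 := mul_le_mul_of_nonneg_right hYk (by positivity)
      _ = Y ^ 2 := one_mul _

/-! R64-J2 -/
open Classical in
theorem line_mult {D : ℕ} (G : (Fin D → ℝ) → ℂ) (hG : GoodG G) (k lam Q H₀ : ℕ) (hk : 1 ≤ k)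
    (hQ : 1 ≤ Q) (hH : 4000 * 100 ^ (D + 3 * (D + 3) ^ 2) * k ^ 3 ≤ H₀)
    (hlam : 64000 * 100 ^ D * (Q * H₀) ^ 2 ≤ lam) (z y : Fin D → ℝ)
    (hy : ∀ l, |y l| ≤ 1 / (H₀ : ℝ)) (hy1 : ∃ l, 1 / (4 * (Q : ℝ) * H₀) ≤ |y l|)
    (v : ℕ → ℂ) (hv : ∀ i, i < k → ‖v i - (lam : ℂ) * G (fun l => z l + (i : ℝ) * y l)‖ ≤ 1 / 2)
    (i : ℕ) (hi : i < k) :
    ((Finset.range k).filter (fun j => ‖v j - v i‖ < 5)).card ≤ 2 := by
  obtain ⟨r, c, ω, Ω, κ, hGt, hlam0, hc, hω, hΩk, -, -, hκ, hlk, hsm⟩ :=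
    line_data G hG k lam Q H₀ hk hQ hH hlam z y hy hy1
  refine curve_mult k c ω Ω lam κ hlam0 hc hω hΩk hκ hlk hsm v ?_ i hi
  intro j hj
  have := hv j hj
  rw [hGt] at this
  exact_mod_cast this

theorem line_net {D : ℕ} (G : (Fin D → ℝ) → ℂ) (hG : GoodG G) (k T lam Q H₀ : ℕ) (hk : 1 ≤ k)
    (hQ : 1 ≤ Q) (hH : 4000 * 100 ^ (D + 3 * (D + 3) ^ 2) * k ^ 3 ≤ H₀)
    (hlam : 64000 * 100 ^ D * (Q * H₀) ^ 2 ≤ lam)
    (hT : 8 * lam * (100 ^ ((D + 3) ^ 2) * k) ^ (T + 1) ≤ H₀ ^ (T + 1)) :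
    ∃ QQ : Finset (Fin k → ℤ × ℤ), QQ.card ≤ (200 * lam * (T + 1) * k ^ T) ^ (2 * (T + 1)) ∧
      ∀ z y : Fin D → ℝ, (∀ l, |y l| ≤ 1 / (H₀ : ℝ)) → (∃ l, 1 / (4 * (Q : ℝ) * H₀) ≤ |y l|) →
      ∀ v : Fin k → ℂ,
        (∀ i : Fin k, ‖v i - (lam : ℂ) * G (fun l => z l + ((i : ℕ) : ℝ) * y l)‖ ≤ 1 / 2) →
        ∃ s ∈ QQ, (∀ i, Near (s i) (cel (v i))) ∧
          ∀ S : Finset (Fin k), ∀ u, (∀ i ∈ S, s i = u) → S.card ≤ 2 := by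
  classical
  have hH0 : 0 < H₀ := by
    have : 0 < 4000 * 100 ^ (D + 3 * (D + 3) ^ 2) * k ^ 3 := by positivity
    omega
  have hHR : (0 : ℝ) < H₀ := by exact_mod_cast hH0
  have hlam1 : 1 ≤ lam := by
    have : 0 < 64000 * 100 ^ D * (Q * H₀) ^ 2 := by positivity
    omega
  obtain ⟨QQ, hQQ, hnet⟩ := curve_net k T lam hk hlam1
  refine ⟨QQ, hQQ, ?_⟩
  intro z y hy hy1 v hv
  obtain ⟨r, c, ω, Ω, κ, hGt, hlam0, hc, hω, hΩk, hΩ0, hΩB, hκ, hlk, hsm⟩ :=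
    line_data G hG k lam Q H₀ hk hQ hH hlam z y hy hy1
  have hcond : 8 * (lam : ℝ) * (Ω * k) ^ (T + 1) ≤ 1 := by
    have h1 : (Ω * k) ^ (T + 1) ≤ ((100 ^ ((D + 3) ^ 2) * k : ℕ) / (H₀ : ℝ)) ^ (T + 1) :=
      pow_le_pow_left₀ (by positivity) hΩB _
    have h2 : 8 * (lam : ℝ) * ((100 ^ ((D + 3) ^ 2) * k : ℕ) / (H₀ : ℝ)) ^ (T + 1) ≤ 1 := by
      rw [div_pow, ← mul_div_assoc, div_le_one (by positivity)]
      exact_mod_cast hT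
    exact le_trans (mul_le_mul_of_nonneg_left h1 (by positivity)) h2
  obtain ⟨w, hw, hwQ⟩ := hnet r c ω Ω hc hω hΩk hcond
  refine ⟨_, hwQ, ?_, ?_⟩
  · intro i
    have h1 : ‖w i - v i‖ ≤ 3 / 4 := by
      have h2 := hv i
      rw [hGt] at h2
      have h3 := hw i
      calc ‖w i - v i‖ = ‖(w i - (lam : ℂ) * expSum c ω ((i : ℕ) : ℝ)) -
            (v i - (lam : ℂ) * expSum c ω ((i : ℕ) : ℝ))‖ := by congr 1; ring
        _ ≤ ‖w i - (lam : ℂ) * expSum c ω ((i : ℕ) : ℝ)‖ +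
            ‖v i - (lam : ℂ) * expSum c ω ((i : ℕ) : ℝ)‖ := norm_sub_le _ _
        _ ≤ 1 / 4 + 1 / 2 := add_le_add h3 h2
        _ = 3 / 4 := by norm_num
    have hfl : ∀ a b : ℝ, |a - b| ≤ 3 / 4 → |⌊a⌋ - ⌊b⌋| ≤ 1 := by
      intro a b hab
      rw [abs_le] at hab ⊢
      have h4 := Int.floor_le a
      have h5 := Int.lt_floor_add_one a
      have h6 := Int.floor_le b
      have h7 := Int.lt_floor_add_one b
      constructor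
      · have : ((⌊b⌋ : ℤ) : ℝ) < ⌊a⌋ + 2 := by linarith
        have h8 : ⌊b⌋ < ⌊a⌋ + 2 := by exact_mod_cast this
        omega
      · have : ((⌊a⌋ : ℤ) : ℝ) < ⌊b⌋ + 2 := by linarith
        have h8 : ⌊a⌋ < ⌊b⌋ + 2 := by exact_mod_cast this
        omega
    constructor
    · refine hfl _ _ ?_
      rw [← Complex.sub_re]
      exact le_trans (Complex.abs_re_le_norm _) h1
    · refine hfl _ _ ?_
      rw [← Complex.sub_im]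
      exact le_trans (Complex.abs_im_le_norm _) h1
  · intro S u hS
    rcases S.eq_empty_or_nonempty with rfl | ⟨i₀, hi₀⟩
    · simp
    have hm := curve_mult k c ω Ω lam κ hlam0 hc hω hΩk hκ hlk hsm
      (fun i => (lam : ℂ) * expSum c ω i) (fun i _ => by
        push_cast
        rw [sub_self, norm_zero]; norm_num) i₀.1 i₀.2
    refine le_trans ?_ hm
    rw [← Finset.card_map Fin.valEmbedding]
    refine Finset.card_le_card ?_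
    intro j hj
    rw [Finset.mem_map] at hj
    obtain ⟨i, hi, rfl⟩ := hj
    rw [Finset.mem_filter, Finset.mem_range]
    refine ⟨i.2, ?_⟩
    have hsi := hS i hi
    have hs0 := hS i₀ hi₀
    have heq : (⌊(w i).re⌋, ⌊(w i).im⌋) = (⌊(w i₀).re⌋, ⌊(w i₀).im⌋) := hsi.trans hs0.symm
    rw [Prod.mk.injEq] at heq
    have hre : |(w i - w i₀).re| < 1 := by
      rw [Complex.sub_re]
      have h4 := Int.floor_le (w i).re
      have h5 := Int.lt_floor_add_one (w i).re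
      have h6 := Int.floor_le (w i₀).re
      have h7 := Int.lt_floor_add_one (w i₀).re
      rw [heq.1] at h4 h5
      rw [abs_lt]
      constructor <;> linarith
    have him : |(w i - w i₀).im| < 1 := by
      rw [Complex.sub_im]
      have h4 := Int.floor_le (w i).im
      have h5 := Int.lt_floor_add_one (w i).im
      have h6 := Int.floor_le (w i₀).im
      have h7 := Int.lt_floor_add_one (w i₀).im
      rw [heq.2] at h4 h5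
      rw [abs_lt]
      constructor <;> linarith
    have hnw : ‖w i - w i₀‖ < 2 := by
      have := Complex.norm_le_abs_re_add_abs_im (w i - w i₀)
      linarith
    have h1 := hw i
    have h2 := hw i₀
    show ‖(lam : ℂ) * expSum c ω ((i : ℕ) : ℝ) - (lam : ℂ) * expSum c ω ((i₀ : ℕ) : ℝ)‖ < 5
    calc ‖(lam : ℂ) * expSum c ω ((i : ℕ) : ℝ) - (lam : ℂ) * expSum c ω ((i₀ : ℕ) : ℝ)‖
        = ‖(w i - w i₀) - (w i - (lam : ℂ) * expSum c ω ((i : ℕ) : ℝ)) +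
            (w i₀ - (lam : ℂ) * expSum c ω ((i₀ : ℕ) : ℝ))‖ := by congr 1; ring
      _ ≤ ‖(w i - w i₀) - (w i - (lam : ℂ) * expSum c ω ((i : ℕ) : ℝ))‖ +
            ‖w i₀ - (lam : ℂ) * expSum c ω ((i₀ : ℕ) : ℝ)‖ := norm_add_le _ _
      _ ≤ (‖w i - w i₀‖ + ‖w i - (lam : ℂ) * expSum c ω ((i : ℕ) : ℝ)‖) +
            ‖w i₀ - (lam : ℂ) * expSum c ω ((i₀ : ℕ) : ℝ)‖ :=
          add_le_add_left (norm_sub_le _ _) _
      _ < 5 := by linarith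

end Crest.Agent.VDW
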