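import Mathlib
import Crest.Agent.VDW.Defs
import Crest.Agent.VDW.GDefs
import Crest.Agent.VDW.LLLCyl

/-!
# Row 64 (S0086), chunk R64-I: the second stage, abstract combinatorial form
-/

set_option autoImplicit false

namespace Crest.Agent.VDW

open Finset

/-- offset of a cell -/
private def s2off (c : ℤ × ℤ) (o : Fin 3 × Fin 3) : ℤ × ℤ :=
  (c.1 + (o.1.val : ℤ) - 1, c.2 + (o.2.val : ℤ) - 1)

private theorem s2off_near (c : ℤ × ℤ) (o : Fin 3 × Fin 3) : Near (s2off c o) c := by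
  have h1 := o.1.isLt
  have h2 := o.2.isLt
  unfold Near s2off
  refine ⟨abs_le.mpr ⟨?_, ?_⟩, abs_le.mpr ⟨?_, ?_⟩⟩ <;> push_cast <;> omega

private theorem s2off_surj (c u : ℤ × ℤ) (h : Near u c) : ∃ o, s2off c o = u := by
  obtain ⟨h1, h2⟩ := h
  rw [abs_le] at h1 h2
  refine ⟨(⟨(u.1 - c.1 + 1).toNat, by omega⟩, ⟨(u.2 - c.2 + 1).toNat, by omega⟩), ?_⟩
  unfold s2off
  refine Prod.ext ?_ ?_
  · simp only
    rw [Int.toNat_of_nonneg (by omega)]
    ring
  · simp only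
    rw [Int.toNat_of_nonneg (by omega)]
    ring

private theorem s2_exp {η : ℝ} (h0 : 0 < η) (h1 : η ≤ 1 / 2) (n : ℕ) (x : ℝ) (hx : x ≤ n) :
    (1 - η) ^ n ≤ Real.exp (-(η * x)) := by
  have h2 : 1 - η ≤ Real.exp (-η) := by
    have := Real.add_one_le_exp (-η)
    linarith
  calc (1 - η) ^ n ≤ (Real.exp (-η)) ^ n := pow_le_pow_left₀ (by linarith) h2 n
    _ = Real.exp (n * (-η)) := (Real.exp_nat_mul _ _).symm
    _ ≤ Real.exp (-(η * x)) := by
      apply Real.exp_le_exp.mpr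
      nlinarith

private theorem s2_pow {η : ℝ} (h0 : 0 < η) (h1 : η ≤ 1 / 2) (n : ℕ) (x : ℝ) (hx : x ≤ n) :
    η ^ n ≤ 1 / ((1 / η) ^ x) := by
  have h2 : (1 / η : ℝ) ^ x = 1 / (η ^ x) := by
    rw [one_div, Real.inv_rpow h0.le, one_div]
  rw [h2, one_div_one_div, ← Real.rpow_natCast]
  exact Real.rpow_le_rpow_of_exponent_ge h0 (by linarith) hx

private theorem s2_sum {α : Type} (E : Finset α) (W : α → ℝ) (c : ℝ) (N : ℕ)
    (hW : ∀ a ∈ E, W a ≤ c) (hc : 0 ≤ c) (hN : E.card ≤ N) : ∑ a ∈ E, W a ≤ N * c := by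
  calc ∑ a ∈ E, W a ≤ E.card • c := Finset.sum_le_card_nsmul _ _ _ hW
    _ = (E.card : ℝ) * c := by rw [nsmul_eq_mul]
    _ ≤ N * c := mul_le_mul_of_nonneg_right (by exact_mod_cast hN) hc

open Classical in
private noncomputable def s2F1 {Bx : Type} (Cs : Type) {k : ℕ} (ψ : Bx → Bool)
    (a : ((Fin k → Bx) × (Fin k → ℤ × ℤ)) × Bool) : Finset ((Bx × (ℤ × ℤ)) ⊕ Cs) :=
  (univ.filter (fun i => ψ (a.1.1 i) = a.2)).image (fun i => Sum.inl (a.1.1 i, a.1.2 i))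

open Classical in
private noncomputable def s2F2 {Bx Cs : Type} {k : ℕ} (Zc : Cs → Bx) (ψ : Bx → Bool)
    (a : (Σ _ : ℕ, Fin k → Cs) × Bool) : Finset ((Bx × (ℤ × ℤ)) ⊕ Cs) :=
  (univ.filter (fun i => ψ (Zc (a.1.2 i)) = a.2)).image (fun i => Sum.inr (a.1.2 i))

private def s2v {Gd Bx Cs : Type} {k : ℕ} (Zb : Gd → Bx) (gs : Gd → Cs) (cell : Gd → ℤ × ℤ)
    (P : Fin k → Gd) (τ : Fin k → Option (Fin 3 × Fin 3)) (i : Fin k) : (Bx × (ℤ × ℤ)) ⊕ Cs :=
  match τ i with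
  | none => Sum.inr (gs (P i))
  | some o => Sum.inl (Zb (P i), s2off (cell (P i)) o)

open Classical in
private noncomputable def s2F3 {Gd Bx Cs : Type} {k : ℕ} (Zb : Gd → Bx) (gs : Gd → Cs)
    (cell : Gd → ℤ × ℤ) (ψ : Bx → Bool)
    (a : ((Fin k → Gd) × Bool) × (Fin k → Option (Fin 3 × Fin 3))) :
    Finset ((Bx × (ℤ × ℤ)) ⊕ Cs) :=
  (univ.filter (fun i => ψ (Zb (a.1.1 i)) ≠ a.1.2)).image (s2v Zb gs cell a.1.1 a.2)

open Classical in
private noncomputable def s2E1 {Bx : Type} {k : ℕ} (ψ : Bx → Bool) (ZS : Finset (Fin k → Bx))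
    (QQ : Finset (Fin k → ℤ × ℤ)) : Finset (((Fin k → Bx) × (Fin k → ℤ × ℤ)) × Bool) :=
  ((ZS ×ˢ QQ) ×ˢ (univ : Finset Bool)).filter (fun a =>
    (∀ S : Finset (Fin k), ∀ u, (∀ i ∈ S, a.1.2 i = u) → S.card ≤ 2) ∧
      k ≤ 2 * (univ.filter (fun i => ψ (a.1.1 i) = a.2)).card)

open Classical in
private noncomputable def s2E2 {Bx Cs : Type} {k : ℕ} (E₀ : ℕ) (Zc : Cs → Bx) (ψ : Bx → Bool)
    (GS : ℕ → Finset (Fin k → Cs)) : Finset ((Σ _ : ℕ, Fin k → Cs) × Bool) :=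
  (((Finset.Icc E₀ k).sigma GS) ×ˢ (univ : Finset Bool)).filter (fun a =>
    (∀ S : Finset (Fin k), ∀ u, (∀ i ∈ S, a.1.2 i = u) → S.card ≤ k / a.1.1 + 1) ∧
      k ≤ 20 * (univ.filter (fun i => ψ (Zc (a.1.2 i)) = a.2)).card)

open Classical in
private noncomputable def s2E3 {Gd Bx Cs : Type} {k : ℕ} (Zb : Gd → Bx) (gs : Gd → Cs)
    (cell : Gd → ℤ × ℤ) (ψ : Bx → Bool) (PP : Finset (Fin k → Gd)) :
    Finset (((Fin k → Gd) × Bool) × (Fin k → Option (Fin 3 × Fin 3))) :=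
  ((PP ×ˢ (univ : Finset Bool)) ×ˢ
    (univ : Finset (Fin k → Option (Fin 3 × Fin 3)))).filter (fun a =>
    Mult4 Zb gs cell a.1.1 ∧ k ≤ 20 * (univ.filter (fun i => ψ (Zb (a.1.1 i)) ≠ a.1.2)).card)

open Classical in
private theorem s2_card1 {Bx Cs : Type} {k : ℕ} (ψ : Bx → Bool) (ZS : Finset (Fin k → Bx))
    (QQ : Finset (Fin k → ℤ × ℤ)) (A₁ A₂ : ℕ)
    (hA1 : ∀ i₀ z, (ZS.filter (fun Z => Z i₀ = z)).card ≤ A₁) (hA2 : QQ.card ≤ A₂)
    (v : (Bx × (ℤ × ℤ)) ⊕ Cs) :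
    ((s2E1 ψ ZS QQ).filter (fun a => v ∈ s2F1 Cs ψ a)).card ≤ k * (A₁ * A₂ * 2) := by
  rcases v with ⟨z, c⟩ | c
  · have hsub : (s2E1 ψ ZS QQ).filter (fun a => Sum.inl (z, c) ∈ s2F1 Cs ψ a) ⊆
        (univ : Finset (Fin k)).biUnion (fun i₀ =>
          ((ZS.filter (fun Z => Z i₀ = z)) ×ˢ QQ) ×ˢ (univ : Finset Bool)) := by
      intro a ha
      rw [Finset.mem_filter] at ha
      obtain ⟨ha1, ha2⟩ := ha
      unfold s2E1 at ha1
      unfold s2F1 at ha2
      rw [Finset.mem_filter, Finset.mem_product, Finset.mem_product] at ha1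
      rw [Finset.mem_image] at ha2
      obtain ⟨i, -, hi⟩ := ha2
      rw [Finset.mem_biUnion]
      refine ⟨i, Finset.mem_univ _, ?_⟩
      rw [Finset.mem_product, Finset.mem_product, Finset.mem_filter]
      refine ⟨⟨⟨ha1.1.1.1, ?_⟩, ha1.1.1.2⟩, Finset.mem_univ _⟩
      have := Sum.inl.inj hi
      exact congrArg Prod.fst this
    refine (Finset.card_le_card hsub).trans ?_
    refine (Finset.card_biUnion_le_card_mul _ _ (A₁ * A₂ * 2) ?_).trans (by simp)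
    intro i _
    rw [Finset.card_product, Finset.card_product]
    refine Nat.mul_le_mul (Nat.mul_le_mul (hA1 i z) hA2) (by simp)
  · have hemp : (s2E1 ψ ZS QQ).filter (fun a => Sum.inr c ∈ s2F1 Cs ψ a) = ∅ := by
      rw [Finset.filter_eq_empty_iff]
      intro a _ ha2
      unfold s2F1 at ha2
      rw [Finset.mem_image] at ha2
      obtain ⟨i, -, hi⟩ := ha2
      exact absurd hi (by simp)
    rw [hemp]
    simp

open Classical in
private theorem s2_wt1 {Bx : Type} (Cs : Type) {k : ℕ} (ψ : Bx → Bool) (ZS : Finset (Fin k → Bx))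
    (QQ : Finset (Fin k → ℤ × ℤ)) (a) (ha : a ∈ s2E1 ψ ZS QQ) : k ≤ 4 * (s2F1 Cs ψ a).card := by
  unfold s2E1 at ha
  rw [Finset.mem_filter] at ha
  obtain ⟨-, h1, h2⟩ := ha
  have h3 := Finset.card_le_mul_card_image (f := fun i : Fin k =>
    (Sum.inl (a.1.1 i, a.1.2 i) : (Bx × (ℤ × ℤ)) ⊕ Cs))
    (univ.filter (fun i => ψ (a.1.1 i) = a.2)) 2 (by
      intro w hw
      rw [Finset.mem_image] at hw
      obtain ⟨j, -, rfl⟩ := hw
      refine h1 _ (a.1.2 j) ?_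
      intro i hi
      rw [Finset.mem_filter] at hi
      exact congrArg Prod.snd (Sum.inl.inj hi.2))
  unfold s2F1
  omega

open Classical in
private theorem s2_card2 {Bx Cs : Type} {k : ℕ} (E₀ : ℕ) (hE₀ : 1 ≤ E₀) (Zc : Cs → Bx)
    (ψ : Bx → Bool)
    (GS : ℕ → Finset (Fin k → Cs)) (A₃ : ℕ)
    (hA3 : ∀ q i₀ z, ((GS q).filter (fun g => g i₀ = z)).card ≤ A₃)
    (v : (Bx × (ℤ × ℤ)) ⊕ Cs) :
    ((s2E2 E₀ Zc ψ GS).filter (fun a => v ∈ s2F2 Zc ψ a)).card ≤ k * (k * A₃) * 2 := by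
  rcases v with ⟨z, c⟩ | c
  · have hemp : (s2E2 E₀ Zc ψ GS).filter (fun a => Sum.inl (z, c) ∈ s2F2 Zc ψ a) = ∅ := by
      rw [Finset.filter_eq_empty_iff]
      intro a _ ha2
      unfold s2F2 at ha2
      rw [Finset.mem_image] at ha2
      obtain ⟨i, -, hi⟩ := ha2
      exact absurd hi (by simp)
    rw [hemp]
    simp
  · have hsub : (s2E2 E₀ Zc ψ GS).filter (fun a => Sum.inr c ∈ s2F2 Zc ψ a) ⊆
        ((Finset.Icc E₀ k).sigma (fun q => (univ : Finset (Fin k)).biUnion (fun i₀ =>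
          (GS q).filter (fun g => g i₀ = c)))) ×ˢ (univ : Finset Bool) := by
      intro a ha
      rw [Finset.mem_filter] at ha
      obtain ⟨ha1, ha2⟩ := ha
      unfold s2E2 at ha1
      unfold s2F2 at ha2
      rw [Finset.mem_filter, Finset.mem_product, Finset.mem_sigma] at ha1
      rw [Finset.mem_image] at ha2
      obtain ⟨i, -, hi⟩ := ha2
      rw [Finset.mem_product, Finset.mem_sigma, Finset.mem_biUnion]
      refine ⟨⟨ha1.1.1.1, i, Finset.mem_univ _, ?_⟩, Finset.mem_univ _⟩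
      rw [Finset.mem_filter]
      exact ⟨ha1.1.1.2, Sum.inr.inj hi⟩
    refine (Finset.card_le_card hsub).trans ?_
    rw [Finset.card_product, Finset.card_sigma]
    refine Nat.mul_le_mul ?_ (by simp)
    calc ∑ q ∈ Finset.Icc E₀ k, ((univ : Finset (Fin k)).biUnion (fun i₀ =>
          (GS q).filter (fun g => g i₀ = c))).card
        ≤ ∑ q ∈ Finset.Icc E₀ k, k * A₃ := by
          refine Finset.sum_le_sum fun q _ => ?_
          refine (Finset.card_biUnion_le_card_mul _ _ A₃ ?_).trans (by simp)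
          intro i _
          exact hA3 q i c
      _ = (k + 1 - E₀) * (k * A₃) := by rw [Finset.sum_const, Nat.card_Icc, smul_eq_mul]
      _ ≤ k * (k * A₃) := Nat.mul_le_mul_right _ (by omega)

open Classical in
private theorem s2_wt2 {Bx Cs : Type} {k : ℕ} (hk : 1 ≤ k) (E₀ : ℕ) (hE₀ : 1 ≤ E₀) (Zc : Cs → Bx)
    (ψ : Bx → Bool) (GS : ℕ → Finset (Fin k → Cs)) (a) (ha : a ∈ s2E2 E₀ Zc ψ GS) :
    E₀ ≤ 40 * (s2F2 Zc ψ a).card := by
  unfold s2E2 at ha
  rw [Finset.mem_filter, Finset.mem_product, Finset.mem_sigma, Finset.mem_Icc] at ha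
  obtain ⟨⟨⟨⟨h4, h5⟩, -⟩, -⟩, h1, h2⟩ := ha
  have h3 := Finset.card_le_mul_card_image (f := fun i : Fin k =>
    (Sum.inr (a.1.2 i) : (Bx × (ℤ × ℤ)) ⊕ Cs))
    (univ.filter (fun i => ψ (Zc (a.1.2 i)) = a.2)) (k / a.1.1 + 1) (by
      intro w hw
      rw [Finset.mem_image] at hw
      obtain ⟨j, -, rfl⟩ := hw
      refine h1 _ (a.1.2 j) ?_
      intro i hi
      rw [Finset.mem_filter] at hi
      exact Sum.inr.inj hi.2)
  have h6 : (s2F2 Zc ψ a).card = ((univ.filter (fun i => ψ (Zc (a.1.2 i)) = a.2)).image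
    (fun i : Fin k => (Sum.inr (a.1.2 i) : (Bx × (ℤ × ℤ)) ⊕ Cs))).card := rfl
  rw [← h6] at h3
  set f := (s2F2 Zc ψ a).card
  set q := a.1.1
  set m := (univ.filter (fun i => ψ (Zc (a.1.2 i)) = a.2)).card
  have h7 : (k / q) * q ≤ k := Nat.div_mul_le_self k q
  have h8 : k * q ≤ k * (40 * f) := by
    calc k * q ≤ (20 * m) * q := Nat.mul_le_mul_right _ h2
      _ ≤ (20 * ((k / q + 1) * f)) * q := by gcongr
      _ = (20 * f) * ((k / q) * q + q) := by ring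
      _ ≤ (20 * f) * (k + k) := by gcongr
      _ = k * (40 * f) := by ring
  have h9 := Nat.le_of_mul_le_mul_left h8 (by omega)
  omega

open Classical in
private theorem s2_card3 {Gd Bx Cs : Type} {k : ℕ} (Zb : Gd → Bx) (gs : Gd → Cs)
    (cell : Gd → ℤ × ℤ) (ψ : Bx → Bool) (PP : Finset (Fin k → Gd)) (A₄ : ℕ) (hA4 : PP.card ≤ A₄)
    (v : (Bx × (ℤ × ℤ)) ⊕ Cs) :
    ((s2E3 Zb gs cell ψ PP).filter (fun a => v ∈ s2F3 Zb gs cell ψ a)).card ≤
      A₄ * 2 * 10 ^ k := by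
  refine (Finset.card_le_card (Finset.filter_subset _ _)).trans ?_
  unfold s2E3
  refine (Finset.card_le_card (Finset.filter_subset _ _)).trans ?_
  rw [Finset.card_product, Finset.card_product]
  refine Nat.mul_le_mul (Nat.mul_le_mul hA4 (by simp)) ?_
  simp

open Classical in
private theorem s2_wt3 {Gd Bx Cs : Type} {k : ℕ} (Zb : Gd → Bx) (gs : Gd → Cs)
    (cell : Gd → ℤ × ℤ) (ψ : Bx → Bool) (PP : Finset (Fin k → Gd))
    (a) (ha : a ∈ s2E3 Zb gs cell ψ PP) : k ≤ 80 * (s2F3 Zb gs cell ψ a).card := by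
  unfold s2E3 at ha
  rw [Finset.mem_filter] at ha
  obtain ⟨-, ⟨h1, h1'⟩, h2⟩ := ha
  have h3 := Finset.card_le_mul_card_image (f := s2v Zb gs cell a.1.1 a.2)
    (univ.filter (fun i => ψ (Zb (a.1.1 i)) ≠ a.1.2)) 4 (by
      intro w hw
      rcases w with ⟨z, c⟩ | c
      · refine h1' _ z c ?_
        intro i hi
        rw [Finset.mem_filter] at hi
        have h5 := hi.2
        unfold s2v at h5
        rcases hτ : a.2 i with _ | o
        · rw [hτ] at h5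
          exact absurd h5 (by simp)
        · rw [hτ] at h5
          have h6 := Sum.inl.inj h5
          have h7 : Zb (a.1.1 i) = z := congrArg Prod.fst h6
          have h8 : s2off (cell (a.1.1 i)) o = c := congrArg Prod.snd h6
          refine ⟨h7, ?_⟩
          rw [← h8]
          exact s2off_near _ _
      · refine h1 _ c ?_
        intro i hi
        rw [Finset.mem_filter] at hi
        have h5 := hi.2
        unfold s2v at h5
        rcases hτ : a.2 i with _ | o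
        · rw [hτ] at h5
          exact Sum.inr.inj h5
        · rw [hτ] at h5
          exact absurd h5 (by simp))
  unfold s2F3
  omega

private theorem s2_bool1 : ∀ b x y : Bool, x ≠ b → (xor x y) = b → y = true := by decide
private theorem s2_bool2 : ∀ b x y : Bool, x = b → (xor x y) = b → y = false := by decide
private theorem s2_bool3 : ∀ b x : Bool, x ≠ b ↔ x = !b := by decide

open Classical in
private theorem s2_lll {Gd Bx Cs : Type} (k E₀ : ℕ) (hk : 100 ≤ k) (hE₀ : 1 ≤ E₀)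
    (Zb : Gd → Bx) (gs : Gd → Cs) (Zc : Cs → Bx)
    (cell : Gd → ℤ × ℤ) (ψ : Bx → Bool) (η : ℝ) (hη0 : 0 < η) (hη1 : η ≤ 1 / 2)
    (PP : Finset (Fin k → Gd)) (ZS : Finset (Fin k → Bx)) (QQ : Finset (Fin k → ℤ × ℤ))
    (GS : ℕ → Finset (Fin k → Cs)) (A₁ A₂ A₃ A₄ : ℕ)
    (hA1 : ∀ i₀ z, (ZS.filter (fun Z => Z i₀ = z)).card ≤ A₁) (hA2 : QQ.card ≤ A₂)
    (hA3 : ∀ q i₀ z, ((GS q).filter (fun g => g i₀ = z)).card ≤ A₃) (hA4 : PP.card ≤ A₄)
    (hn1 : (100 * (k : ℝ) ^ 4) * A₁ * A₂ ≤ Real.exp (η * k / 4))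
    (hn2 : (100 * (k : ℝ) ^ 4) * A₃ ≤ Real.exp (η * E₀ / 40))
    (hn3 : (100 * (k : ℝ) ^ 4) * A₄ * 10 ^ k ≤ (1 / η) ^ ((k : ℝ) / 80)) :
    ∃ ω : (Bx × (ℤ × ℤ)) ⊕ Cs → Bool,
      (∀ a ∈ s2E1 ψ ZS QQ, ∃ v ∈ s2F1 Cs ψ a, ω v = true) ∧
      (∀ a ∈ s2E2 E₀ Zc ψ GS, ∃ v ∈ s2F2 Zc ψ a, ω v = true) ∧
      (∀ a ∈ s2E3 Zb gs cell ψ PP, ∃ v ∈ s2F3 Zb gs cell ψ a, ω v = false) := by
  have hkR : (100 : ℝ) ≤ k := by exact_mod_cast hk
  have hk0 : (0 : ℝ) < k := by linarith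
  have hI : ∀ s : Finset (Fin k), s.card ≤ k := fun s => by
    have := Finset.card_le_univ s
    simpa using this
  obtain ⟨ω, hω⟩ := lll_cyl
    ((s2E1 ψ ZS QQ).disjSum ((s2E2 E₀ Zc ψ GS).disjSum (s2E3 Zb gs cell ψ PP)))
    (Sum.elim (s2F1 Cs ψ) (Sum.elim (s2F2 Zc ψ) (s2F3 Zb gs cell ψ)))
    (Sum.elim (fun _ _ => false) (Sum.elim (fun _ _ => false) (fun _ _ => true)))
    η hη0 (by linarith) k (by omega)
    (by
      intro a _
      rcases a with a | a | a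
      · simp only [Sum.elim_inl]
        exact Finset.card_image_le.trans (hI _)
      · simp only [Sum.elim_inl, Sum.elim_inr]
        exact Finset.card_image_le.trans (hI _)
      · simp only [Sum.elim_inr]
        exact Finset.card_image_le.trans (hI _))
    (by
      intro a ha
      rw [← Finset.card_pos]
      rcases a with a | a | a
      · simp only [Sum.elim_inl]
        have h1 := s2_wt1 Cs ψ ZS QQ a (Finset.inl_mem_disjSum.mp ha)
        omega
      · simp only [Sum.elim_inl, Sum.elim_inr]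
        have h1 := s2_wt2 (by omega) E₀ hE₀ Zc ψ GS a
          (Finset.inl_mem_disjSum.mp (Finset.inr_mem_disjSum.mp ha))
        omega
      · simp only [Sum.elim_inr]
        have h1 := s2_wt3 Zb gs cell ψ PP a
          (Finset.inr_mem_disjSum.mp (Finset.inr_mem_disjSum.mp ha))
        omega)
    (by
      intro v
      rw [Finset.sum_filter, Finset.sum_disjSum, Finset.sum_disjSum]
      simp only [Sum.elim_inl, Sum.elim_inr, Finset.prod_const, Bool.false_eq_true, if_false,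
        if_true]
      rw [← Finset.sum_filter, ← Finset.sum_filter, ← Finset.sum_filter]
      have hK4 : (0 : ℝ) < 100 * (k : ℝ) ^ 4 := by positivity
      have b1 : ∑ a ∈ (s2E1 ψ ZS QQ).filter (fun a => v ∈ s2F1 Cs ψ a),
          (1 - η) ^ (s2F1 Cs ψ a).card ≤ (2 * k) / (100 * (k : ℝ) ^ 4) := by
        have h1 := s2_sum _ (fun a => (1 - η) ^ (s2F1 Cs ψ a).card)
          (Real.exp (-(η * (k / 4)))) _ (by
            intro a ha
            rw [Finset.mem_filter] at ha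
            refine s2_exp hη0 hη1 _ _ ?_
            have h2 := s2_wt1 Cs ψ ZS QQ a ha.1
            have h3 : (k : ℝ) ≤ 4 * ((s2F1 Cs ψ a).card : ℝ) := by exact_mod_cast h2
            linarith) (Real.exp_pos _).le (s2_card1 ψ ZS QQ A₁ A₂ hA1 hA2 v)
        refine h1.trans ?_
        rw [le_div_iff₀ hK4, Real.exp_neg, ← div_eq_mul_inv, div_mul_eq_mul_div,
          div_le_iff₀ (Real.exp_pos _)]
        have h4 : η * ((k : ℝ) / 4) = η * k / 4 := by ring
        rw [h4]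
        push_cast
        calc (k : ℝ) * (A₁ * A₂ * 2) * (100 * (k : ℝ) ^ 4)
            = 2 * k * ((100 * (k : ℝ) ^ 4) * A₁ * A₂) := by ring
          _ ≤ 2 * k * Real.exp (η * k / 4) := by gcongr
      have b2 : ∑ a ∈ (s2E2 E₀ Zc ψ GS).filter (fun a => v ∈ s2F2 Zc ψ a),
          (1 - η) ^ (s2F2 Zc ψ a).card ≤ (2 * k ^ 2) / (100 * (k : ℝ) ^ 4) := by
        have h1 := s2_sum _ (fun a => (1 - η) ^ (s2F2 Zc ψ a).card)
          (Real.exp (-(η * (E₀ / 40)))) _ (by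
            intro a ha
            rw [Finset.mem_filter] at ha
            refine s2_exp hη0 hη1 _ _ ?_
            have h2 := s2_wt2 (by omega) E₀ hE₀ Zc ψ GS a ha.1
            have h3 : (E₀ : ℝ) ≤ 40 * ((s2F2 Zc ψ a).card : ℝ) := by exact_mod_cast h2
            linarith) (Real.exp_pos _).le (s2_card2 E₀ hE₀ Zc ψ GS A₃ hA3 v)
        refine h1.trans ?_
        rw [le_div_iff₀ hK4, Real.exp_neg, ← div_eq_mul_inv, div_mul_eq_mul_div,
          div_le_iff₀ (Real.exp_pos _)]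
        have h4 : η * ((E₀ : ℝ) / 40) = η * E₀ / 40 := by ring
        rw [h4]
        push_cast
        calc (k : ℝ) * (k * A₃) * 2 * (100 * (k : ℝ) ^ 4)
            = 2 * k ^ 2 * ((100 * (k : ℝ) ^ 4) * A₃) := by ring
          _ ≤ 2 * k ^ 2 * Real.exp (η * E₀ / 40) := by gcongr
      have b3 : ∑ a ∈ (s2E3 Zb gs cell ψ PP).filter (fun a => v ∈ s2F3 Zb gs cell ψ a),
          η ^ (s2F3 Zb gs cell ψ a).card ≤ 2 / (100 * (k : ℝ) ^ 4) := by
        have hp : (0 : ℝ) < (1 / η) ^ ((k : ℝ) / 80) := by positivity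
        have h1 := s2_sum _ (fun a => η ^ (s2F3 Zb gs cell ψ a).card)
          (1 / ((1 / η) ^ ((k : ℝ) / 80))) _ (by
            intro a ha
            rw [Finset.mem_filter] at ha
            refine s2_pow hη0 hη1 _ _ ?_
            have h2 := s2_wt3 Zb gs cell ψ PP a ha.1
            have h3 : (k : ℝ) ≤ 80 * ((s2F3 Zb gs cell ψ a).card : ℝ) := by exact_mod_cast h2
            linarith) (by positivity) (s2_card3 Zb gs cell ψ PP A₄ hA4 v)
        refine h1.trans ?_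
        rw [le_div_iff₀ hK4, mul_one_div, div_mul_eq_mul_div, div_le_iff₀ hp]
        push_cast
        calc (A₄ : ℝ) * 2 * 10 ^ k * (100 * (k : ℝ) ^ 4)
            = 2 * ((100 * (k : ℝ) ^ 4) * A₄ * 10 ^ k) := by ring
          _ ≤ 2 * (1 / η) ^ ((k : ℝ) / 80) := by gcongr
      refine (add_le_add b1 (add_le_add b2 b3)).trans ?_
      rw [← add_div, ← add_div, div_le_div_iff₀ hK4 (by positivity)]
      have h5 : (k : ℝ) ^ 2 = k * k := by ring
      have h6 : (k : ℝ) ^ 4 = k * k * (k * k) := by ring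
      rw [h5, h6]
      nlinarith [mul_pos hk0 hk0, mul_pos (mul_pos hk0 hk0) hk0,
        mul_pos (mul_pos hk0 hk0) (mul_pos hk0 hk0)])
  refine ⟨ω, ?_, ?_, ?_⟩
  · intro a ha
    obtain ⟨v, hv, hne⟩ := hω (Sum.inl a) (Finset.inl_mem_disjSum.mpr ha)
    simp only [Sum.elim_inl] at hv hne
    exact ⟨v, hv, by simpa using hne⟩
  · intro a ha
    obtain ⟨v, hv, hne⟩ := hω (Sum.inr (Sum.inl a))
      (Finset.inr_mem_disjSum.mpr (Finset.inl_mem_disjSum.mpr ha))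
    simp only [Sum.elim_inl, Sum.elim_inr] at hv hne
    exact ⟨v, hv, by simpa using hne⟩
  · intro a ha
    obtain ⟨v, hv, hne⟩ := hω (Sum.inr (Sum.inr a))
      (Finset.inr_mem_disjSum.mpr (Finset.inr_mem_disjSum.mpr ha))
    simp only [Sum.elim_inr] at hv hne
    exact ⟨v, hv, by simpa using hne⟩

open Classical in
theorem stage2 {Gd Bx Cs : Type} (k E₀ : ℕ) (hk : 100 ≤ k) (hE₀ : 1 ≤ E₀)
    (Zb : Gd → Bx) (gs : Gd → Cs) (Zc : Cs → Bx) (hZ : ∀ g, Zb g = Zc (gs g))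
    (cell : Gd → ℤ × ℤ) (ψ : Bx → Bool) (η : ℝ) (hη0 : 0 < η) (hη1 : η ≤ 1 / 2)
    (PP : Finset (Fin k → Gd)) (ZS : Finset (Fin k → Bx)) (QQ : Finset (Fin k → ℤ × ℤ))
    (GS : ℕ → Finset (Fin k → Cs)) (A₁ A₂ A₃ A₄ : ℕ)
    (hA1 : ∀ i₀ z, (ZS.filter (fun Z => Z i₀ = z)).card ≤ A₁) (hA2 : QQ.card ≤ A₂)
    (hA3 : ∀ q i₀ z, ((GS q).filter (fun g => g i₀ = z)).card ≤ A₃) (hA4 : PP.card ≤ A₄)
    (hn1 : (100 * (k : ℝ) ^ 4) * A₁ * A₂ ≤ Real.exp (η * k / 4))
    (hn2 : (100 * (k : ℝ) ^ 4) * A₃ ≤ Real.exp (η * E₀ / 40))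
    (hn3 : (100 * (k : ℝ) ^ 4) * A₄ * 10 ^ k ≤ (1 / η) ^ ((k : ℝ) / 80)) :
    ∃ fire : Gd → Bool, ∀ P ∈ PP,
      (((fun i => Zb (P i)) ∈ ZS ∧ (∃ s ∈ QQ, (∀ i, Near (s i) (cell (P i))) ∧
          ∀ S : Finset (Fin k), ∀ u, (∀ i ∈ S, s i = u) → S.card ≤ 2) ∧ Mult4 Zb gs cell P) ∨
       (∃ q, E₀ ≤ q ∧ q ≤ k ∧ (fun i => gs (P i)) ∈ GS q ∧
          (∀ S : Finset (Fin k), ∀ u, (∀ i ∈ S, gs (P i) = u) → S.card ≤ k / q + 1) ∧
          ∀ b : Bool, k ≤ 20 * (Finset.univ.filter (fun i => ψ (Zb (P i)) = b)).card) ∨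
       (Mult4 Zb gs cell P ∧
          ∀ b : Bool, k ≤ 20 * (Finset.univ.filter (fun i => ψ (Zb (P i)) = b)).card)) →
      ∀ b : Bool, ∃ i, xor (ψ (Zb (P i))) (fire (P i)) ≠ b := by
  obtain ⟨ω, hω1, hω2, hω3⟩ := s2_lll k E₀ hk hE₀ Zb gs Zc cell ψ η hη0 hη1 PP ZS QQ GS
    A₁ A₂ A₃ A₄ hA1 hA2 hA3 hA4 hn1 hn2 hn3
  refine ⟨fun g => ω (Sum.inr (gs g)) ||
    decide (∃ u, Near u (cell g) ∧ ω (Sum.inl (Zb g, u)) = true), ?_⟩
  intro P hP hcase b
  by_contra hcon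
  push Not at hcon
  -- outside of `{ψ = b}` everything fires
  have hfire : ∀ i, ψ (Zb (P i)) ≠ b → (ω (Sum.inr (gs (P i))) = true ∨
      ∃ u, Near u (cell (P i)) ∧ ω (Sum.inl (Zb (P i), u)) = true) := by
    intro i hi
    have h1 := hcon i
    have h2 : (ω (Sum.inr (gs (P i))) ||
        decide (∃ u, Near u (cell (P i)) ∧ ω (Sum.inl (Zb (P i), u)) = true)) = true :=
      s2_bool1 b _ _ hi h1
    rw [Bool.or_eq_true, decide_eq_true_iff] at h2
    exact h2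
  have hquiet : ∀ i, ψ (Zb (P i)) = b → (ω (Sum.inr (gs (P i))) = false ∧
      ∀ u, Near u (cell (P i)) → ω (Sum.inl (Zb (P i), u)) = false) := by
    intro i hi
    have h1 := hcon i
    have h2 : (ω (Sum.inr (gs (P i))) ||
        decide (∃ u, Near u (cell (P i)) ∧ ω (Sum.inl (Zb (P i), u)) = true)) = false :=
      s2_bool2 b _ _ hi h1
    rw [Bool.or_eq_false_iff, decide_eq_false_iff_not] at h2
    refine ⟨h2.1, fun u hu => ?_⟩
    by_contra h3
    exact h2.2 ⟨u, hu, by simpa using h3⟩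
  -- the events of type (B) are impossible
  have hB : Mult4 Zb gs cell P → k ≤ 20 * (univ.filter (fun i => ψ (Zb (P i)) ≠ b)).card →
      False := by
    intro hm hc
    have hτ : ∀ i, ∃ t : Option (Fin 3 × Fin 3), ψ (Zb (P i)) ≠ b →
        ω (match t with
          | none => Sum.inr (gs (P i))
          | some o => Sum.inl (Zb (P i), s2off (cell (P i)) o)) = true := by
      intro i
      by_cases hi : ψ (Zb (P i)) ≠ b
      · rcases hfire i hi with h1 | ⟨u, hu, h1⟩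
        · exact ⟨none, fun _ => h1⟩
        · obtain ⟨o, ho⟩ := s2off_surj _ _ hu
          refine ⟨some o, fun _ => ?_⟩
          simp only
          rw [ho]
          exact h1
      · exact ⟨none, fun h => absurd h hi⟩
    choose τ hτ using hτ
    obtain ⟨v, hv, hv2⟩ := hω3 ((P, b), τ) (by
      unfold s2E3
      rw [Finset.mem_filter, Finset.mem_product, Finset.mem_product]
      exact ⟨⟨⟨hP, Finset.mem_univ _⟩, Finset.mem_univ _⟩, hm, hc⟩)
    unfold s2F3 at hv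
    rw [Finset.mem_image] at hv
    obtain ⟨i, hi, rfl⟩ := hv
    rw [Finset.mem_filter] at hi
    have h1 := hτ i hi.2
    have h2 : ω (s2v Zb gs cell P τ i) = true := h1
    rw [h2] at hv2
    exact absurd hv2 (by decide)
  have hneg : univ.filter (fun i => ψ (Zb (P i)) ≠ b) =
      univ.filter (fun i => ψ (Zb (P i)) = !b) := by
    exact Finset.filter_congr fun i _ => s2_bool3 b _
  rcases hcase with ⟨hZS, ⟨s, hs, hnear, hmult⟩, hm⟩ | ⟨q, hq1, hq2, hg, hmult, hc⟩ | ⟨hm, hc⟩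
  · by_cases hlarge : k ≤ 2 * (univ.filter (fun i => ψ (Zb (P i)) = b)).card
    · obtain ⟨v, hv, hv2⟩ := hω1 ((fun i => Zb (P i), s), b) (by
        unfold s2E1
        rw [Finset.mem_filter, Finset.mem_product, Finset.mem_product]
        exact ⟨⟨⟨hZS, hs⟩, Finset.mem_univ _⟩, hmult, hlarge⟩)
      unfold s2F1 at hv
      rw [Finset.mem_image] at hv
      obtain ⟨i, hi, rfl⟩ := hv
      rw [Finset.mem_filter] at hi
      have h1 := (hquiet i hi.2).2 (s i) (hnear i)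
      rw [h1] at hv2
      exact absurd hv2 (by decide)
    · refine hB hm ?_
      have h1 := Finset.card_filter_add_card_filter_not (s := (univ : Finset (Fin k)))
        (fun i => ψ (Zb (P i)) = b)
      rw [Finset.card_univ, Fintype.card_fin] at h1
      have h2 : (univ.filter (fun i => ψ (Zb (P i)) ≠ b)).card =
        (univ.filter (fun i => ¬ ψ (Zb (P i)) = b)).card := rfl
      rw [h2]
      omega
  · obtain ⟨v, hv, hv2⟩ := hω2 (⟨q, fun i => gs (P i)⟩, b) (by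
      unfold s2E2
      rw [Finset.mem_filter, Finset.mem_product, Finset.mem_sigma, Finset.mem_Icc]
      refine ⟨⟨⟨⟨hq1, hq2⟩, hg⟩, Finset.mem_univ _⟩, hmult, ?_⟩
      have h1 := hc b
      simp only [← hZ]
      exact h1)
    unfold s2F2 at hv
    rw [Finset.mem_image] at hv
    obtain ⟨i, hi, rfl⟩ := hv
    rw [Finset.mem_filter] at hi
    have h1 := (hquiet i (by rw [hZ]; exact hi.2)).1
    rw [h1] at hv2
    exact absurd hv2 (by decide)
  · refine hB hm ?_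
    rw [hneg]
    exact hc (!b)

end Crest.Agent.VDW
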