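import Crest.Agent.VDW.Defs
import Crest.Agent.VDW.GDefs

/-!
# Row 64 (S0086): grid approximation of `G` and slow progressions (chunks R64-J1, R64-J3)
-/

set_option autoImplicit false

namespace Crest.Agent.VDW

open Finset

theorem Step_diff {D : ℕ} (G : (Fin D → ℝ) → ℂ) (hG : GoodG G) (z y : Fin D → ℝ) (Y : ℝ)
    (hy : ∀ l, |y l| ≤ Y) (hY : 0 ≤ Y) :
    ‖G z - G (fun l => z l + y l)‖ ≤ 100 ^ ((D + 3) ^ 2) * Y := by
  obtain ⟨r, c, ω, h1, h2, h3, -⟩ := hG.2 z y Y hy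
  have h0 : G z = expSum c ω 0 := by
    rw [← h1 0]
    congr 1
    funext l
    ring
  have h0' : G (fun l => z l + y l) = expSum c ω 1 := by
    rw [← h1 1]
    congr 1
    funext l
    ring
  rw [h0, h0']
  unfold expSum
  rw [← Finset.sum_sub_distrib]
  have hB : (0 : ℝ) ≤ 100 ^ ((D + 3) ^ 2) * Y := by positivity
  calc ‖∑ j, (c j * Complex.exp (Complex.I * ((ω j * 0 : ℝ) : ℂ)) -
        c j * Complex.exp (Complex.I * ((ω j * 1 : ℝ) : ℂ)))‖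
      ≤ ∑ j, ‖c j * Complex.exp (Complex.I * ((ω j * 0 : ℝ) : ℂ)) -
        c j * Complex.exp (Complex.I * ((ω j * 1 : ℝ) : ℂ))‖ := norm_sum_le _ _
    _ ≤ ∑ j, ‖c j‖ * (100 ^ ((D + 3) ^ 2) * Y) := by
        apply Finset.sum_le_sum
        intro j _
        have e1 : c j * Complex.exp (Complex.I * ((ω j * 0 : ℝ) : ℂ)) -
            c j * Complex.exp (Complex.I * ((ω j * 1 : ℝ) : ℂ)) =
            - (c j * (Complex.exp (Complex.I * ((ω j : ℝ) : ℂ)) - 1)) := by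
          rw [mul_zero, mul_one, Complex.ofReal_zero, mul_zero, Complex.exp_zero]
          ring
        rw [e1, norm_neg, norm_mul]
        apply mul_le_mul_of_nonneg_left _ (norm_nonneg _)
        refine le_trans (Real.norm_exp_I_mul_ofReal_sub_one_le) ?_
        rw [Real.norm_eq_abs]
        exact h3 j
    _ = (∑ j, ‖c j‖) * (100 ^ ((D + 3) ^ 2) * Y) := by rw [Finset.sum_mul]
    _ ≤ 1 * (100 ^ ((D + 3) ^ 2) * Y) := mul_le_mul_of_nonneg_right h2 hB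
    _ = 100 ^ ((D + 3) ^ 2) * Y := one_mul _

/-! R64-J1 -/
theorem vG_approx {D : ℕ} (G : (Fin D → ℝ) → ℂ) (hG : GoodG G) (lam W₀ R n : ℕ) (hR : 1 ≤ R)
    (hlR : 2 * lam * 100 ^ ((D + 3) ^ 2) * W₀ ≤ R) (x θ : Fin D → ℝ) (i : Fin n) :
    ‖vG G lam W₀ R (pat R n x θ i) -
      (lam : ℂ) * G (fun l => (W₀ : ℝ) * (x l + ((i : ℕ) : ℝ) * θ l))‖ ≤ 1 / 2 := by
  have hRpos : (0 : ℝ) < R := by exact_mod_cast hR
  have : NeZero R := ⟨by omega⟩
  set m : Fin D → ℤ := fun l => ⌊(R : ℝ) * (x l + ((i : ℕ) : ℝ) * θ l)⌋ with hm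
  set fr : Fin D → ℝ := fun l => Int.fract ((R : ℝ) * (x l + ((i : ℕ) : ℝ) * θ l)) with hfr
  have hval : ∀ l, (((pat R n x θ i l).val : ℕ) : ℝ) = (m l : ℝ) - (R : ℝ) * ((m l / (R : ℤ) : ℤ) : ℝ) := by
    intro l
    have h1 : (((pat R n x θ i l).val : ℕ) : ℤ) = m l % (R : ℤ) := by
      unfold pat
      exact ZMod.val_intCast _
    have h2 : (((pat R n x θ i l).val : ℕ) : ℝ) = ((((pat R n x θ i l).val : ℕ) : ℤ) : ℝ) := by
      push_cast; rfl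
    rw [h2, h1, Int.emod_def]
    push_cast
    ring
  set z : Fin D → ℝ := fun l => (W₀ : ℝ) * ((pat R n x θ i l).val : ℝ) / (R : ℝ) with hz
  set y : Fin D → ℝ := fun l => (W₀ : ℝ) * fr l / (R : ℝ) with hy
  set N : Fin D → ℤ := fun l => (W₀ : ℤ) * (m l / (R : ℤ)) with hN
  have hdec : ∀ l, (W₀ : ℝ) * (x l + ((i : ℕ) : ℝ) * θ l) = z l + y l + (N l : ℝ) := by
    intro l
    have h1 : (m l : ℝ) + fr l = (R : ℝ) * (x l + ((i : ℕ) : ℝ) * θ l) :=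
      Int.floor_add_fract _
    simp only [hz, hy, hN]
    rw [hval l]
    push_cast
    have hR0 : (R : ℝ) ≠ 0 := hRpos.ne'
    have h2 : x l + ((i : ℕ) : ℝ) * θ l = ((m l : ℝ) + fr l) / R := by
      rw [h1]
      field_simp
    rw [h2]
    field_simp
    ring
  have hG1 : G (fun l => (W₀ : ℝ) * (x l + ((i : ℕ) : ℝ) * θ l)) = G (fun l => z l + y l) := by
    rw [← hG.1 (fun l => z l + y l) N]
    congr 1
    funext l
    exact hdec l
  have hY : ∀ l, |y l| ≤ (W₀ : ℝ) / R := by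
    intro l
    have h1 : 0 ≤ fr l := Int.fract_nonneg _
    have h2 : fr l ≤ 1 := (Int.fract_lt_one _).le
    have h3 : (0 : ℝ) ≤ (W₀ : ℝ) := Nat.cast_nonneg _
    have h4 : 0 ≤ y l := by
      simp only [hy]
      positivity
    rw [abs_of_nonneg h4]
    simp only [hy]
    apply div_le_div_of_nonneg_right _ hRpos.le
    nlinarith
  have hd := Step_diff G hG z y ((W₀ : ℝ) / R) hY (by positivity)
  have hv : vG G lam W₀ R (pat R n x θ i) = (lam : ℂ) * G z := rfl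
  rw [hv, hG1, ← mul_sub, norm_mul, Complex.norm_natCast]
  calc (lam : ℝ) * ‖G z - G (fun l => z l + y l)‖
      ≤ (lam : ℝ) * (100 ^ ((D + 3) ^ 2) * ((W₀ : ℝ) / R)) :=
        mul_le_mul_of_nonneg_left hd (Nat.cast_nonneg _)
    _ = ((lam : ℝ) * 100 ^ ((D + 3) ^ 2) * (W₀ : ℝ)) / R := by ring
    _ ≤ 1 / 2 := by
        rw [div_le_div_iff₀ hRpos (by norm_num)]
        have h5 : (((2 * lam * 100 ^ ((D + 3) ^ 2) * W₀ : ℕ)) : ℝ) ≤ (R : ℝ) := by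
          exact_mod_cast hlR
        push_cast at h5
        linarith

/-! R64-J3 : slow progressions become slow after multiplication with `W₀` -/
theorem slow_step {D : ℕ} (W₀ H₀ E₀ q : ℕ) (hW : W₀ = E₀.factorial) (hH : 1 ≤ H₀)
    (hq1 : 1 ≤ q) (hq : q < E₀) (θ : Fin D → ℝ) (hR : Ret (W₀ * H₀) θ q) :
    ∃ (y : Fin D → ℝ) (n : Fin D → ℤ), (∀ l, (W₀ : ℝ) * θ l = n l + y l) ∧
      ∀ l, |y l| ≤ 1 / (H₀ : ℝ) := by
  have hdvd : q ∣ W₀ := by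
    rw [hW]
    exact Nat.dvd_factorial hq1 hq.le
  obtain ⟨c, hc⟩ := hdvd
  have hWpos : 0 < W₀ := by rw [hW]; exact Nat.factorial_pos _
  have hcW : c ≤ W₀ := by rw [hc]; exact Nat.le_mul_of_pos_left c hq1
  choose b hb using hR
  refine ⟨fun l => (c : ℝ) * ((q : ℝ) * θ l - (b l : ℝ)), fun l => (c : ℤ) * b l, ?_, ?_⟩
  · intro l
    rw [hc]
    push_cast
    ring
  · intro l
    have h1 := (hb l).le
    have hH' : (0 : ℝ) < H₀ := by exact_mod_cast hH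
    have hW' : (0 : ℝ) < W₀ := by exact_mod_cast hWpos
    have hc' : (c : ℝ) ≤ W₀ := by exact_mod_cast hcW
    simp only
    rw [abs_mul, abs_of_nonneg (Nat.cast_nonneg c : (0 : ℝ) ≤ (c : ℝ))]
    calc (c : ℝ) * |(q : ℝ) * θ l - (b l : ℝ)| ≤ (W₀ : ℝ) * (1 / ((W₀ * H₀ : ℕ) : ℝ)) :=
          mul_le_mul hc' h1 (abs_nonneg _) hW'.le
      _ = 1 / (H₀ : ℝ) := by
          push_cast
          field_simp

theorem line_step {D : ℕ} (W₀ H₀ Q q : ℕ) (hW : 1 ≤ W₀) (hH : 1 ≤ H₀) (hQ : 1 ≤ Q)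
    (θ : Fin D → ℝ) (hR : Ret (W₀ * H₀) θ q) (hnR : ¬ Ret (4 * Q * (W₀ * H₀)) θ q) :
    ∃ (y : Fin D → ℝ) (n : Fin D → ℤ), (∀ l, (W₀ : ℝ) * (q * θ l) = n l + y l) ∧
      (∀ l, |y l| ≤ 1 / (H₀ : ℝ)) ∧ ∃ l, 1 / (4 * (Q : ℝ) * H₀) ≤ |y l| := by
  have hH' : (0 : ℝ) < H₀ := by exact_mod_cast hH
  have hW' : (0 : ℝ) < W₀ := by exact_mod_cast hW
  have hQ' : (0 : ℝ) < Q := by exact_mod_cast hQ
  choose b hb using hR
  have habs : ∀ l, |(W₀ : ℝ) * ((q : ℝ) * θ l - (b l : ℝ))| =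
      (W₀ : ℝ) * |(q : ℝ) * θ l - (b l : ℝ)| := by
    intro l
    rw [abs_mul, abs_of_pos hW']
  refine ⟨fun l => (W₀ : ℝ) * ((q : ℝ) * θ l - (b l : ℝ)), fun l => (W₀ : ℤ) * b l, ?_, ?_, ?_⟩
  · intro l
    push_cast
    ring
  · intro l
    simp only
    rw [habs]
    calc (W₀ : ℝ) * |(q : ℝ) * θ l - (b l : ℝ)| ≤ (W₀ : ℝ) * (1 / ((W₀ * H₀ : ℕ) : ℝ)) :=
          mul_le_mul_of_nonneg_left (hb l).le hW'.le
      _ = 1 / (H₀ : ℝ) := by
          push_cast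
          field_simp
  · by_contra hcon
    push Not at hcon
    apply hnR
    intro l
    refine ⟨b l, ?_⟩
    have h1 := hcon l
    rw [habs, lt_div_iff₀ (by positivity)] at h1
    rw [lt_div_iff₀ (by push_cast; positivity)]
    push_cast
    linarith
end Crest.Agent.VDW
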