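import Crest.Agent.VDW.TrigGFin
import Crest.Agent.VDW.RetLemmas
import Crest.Agent.VDW.PatCount
import Crest.Agent.VDW.Level1
import Crest.Agent.VDW.Stage2
import Crest.Agent.VDW.Step
import Crest.Agent.VDW.Line

set_option autoImplicit false

namespace Crest.Agent.VDW

open Finset

/-- the grid point of `x` -/
noncomputable def gpt {D : ℕ} (R : ℕ) (x : Fin D → ℝ) : Fin D → ZMod R :=
  fun l => ((⌊(R : ℝ) * x l⌋ : ℤ) : ZMod R)

theorem pat_eq_gpt {D : ℕ} (R n : ℕ) (x θ : Fin D → ℝ) (i : Fin n) :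
    pat R n x θ i = gpt R (fun l => x l + ((i : ℕ) : ℝ) * θ l) := rfl

/-- case S: cells at precision `Rs` are distinct -/
theorem slow_no_ret {D : ℕ} (W₀ H₀ Q k : ℕ) (hW₀ : 1 ≤ W₀) (hH₀ : 1 ≤ H₀) (hQ : 1 ≤ Q)
    (hkH : 4 * k ≤ H₀) (θ y : Fin D → ℝ) (n : Fin D → ℤ)
    (hn : ∀ l, (W₀ : ℝ) * θ l = n l + y l) (hy : ∀ l, |y l| ≤ 1 / (H₀ : ℝ))
    (hy1 : ∃ l, 1 / (2 * (Q : ℝ)) ≤ |y l|) (m : ℕ) (hm1 : 1 ≤ m) (hmk : m < k) :
    ¬ Ret (4 * Q * (W₀ * H₀)) θ m := by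
  intro hR
  obtain ⟨l, hl⟩ := hy1
  obtain ⟨b, hb⟩ := hR l
  have hW0 : (0 : ℝ) < W₀ := by exact_mod_cast hW₀
  have hH0 : (0 : ℝ) < H₀ := by exact_mod_cast hH₀
  have hQ0 : (0 : ℝ) < Q := by exact_mod_cast hQ
  have hH1 : (1 : ℝ) ≤ H₀ := by exact_mod_cast hH₀
  have hk0 : (0 : ℝ) < k := by
    have : 0 < k := by omega
    exact_mod_cast this
  have hm0 : (1 : ℝ) ≤ m := by exact_mod_cast hm1
  have hmk' : (m : ℝ) < k := by exact_mod_cast hmk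
  have hkH' : 4 * (k : ℝ) ≤ H₀ := by exact_mod_cast hkH
  -- multiply by W₀
  have h1 : |(W₀ : ℝ) * ((m : ℝ) * θ l) - W₀ * b| < 1 / (4 * Q * H₀) := by
    have : (W₀ : ℝ) * ((m : ℝ) * θ l) - W₀ * b = W₀ * ((m : ℝ) * θ l - b) := by ring
    rw [this, abs_mul, abs_of_pos hW0]
    have h2 : (W₀ : ℝ) * |(m : ℝ) * θ l - b| < W₀ * (1 / ((4 * Q * (W₀ * H₀) : ℕ) : ℝ)) :=
      mul_lt_mul_of_pos_left hb hW0
    refine lt_of_lt_of_eq h2 ?_
    push_cast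
    field_simp
  have h3 : (W₀ : ℝ) * ((m : ℝ) * θ l) = m * n l + m * y l := by
    have := hn l
    calc (W₀ : ℝ) * ((m : ℝ) * θ l) = m * ((W₀ : ℝ) * θ l) := by ring
      _ = _ := by rw [this]; ring
  have h4 : |(m : ℝ) * y l| ≤ 1 / 4 := by
    rw [abs_mul, abs_of_nonneg (by linarith : (0 : ℝ) ≤ m)]
    calc (m : ℝ) * |y l| ≤ m * (1 / H₀) := mul_le_mul_of_nonneg_left (hy l) (by linarith)
      _ = m / H₀ := by ring
      _ ≤ 1 / 4 := by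
        rw [div_le_iff₀ hH0]; linarith
  have h5 : (1 : ℝ) / (4 * Q * H₀) ≤ 1 / 4 := by
    apply div_le_div_of_nonneg_left (by norm_num) (by norm_num)
    have : (1 : ℝ) ≤ Q := by exact_mod_cast hQ
    nlinarith
  set c : ℤ := W₀ * b - m * n l with hc
  have h6 : |(m : ℝ) * y l - c| < 1 / (4 * Q * H₀) := by
    have : (m : ℝ) * y l - c = (W₀ : ℝ) * ((m : ℝ) * θ l) - W₀ * b := by
      rw [h3, hc]; push_cast; ring
    rw [this]; exact h1
  have h7 : |(c : ℝ)| < 1 := by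
    have : (c : ℝ) = (m : ℝ) * y l - ((m : ℝ) * y l - c) := by ring
    rw [this]
    calc |(m : ℝ) * y l - ((m : ℝ) * y l - c)| ≤ |(m : ℝ) * y l| + |(m : ℝ) * y l - c| :=
          abs_sub _ _
      _ < 1 := by linarith
  have h8 : c = 0 := by
    have : |c| < 1 := by exact_mod_cast h7
    exact Int.abs_lt_one_iff.mp this
  rw [h8] at h6
  simp only [Int.cast_zero, sub_zero] at h6
  rw [abs_mul, abs_of_nonneg (by linarith : (0 : ℝ) ≤ m)] at h6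
  have h9 : |y l| < 1 / (4 * Q * H₀) := by
    refine lt_of_le_of_lt ?_ h6
    nlinarith [abs_nonneg (y l)]
  have h10 : (1 : ℝ) / (4 * Q * H₀) ≤ 1 / (2 * Q) := by
    apply div_le_div_of_nonneg_left (by norm_num) (by positivity)
    nlinarith
  linarith

end Crest.Agent.VDW
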