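import Crest.Agent.VDW.Torus

set_option autoImplicit false

namespace Crest.Agent.VDW

open Finset

theorem norm_sub_lt_five_of_near {u : ℤ × ℤ} {v w : ℂ} (hv : Near u (cel v)) (hw : Near u (cel w)) :
    ‖v - w‖ < 5 := by
  have key : ∀ (a : ℤ) (x y : ℝ), |a - ⌊x⌋| ≤ 1 → |a - ⌊y⌋| ≤ 1 → |x - y| < 3 := by
    intro a x y h1 h2
    have h3 : |⌊x⌋ - ⌊y⌋| ≤ 2 := by
      have e : ⌊x⌋ - ⌊y⌋ = (a - ⌊y⌋) - (a - ⌊x⌋) := by ring
      rw [e]
      calc |(a - ⌊y⌋) - (a - ⌊x⌋)| ≤ |a - ⌊y⌋| + |a - ⌊x⌋| := abs_sub _ _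
        _ ≤ 2 := by linarith
    have h4 : |((⌊x⌋ : ℤ) : ℝ) - (⌊y⌋ : ℤ)| ≤ 2 := by exact_mod_cast h3
    have hx1 := Int.floor_le x
    have hx2 := Int.lt_floor_add_one x
    have hy1 := Int.floor_le y
    have hy2 := Int.lt_floor_add_one y
    rw [abs_le] at h4
    rw [abs_lt]
    constructor <;> linarith [h4.1, h4.2]
  have h1 := key u.1 v.re w.re hv.1 hw.1
  have h2 := key u.2 v.im w.im hv.2 hw.2
  have h3 : ‖v - w‖ ^ 2 < 25 := by
    rw [Complex.sq_norm, Complex.normSq_apply]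
    simp only [Complex.sub_re, Complex.sub_im]
    have a1 : (v.re - w.re) * (v.re - w.re) < 9 := by
      rw [abs_lt] at h1; nlinarith
    have a2 : (v.im - w.im) * (v.im - w.im) < 9 := by
      rw [abs_lt] at h2; nlinarith
    linarith
  nlinarith [norm_nonneg (v - w)]

/-- periodicity: replacing the step by its small representative -/
theorem G_step {D : ℕ} (G : (Fin D → ℝ) → ℂ) (hG : GoodG G) (W₀ : ℝ) (x θ y : Fin D → ℝ)
    (n : Fin D → ℤ) (hn : ∀ l, W₀ * θ l = n l + y l) (i : ℕ) :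
    G (fun l => W₀ * (x l + (i : ℝ) * θ l)) = G (fun l => W₀ * x l + (i : ℝ) * y l) := by
  rw [← hG.1 (fun l => W₀ * x l + (i : ℝ) * y l) (fun l => (i : ℤ) * n l)]
  congr 1
  ext l
  push_cast
  have := hn l
  calc W₀ * (x l + (i : ℝ) * θ l) = W₀ * x l + i * (W₀ * θ l) := by ring
    _ = _ := by rw [this]; ring

/-- at most four indices in a set on which the `f`-variables coincide, along a slow line -/
theorem line_four {D : ℕ} (G : (Fin D → ℝ) → ℂ) (hG : GoodG G) (k lam Q H₀ W₀ R : ℕ)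
    (hk : 1 ≤ k) (hQ : 1 ≤ Q)
    (hH : 4000 * 100 ^ (D + 3 * (D + 3) ^ 2) * k ^ 3 ≤ H₀)
    (hlam : 64000 * 100 ^ D * (Q * H₀) ^ 2 ≤ lam) (hR : 1 ≤ R)
    (hlR : 2 * lam * 100 ^ ((D + 3) ^ 2) * W₀ ≤ R)
    (x θ y : Fin D → ℝ) (n : Fin D → ℤ) (q : ℕ) (hq : 1 ≤ q)
    (hn : ∀ l, (W₀ : ℝ) * (q * θ l) = n l + y l) (hy : ∀ l, |y l| ≤ 1 / (H₀ : ℝ))
    (hy1 : ∃ l, 1 / (4 * (Q : ℝ) * H₀) ≤ |y l|)
    (S : Finset (Fin k)) (u : ℤ × ℤ)
    (hS : ∀ i ∈ S, Near u (cel (vG G lam W₀ R (pat R k x θ i))))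
    (hdvd : ∀ i ∈ S, ∀ j ∈ S, i ≤ j → q ∣ ((j : ℕ) - (i : ℕ))) : S.card ≤ 4 := by
  classical
  rcases S.eq_empty_or_nonempty with rfl | hne
  · simp
  set j₀ := S.min' hne with hj₀
  have hj₀S : j₀ ∈ S := S.min'_mem hne
  have hmin : ∀ i ∈ S, j₀ ≤ i := fun i hi => S.min'_le i hi
  -- the line through j₀
  set z : Fin D → ℝ := fun l => (W₀ : ℝ) * (x l + ((j₀ : ℕ) : ℝ) * θ l) with hz
  set v : ℕ → ℂ := fun t =>
    if h : (j₀ : ℕ) + t * q < k then vG G lam W₀ R (pat R k x θ ⟨(j₀ : ℕ) + t * q, h⟩)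
    else (lam : ℂ) * G (fun l => z l + (t : ℝ) * y l) with hv
  have happ : ∀ t, t < k → ‖v t - (lam : ℂ) * G (fun l => z l + (t : ℝ) * y l)‖ ≤ 1 / 2 := by
    intro t _
    by_cases h : (j₀ : ℕ) + t * q < k
    · simp only [hv, h, dif_pos]
      have h1 := vG_approx G hG lam W₀ R k hR hlR x θ ⟨(j₀ : ℕ) + t * q, h⟩
      have h2 : G (fun l => (W₀ : ℝ) * (x l + (((⟨(j₀ : ℕ) + t * q, h⟩ : Fin k) : ℕ) : ℝ) * θ l)) =
          G (fun l => z l + (t : ℝ) * y l) := by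
        have h3 := G_step G hG (W₀ : ℝ) (fun l => x l + ((j₀ : ℕ) : ℝ) * θ l)
          (fun l => (q : ℝ) * θ l) y n hn t
        rw [← h3]
        congr 1
        ext l
        push_cast
        ring
      rw [h2] at h1
      exact h1
    · simp only [hv, h, dif_neg, not_false_iff]
      simp
  have hmult := line_mult G hG k lam Q H₀ hk hQ hH hlam z y hy hy1 v happ 0 (by omega)
  -- inject
  have hval : ∀ i ∈ S, (j₀ : ℕ) + (((i : ℕ) - (j₀ : ℕ)) / q) * q = i := by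
    intro i hi
    have h1 := hdvd j₀ hj₀S i hi (hmin i hi)
    have h2 : (j₀ : ℕ) ≤ i := hmin i hi
    rw [Nat.div_mul_cancel h1]
    omega
  have hle : S.card ≤ ((Finset.range k).filter (fun j => ‖v j - v 0‖ < 5)).card := by
    apply Finset.card_le_card_of_injOn (fun i : Fin k => ((i : ℕ) - (j₀ : ℕ)) / q)
    · intro i hi
      have hi' : i ∈ S := hi
      have h1 := hval i hi'
      have hlt : (j₀ : ℕ) + (((i : ℕ) - (j₀ : ℕ)) / q) * q < k := by rw [h1]; exact i.2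
      simp only [coe_filter, mem_range, Set.mem_setOf_eq]
      constructor
      · calc ((i : ℕ) - (j₀ : ℕ)) / q ≤ (i : ℕ) - (j₀ : ℕ) := Nat.div_le_self _ _
          _ ≤ i := Nat.sub_le _ _
          _ < k := i.2
      · have e1 : v (((i : ℕ) - (j₀ : ℕ)) / q) = vG G lam W₀ R (pat R k x θ i) := by
          simp only [hv, hlt, dif_pos]
          congr 2
          exact Fin.ext h1
        have hlt0 : (j₀ : ℕ) + 0 * q < k := by simp
        have e2 : v 0 = vG G lam W₀ R (pat R k x θ j₀) := by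
          simp only [hv, hlt0, dif_pos]
          congr 2
          exact Fin.ext (by simp)
        rw [e1, e2]
        exact norm_sub_lt_five_of_near (hS i hi') (hS j₀ hj₀S)
    · intro i hi j hj hij
      have h1 := hval i hi
      have h2 := hval j hj
      simp only at hij
      rw [hij] at h1
      exact Fin.ext (by omega)
  omega

end Crest.Agent.VDW
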