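import Mathlib

/-! Row 64 (S0086), part (G): a trigonometric polynomial `G` on `T^D` whose second directional
derivatives are bounded below everywhere: `‖∂_y² G(z)‖ ≥ κ |y|²`, `κ = 40^{-D}`.

`G' = G + N⁻² L p(N z')`, `L' = L (1 + i b sin 2π N z')`, `p'' = ε cos 4πt + i sin 2πt`, `b = 2ε`. -/

set_option autoImplicit false
noncomputable section
namespace Crest.Agent.VDW
open Complex
open scoped ComplexConjugate

/-- `e(x) = exp(2π i x)` -/
def tgE (x : ℝ) : ℂ := Complex.exp (2 * Real.pi * I * x)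

theorem tgE_add (x y : ℝ) : tgE (x + y) = tgE x * tgE y := by
  unfold tgE
  rw [← Complex.exp_add]
  congr 1
  push_cast
  ring

theorem tgE_norm (x : ℝ) : ‖tgE x‖ = 1 := by
  unfold tgE
  have : 2 * Real.pi * I * x = ((2 * Real.pi * x : ℝ) : ℂ) * I := by push_cast; ring
  rw [this, Complex.norm_exp_ofReal_mul_I]

theorem tgE_eq (x : ℝ) : tgE x = (Real.cos (2 * Real.pi * x) : ℂ) + (Real.sin (2 * Real.pi * x) : ℂ) * I := by
  unfold tgE
  have : 2 * Real.pi * I * x = ((2 * Real.pi * x : ℝ) : ℂ) * I := by push_cast; ring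
  rw [this, Complex.exp_mul_I, Complex.ofReal_cos, Complex.ofReal_sin]

/-- phase -/
def tgPh {D : ℕ} (m : Fin D → ℤ) (y : Fin D → ℝ) : ℝ := ∑ j, (m j : ℝ) * y j

/-- sum of squares -/
def tgSq {D : ℕ} (y : Fin D → ℝ) : ℝ := ∑ j, y j ^ 2

theorem tgPh_cons {D : ℕ} (k : ℤ) (m : Fin D → ℤ) (y : Fin (D + 1) → ℝ) :
    tgPh (Fin.cons k m) y = (k : ℝ) * y 0 + tgPh m (Fin.tail y) := by
  unfold tgPh
  rw [Fin.sum_univ_succ]
  simp [Fin.tail]

theorem tgSq_succ {D : ℕ} (y : Fin (D + 1) → ℝ) : tgSq y = y 0 ^ 2 + tgSq (Fin.tail y) := by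
  unfold tgSq
  rw [Fin.sum_univ_succ]
  simp [Fin.tail]

theorem tgSq_nonneg {D : ℕ} (y : Fin D → ℝ) : 0 ≤ tgSq y :=
  Finset.sum_nonneg fun _ _ => sq_nonneg _

/-- finite trigonometric sums -/
structure Trig (D : ℕ) where
  ι : Type
  fin : Fintype ι
  c : ι → ℂ
  m : ι → Fin D → ℤ

attribute [instance] Trig.fin

namespace Trig

variable {D : ℕ}

def ev (T : Trig D) (z : Fin D → ℝ) : ℂ := ∑ i, T.c i * tgE (tgPh (T.m i) z)

def d1 (T : Trig D) (z y : Fin D → ℝ) : ℂ :=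
  ∑ i, T.c i * (tgPh (T.m i) y : ℂ) * tgE (tgPh (T.m i) z)

def d2 (T : Trig D) (z y : Fin D → ℝ) : ℂ :=
  ∑ i, T.c i * (tgPh (T.m i) y : ℂ) ^ 2 * tgE (tgPh (T.m i) z)

def A (T : Trig D) : ℝ := ∑ i, ‖T.c i‖

theorem A_nonneg (T : Trig D) : 0 ≤ T.A := Finset.sum_nonneg fun _ _ => norm_nonneg _

theorem tgPh_le {m : Fin D → ℤ} {n : ℝ} (hm : ∀ j, |(m j : ℝ)| ≤ n) (y : Fin D → ℝ) :
    |tgPh m y| ≤ n * ∑ j, |y j| := by
  unfold tgPh
  rw [Finset.mul_sum]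
  refine (Finset.abs_sum_le_sum_abs _ _).trans (Finset.sum_le_sum fun j _ => ?_)
  rw [abs_mul]
  exact mul_le_mul_of_nonneg_right (hm j) (abs_nonneg _)

theorem ev_le (T : Trig D) (z : Fin D → ℝ) : ‖T.ev z‖ ≤ T.A := by
  unfold ev A
  refine (norm_sum_le _ _).trans (Finset.sum_le_sum fun i _ => ?_)
  rw [norm_mul, tgE_norm, mul_one]

theorem d1_le (T : Trig D) {n : ℝ} (hm : ∀ i j, |(T.m i j : ℝ)| ≤ n) (z y : Fin D → ℝ) :
    ‖T.d1 z y‖ ≤ T.A * (n * ∑ j, |y j|) := by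
  unfold d1 A
  rw [Finset.sum_mul]
  refine (norm_sum_le _ _).trans (Finset.sum_le_sum fun i _ => ?_)
  rw [norm_mul, norm_mul, tgE_norm, mul_one, Complex.norm_real, Real.norm_eq_abs]
  exact mul_le_mul_of_nonneg_left (tgPh_le (hm i) y) (norm_nonneg _)

theorem d2_le (T : Trig D) {n : ℝ} (hm : ∀ i j, |(T.m i j : ℝ)| ≤ n) (z y : Fin D → ℝ) :
    ‖T.d2 z y‖ ≤ T.A * (n * ∑ j, |y j|) ^ 2 := by
  unfold d2 A
  rw [Finset.sum_mul]
  refine (norm_sum_le _ _).trans (Finset.sum_le_sum fun i _ => ?_)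
  rw [norm_mul, norm_mul, tgE_norm, mul_one, norm_pow, Complex.norm_real, Real.norm_eq_abs]
  exact mul_le_mul_of_nonneg_left (pow_le_pow_left₀ (abs_nonneg _) (tgPh_le (hm i) y) 2)
    (norm_nonneg _)

end Trig

/-- coefficients and frequencies of `p` -/
def tgPc (ε : ℝ) : Fin 4 → ℂ := ![(ε / 8 : ℝ), (ε / 8 : ℝ), 1 / 2, -1 / 2]
def tgPf : Fin 4 → ℤ := ![2, -2, 1, -1]
def tgLc (b : ℝ) : Fin 3 → ℂ := ![1, (b / 2 : ℝ), -(b / 2 : ℝ)]
def tgLf : Fin 3 → ℤ := ![0, 1, -1]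

/-- the new `G` -/
def tgG {D : ℕ} (G L : Trig D) (ε : ℝ) (N : ℕ) : Trig (D + 1) where
  ι := G.ι ⊕ (L.ι × Fin 4)
  fin := inferInstance
  c := Sum.elim G.c (fun q => ((N : ℂ) ^ 2)⁻¹ * (L.c q.1 * tgPc ε q.2))
  m := Sum.elim (fun i => Fin.cons 0 (G.m i)) (fun q => Fin.cons (tgPf q.2 * N) (L.m q.1))

/-- the new `L` -/
def tgL {D : ℕ} (L : Trig D) (b : ℝ) (N : ℕ) : Trig (D + 1) where
  ι := L.ι × Fin 3
  fin := inferInstance
  c := fun q => L.c q.1 * tgLc b q.2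
  m := fun q => Fin.cons (tgLf q.2 * N) (L.m q.1)

theorem tgL_ev {D : ℕ} (L : Trig D) (b : ℝ) (N : ℕ) (z : Fin (D + 1) → ℝ) :
    (tgL L b N).ev z = L.ev (Fin.tail z) *
      (1 + ((b * Real.sin (2 * Real.pi * (N * z 0)) : ℝ) : ℂ) * I) := by
  have h1 : (tgL L b N).ev z = L.ev (Fin.tail z) *
      ∑ k : Fin 3, tgLc b k * tgE (((tgLf k * N : ℤ) : ℝ) * z 0) := by
    unfold Trig.ev
    rw [Finset.sum_mul_sum]
    show ∑ q : L.ι × Fin 3, _ = _
    rw [Fintype.sum_prod_type]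
    refine Finset.sum_congr rfl fun i _ => Finset.sum_congr rfl fun k _ => ?_
    show L.c i * tgLc b k * tgE (tgPh (Fin.cons (tgLf k * N) (L.m i)) z) = _
    rw [tgPh_cons, tgE_add]
    ring
  rw [h1]
  congr 1
  rw [Fin.sum_univ_three]
  have e0 : tgE (((tgLf 0 * N : ℤ) : ℝ) * z 0) = 1 := by
    simp [tgLf, tgE]
  have e1 : tgE (((tgLf 1 * N : ℤ) : ℝ) * z 0) = (Real.cos (2 * Real.pi * (N * z 0)) : ℂ) + (Real.sin (2 * Real.pi * (N * z 0)) : ℂ) * I := by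
    rw [← tgE_eq]
    congr 1
    simp [tgLf]
  have e2 : tgE (((tgLf 2 * N : ℤ) : ℝ) * z 0) = (Real.cos (2 * Real.pi * (N * z 0)) : ℂ) - (Real.sin (2 * Real.pi * (N * z 0)) : ℂ) * I := by
    have : (((tgLf 2 * N : ℤ) : ℝ) * z 0) = -(N * z 0) := by
      simp [tgLf]
    rw [this, tgE_eq]
    rw [mul_neg, Real.cos_neg, Real.sin_neg]
    push_cast
    ring
  rw [e0, e1, e2]
  simp only [tgLc]
  simp
  ring

theorem tgG_d2 {D : ℕ} (G L : Trig D) (ε : ℝ) (N : ℕ) (hN : N ≠ 0) (z y : Fin (D + 1) → ℝ) :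
    (tgG G L ε N).d2 z y = G.d2 (Fin.tail z) (Fin.tail y) +
      (((N : ℂ) ^ 2)⁻¹ * (L.d2 (Fin.tail z) (Fin.tail y) *
          ∑ k : Fin 4, tgPc ε k * tgE (((tgPf k * N : ℤ) : ℝ) * z 0))
      + 2 * ((N : ℂ))⁻¹ * y 0 * (L.d1 (Fin.tail z) (Fin.tail y) *
          ∑ k : Fin 4, tgPc ε k * (tgPf k : ℂ) * tgE (((tgPf k * N : ℤ) : ℝ) * z 0))
      + (y 0 : ℂ) ^ 2 * (L.ev (Fin.tail z) *
          ∑ k : Fin 4, tgPc ε k * (tgPf k : ℂ) ^ 2 * tgE (((tgPf k * N : ℤ) : ℝ) * z 0))) := by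
  have hN' : (N : ℂ) ≠ 0 := by exact_mod_cast hN
  unfold Trig.d2 Trig.d1 Trig.ev
  rw [Finset.sum_mul_sum, Finset.sum_mul_sum, Finset.sum_mul_sum]
  show ∑ q : G.ι ⊕ (L.ι × Fin 4), _ = _
  rw [Fintype.sum_sum_type]
  congr 1
  · refine Finset.sum_congr rfl fun i _ => ?_
    show G.c i * (tgPh (Fin.cons 0 (G.m i)) y : ℂ) ^ 2 * tgE (tgPh (Fin.cons 0 (G.m i)) z) = _
    rw [tgPh_cons, tgPh_cons]
    simp
  · rw [Fintype.sum_prod_type, Finset.mul_sum, Finset.mul_sum, Finset.mul_sum,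
      ← Finset.sum_add_distrib, ← Finset.sum_add_distrib]
    refine Finset.sum_congr rfl fun i _ => ?_
    rw [Finset.mul_sum, Finset.mul_sum, Finset.mul_sum,
      ← Finset.sum_add_distrib, ← Finset.sum_add_distrib]
    refine Finset.sum_congr rfl fun k _ => ?_
    show ((N : ℂ) ^ 2)⁻¹ * (L.c i * tgPc ε k) *
      (tgPh (Fin.cons (tgPf k * N) (L.m i)) y : ℂ) ^ 2 *
      tgE (tgPh (Fin.cons (tgPf k * N) (L.m i)) z) = _
    rw [tgPh_cons, tgPh_cons, tgE_add]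
    push_cast
    field_simp
    ring

theorem tgP2_eq (ε : ℝ) (N : ℕ) (x : ℝ) :
    ∑ k : Fin 4, tgPc ε k * (tgPf k : ℂ) ^ 2 * tgE (((tgPf k * N : ℤ) : ℝ) * x) =
      ((ε * (1 - 2 * Real.sin (2 * Real.pi * (N * x)) ^ 2) : ℝ) : ℂ) +
        ((Real.sin (2 * Real.pi * (N * x)) : ℝ) : ℂ) * I := by
  rw [Fin.sum_univ_four]
  have e0 : (((tgPf 0 * N : ℤ) : ℝ) * x) = 2 * (N * x) := by simp [tgPf]; ring
  have e1 : (((tgPf 1 * N : ℤ) : ℝ) * x) = -(2 * (N * x)) := by simp [tgPf]; ring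
  have e2 : (((tgPf 2 * N : ℤ) : ℝ) * x) = N * x := by simp [tgPf]
  have e3 : (((tgPf 3 * N : ℤ) : ℝ) * x) = -(N * x) := by simp [tgPf]
  rw [e0, e1, e2, e3, tgE_eq, tgE_eq, tgE_eq, tgE_eq]
  have c1 : Real.cos (2 * Real.pi * (2 * (N * x))) =
      1 - 2 * Real.sin (2 * Real.pi * (N * x)) ^ 2 := by
    have : 2 * Real.pi * (2 * (N * x)) = 2 * (2 * Real.pi * (N * x)) := by ring
    rw [this, Real.cos_two_mul, Real.cos_sq']
    ring
  rw [mul_neg, Real.cos_neg, Real.sin_neg, c1, mul_neg, Real.cos_neg, Real.sin_neg]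
  simp only [tgPc, tgPf]
  simp
  ring

theorem tgP0_le {ε : ℝ} (hε : 0 ≤ ε) (N : ℕ) (x : ℝ) :
    ‖∑ k : Fin 4, tgPc ε k * tgE (((tgPf k * N : ℤ) : ℝ) * x)‖ ≤ 1 + ε / 4 := by
  refine (norm_sum_le _ _).trans ?_
  simp only [norm_mul, tgE_norm, mul_one]
  rw [Fin.sum_univ_four]
  simp only [tgPc]
  simp [abs_of_nonneg hε]
  linarith

theorem tgP1_le {ε : ℝ} (hε : 0 ≤ ε) (N : ℕ) (x : ℝ) :
    ‖∑ k : Fin 4, tgPc ε k * (tgPf k : ℂ) * tgE (((tgPf k * N : ℤ) : ℝ) * x)‖ ≤ 1 + ε / 2 := by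
  refine (norm_sum_le _ _).trans ?_
  simp only [norm_mul, tgE_norm, mul_one]
  rw [Fin.sum_univ_four]
  simp only [tgPc, tgPf]
  simp [abs_of_nonneg hε]
  linarith

/-- coefficient sums -/
theorem tgG_A {D : ℕ} (G L : Trig D) {ε : ℝ} (hε : 0 ≤ ε) (N : ℕ) :
    (tgG G L ε N).A = G.A + ((N : ℝ) ^ 2)⁻¹ * (L.A * (1 + ε / 4)) := by
  unfold Trig.A
  show ∑ q : G.ι ⊕ (L.ι × Fin 4), _ = _
  rw [Fintype.sum_sum_type]
  congr 1
  rw [Fintype.sum_prod_type, Finset.sum_mul, Finset.mul_sum]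
  refine Finset.sum_congr rfl fun i _ => ?_
  rw [Fin.sum_univ_four]
  show ‖((N : ℂ) ^ 2)⁻¹ * (L.c i * tgPc ε 0)‖ + ‖((N : ℂ) ^ 2)⁻¹ * (L.c i * tgPc ε 1)‖ +
    ‖((N : ℂ) ^ 2)⁻¹ * (L.c i * tgPc ε 2)‖ + ‖((N : ℂ) ^ 2)⁻¹ * (L.c i * tgPc ε 3)‖ = _
  simp only [norm_mul, norm_inv, norm_pow, tgPc]
  simp [abs_of_nonneg hε]
  ring

theorem tgL_A {D : ℕ} (L : Trig D) {b : ℝ} (hb : 0 ≤ b) (N : ℕ) :
    (tgL L b N).A = L.A * (1 + b) := by
  unfold Trig.A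
  show ∑ q : L.ι × Fin 3, _ = _
  rw [Fintype.sum_prod_type, Finset.sum_mul]
  refine Finset.sum_congr rfl fun i _ => ?_
  rw [Fin.sum_univ_three]
  show ‖L.c i * tgLc b 0‖ + ‖L.c i * tgLc b 1‖ + ‖L.c i * tgLc b 2‖ = _
  simp only [norm_mul, tgLc]
  simp [abs_of_nonneg hb]
  ring

/-- the invariant -/
structure TGood (d : ℕ) (κ n : ℝ) (G L : Trig d) : Prop where
  GA : G.A ≤ 4 - κ
  LA : L.A ≤ 2 - κ
  Gm : ∀ i j, |(G.m i j : ℝ)| ≤ 2 * n
  Lm : ∀ i j, |(L.m i j : ℝ)| ≤ n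
  L1 : ∀ z, 1 ≤ ‖L.ev z‖
  G2 : ∀ z y, ‖G.d2 z y‖ ≤ (4 - κ) * tgSq y
  pos : ∀ z y, κ * tgSq y ≤ (conj (L.ev z) * G.d2 z y).re

theorem tg_one_le (t : ℝ) : 1 ≤ ‖(1 : ℂ) + (t : ℂ) * I‖ := by
  have : (1 : ℝ) = |((1 : ℂ) + (t : ℂ) * I).re| := by simp
  rw [this]
  exact Complex.abs_re_le_norm _

theorem tg_l1_sq {d : ℕ} (y : Fin d → ℝ) : (∑ j, |y j|) ^ 2 ≤ (d : ℝ) * tgSq y := by
  have h := sq_sum_le_card_mul_sum_sq (s := (Finset.univ : Finset (Fin d))) (f := fun j => |y j|)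
  simpa [tgSq, sq_abs] using h

set_option maxHeartbeats 4000000 in
theorem tgood_step {d : ℕ} {κ n : ℝ} {G L : Trig d} (h : TGood d κ n G L) (hκ : 0 < κ)
    (hκ1 : κ ≤ 1) (hn : 1 ≤ n) (N : ℕ) (hN : n * (d + 1) * 4000 ≤ κ * N) :
    TGood (d + 1) (κ / 40) N (tgG G L (κ / 32) N) (tgL L (κ / 16) N) := by
  have hd : (0 : ℝ) ≤ d := Nat.cast_nonneg d
  have hNpos : (4000 : ℝ) ≤ N := by
    have h1 : (4000 : ℝ) ≤ n * (d + 1) * 4000 := by nlinarith
    have h2 : κ * N ≤ N := by nlinarith [(Nat.cast_nonneg N : (0 : ℝ) ≤ N)]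
    linarith
  have hN0 : (0 : ℝ) < N := by linarith
  have hNne : N ≠ 0 := by rintro rfl; simp at hNpos; linarith
  have hnN : n ≤ N := by
    have : n ≤ n * (d + 1) * 4000 := by nlinarith
    have h2 : κ * N ≤ N := by nlinarith
    linarith
  have hε : (0 : ℝ) ≤ κ / 32 := by positivity
  have hb : (0 : ℝ) ≤ κ / 16 := by positivity
  have hNinv : ((N : ℝ) ^ 2)⁻¹ ≤ κ / 4000 := by
    have h1 : κ * N ≥ 4000 := by nlinarith
    rw [inv_le_comm₀ (by positivity) (by positivity), inv_div]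
    rw [div_le_iff₀ hκ]
    nlinarith
  have hGA : (tgG G L (κ / 32) N).A ≤ 4 - κ / 40 := by
    rw [tgG_A _ _ hε]
    have h1 : L.A * (1 + κ / 32 / 4) ≤ 4 := by
      have h0 := h.LA
      have hA := L.A_nonneg
      nlinarith
    have h2 : ((N : ℝ) ^ 2)⁻¹ * (L.A * (1 + κ / 32 / 4)) ≤ κ / 4000 * 4 :=
      mul_le_mul hNinv h1 (by have := L.A_nonneg; positivity) (by positivity)
    have := h.GA
    linarith
  have hLA : (tgL L (κ / 16) N).A ≤ 2 - κ / 40 := by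
    rw [tgL_A _ hb]
    have h0 := h.LA
    have hA := L.A_nonneg
    nlinarith
  have hlf : ∀ k : Fin 3, |((tgLf k : ℤ) : ℝ)| ≤ 1 := by
    intro k; fin_cases k <;> simp [tgLf]
  have hpf : ∀ k : Fin 4, |((tgPf k : ℤ) : ℝ)| ≤ 2 := by
    intro k; fin_cases k <;> simp [tgPf]
  have hLm : ∀ i j, |(((tgL L (κ / 16) N).m i j : ℤ) : ℝ)| ≤ N := by
    rintro ⟨i, k⟩ j
    show |(((Fin.cons (tgLf k * N) (L.m i) : Fin (d + 1) → ℤ) j : ℤ) : ℝ)| ≤ N
    refine Fin.cases ?_ (fun j => ?_) j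
    · rw [Fin.cons_zero]
      push_cast
      rw [abs_mul, Nat.abs_cast]
      have := hlf k
      nlinarith
    · rw [Fin.cons_succ]
      exact (h.Lm i j).trans hnN
  have hGm : ∀ i j, |(((tgG G L (κ / 32) N).m i j : ℤ) : ℝ)| ≤ 2 * N := by
    rintro (i | ⟨i, k⟩) j
    · show |(((Fin.cons 0 (G.m i) : Fin (d + 1) → ℤ) j : ℤ) : ℝ)| ≤ 2 * N
      refine Fin.cases ?_ (fun j => ?_) j
      · rw [Fin.cons_zero]; simp
      · rw [Fin.cons_succ]
        have := h.Gm i j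
        linarith
    · show |(((Fin.cons (tgPf k * N) (L.m i) : Fin (d + 1) → ℤ) j : ℤ) : ℝ)| ≤ 2 * N
      refine Fin.cases ?_ (fun j => ?_) j
      · rw [Fin.cons_zero]
        push_cast
        rw [abs_mul, Nat.abs_cast]
        have := hpf k
        nlinarith
      · rw [Fin.cons_succ]
        have := h.Lm i j
        linarith
  -- common estimates
  have key : ∀ z y : Fin (d + 1) → ℝ, ∃ E : ℂ,
      (tgG G L (κ / 32) N).d2 z y = G.d2 (Fin.tail z) (Fin.tail y) + E +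
        (y 0 : ℂ) ^ 2 * (L.ev (Fin.tail z) *
          (((κ / 32 * (1 - 2 * Real.sin (2 * Real.pi * (N * z 0)) ^ 2) : ℝ) : ℂ) +
        ((Real.sin (2 * Real.pi * (N * z 0)) : ℝ) : ℂ) * I)) ∧
      ‖E‖ ≤ 5.5 * (κ / 4000) * (y 0 ^ 2 + tgSq (Fin.tail y)) := by
    intro z y
    refine ⟨((N : ℂ) ^ 2)⁻¹ * (L.d2 (Fin.tail z) (Fin.tail y) *
          ∑ k : Fin 4, tgPc (κ / 32) k * tgE (((tgPf k * N : ℤ) : ℝ) * z 0))
      + 2 * ((N : ℂ))⁻¹ * y 0 * (L.d1 (Fin.tail z) (Fin.tail y) *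
          ∑ k : Fin 4, tgPc (κ / 32) k * (tgPf k : ℂ) * tgE (((tgPf k * N : ℤ) : ℝ) * z 0)),
      ?_, ?_⟩
    · rw [tgG_d2 G L _ N hNne, tgP2_eq]
      ring
    · set a : ℝ := ∑ j, |Fin.tail y j| with ha
      have ha0 : 0 ≤ a := Finset.sum_nonneg fun _ _ => abs_nonneg _
      have ha2 : a ^ 2 ≤ (d : ℝ) * tgSq (Fin.tail y) := tg_l1_sq _
      have hS := tgSq_nonneg (Fin.tail y)
      set S : ℝ := tgSq (Fin.tail y) with hSd
      -- u = n a / N
      set u : ℝ := n * a / N with hu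
      have hu0 : 0 ≤ u := by positivity
      have hu2 : u ^ 2 ≤ (κ / 4000) ^ 2 * S := by
        have h1 : n * a * (d + 1) ≤ κ / 4000 * N * a := by nlinarith
        have h2 : u * (d + 1) ≤ κ / 4000 * a := by
          rw [hu, div_mul_eq_mul_div, div_le_iff₀ hN0]
          nlinarith
        have h3 : (u * (d + 1)) ^ 2 ≤ (κ / 4000 * a) ^ 2 :=
          pow_le_pow_left₀ (by positivity) h2 2
        have h4 : (κ / 4000 * a) ^ 2 ≤ (κ / 4000) ^ 2 * ((d : ℝ) * S) := by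
          rw [mul_pow]
          exact mul_le_mul_of_nonneg_left ha2 (by positivity)
        have h5 : (κ / 4000) ^ 2 * ((d : ℝ) * S) ≤ (κ / 4000) ^ 2 * S * ((d : ℝ) + 1) ^ 2 := by
          have : (d : ℝ) * S ≤ S * ((d : ℝ) + 1) ^ 2 := by nlinarith [mul_nonneg hd hS, mul_nonneg (mul_nonneg hd hd) hS]
          nlinarith [sq_nonneg (κ / 4000)]
        have h6 : u ^ 2 * ((d : ℝ) + 1) ^ 2 ≤ (κ / 4000) ^ 2 * S * ((d : ℝ) + 1) ^ 2 := by
          rw [← mul_pow]; linarith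
        exact le_of_mul_le_mul_right h6 (by positivity)
      have hLA2 : L.A ≤ 2 := by have := h.LA; linarith
      have hLA0 := L.A_nonneg
      have e1 : ‖((N : ℂ) ^ 2)⁻¹ * (L.d2 (Fin.tail z) (Fin.tail y) *
          ∑ k : Fin 4, tgPc (κ / 32) k * tgE (((tgPf k * N : ℤ) : ℝ) * z 0))‖ ≤ 2.5 * u ^ 2 := by
        have q1 := L.d2_le h.Lm (Fin.tail z) (Fin.tail y)
        have q2 := tgP0_le hε N (z 0)
        have q3 : 1 + κ / 32 / 4 ≤ 1.25 := by linarith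
        rw [norm_mul, norm_mul, norm_inv, norm_pow, Complex.norm_natCast]
        have q4 : ‖L.d2 (Fin.tail z) (Fin.tail y)‖ ≤ 2 * (n * a) ^ 2 :=
          q1.trans (mul_le_mul_of_nonneg_right hLA2 (sq_nonneg _))
        calc ((N : ℝ) ^ 2)⁻¹ * (‖L.d2 (Fin.tail z) (Fin.tail y)‖ *
              ‖∑ k : Fin 4, tgPc (κ / 32) k * tgE (((tgPf k * N : ℤ) : ℝ) * z 0)‖)
            ≤ ((N : ℝ) ^ 2)⁻¹ * (2 * (n * a) ^ 2 * 1.25) := by
              apply mul_le_mul_of_nonneg_left _ (by positivity)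
              exact mul_le_mul q4 (q2.trans q3) (norm_nonneg _) (by positivity)
          _ = 2.5 * u ^ 2 := by
              rw [hu]; field_simp; ring
      have e2 : ‖2 * ((N : ℂ))⁻¹ * y 0 * (L.d1 (Fin.tail z) (Fin.tail y) *
          ∑ k : Fin 4, tgPc (κ / 32) k * (tgPf k : ℂ) * tgE (((tgPf k * N : ℤ) : ℝ) * z 0))‖
          ≤ 5 * (|y 0| * u) := by
        have q1 := L.d1_le h.Lm (Fin.tail z) (Fin.tail y)
        have q2 := tgP1_le hε N (z 0)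
        have q3 : 1 + κ / 32 / 2 ≤ 1.25 := by linarith
        rw [norm_mul, norm_mul, norm_mul, norm_mul, norm_inv, Complex.norm_natCast,
          Complex.norm_real, Real.norm_eq_abs]
        have q4 : ‖L.d1 (Fin.tail z) (Fin.tail y)‖ ≤ 2 * (n * a) :=
          q1.trans (mul_le_mul_of_nonneg_right hLA2 (by positivity))
        calc ‖(2 : ℂ)‖ * (N : ℝ)⁻¹ * |y 0| * (‖L.d1 (Fin.tail z) (Fin.tail y)‖ *
              ‖∑ k : Fin 4, tgPc (κ / 32) k * (tgPf k : ℂ) * tgE (((tgPf k * N : ℤ) : ℝ) * z 0)‖)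
            ≤ ‖(2 : ℂ)‖ * (N : ℝ)⁻¹ * |y 0| * (2 * (n * a) * 1.25) := by
              apply mul_le_mul_of_nonneg_left _ (by positivity)
              exact mul_le_mul q4 (q2.trans q3) (norm_nonneg _) (by positivity)
          _ = 5 * (|y 0| * u) := by
              rw [hu]; simp; field_simp; ring
      refine (norm_add_le _ _).trans ((add_le_add e1 e2).trans ?_)
      -- 2.5 u² + 5 |y0| u ≤ 5.5 ρ (y0² + S)
      set ρ : ℝ := κ / 4000 with hρ
      have hρ0 : 0 < ρ := by positivity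
      have hρ1 : ρ ≤ 1 / 4000 := by rw [hρ]; linarith
      have hy2 : |y 0| ^ 2 = y 0 ^ 2 := sq_abs _
      have h7 : |y 0| * u ≤ (ρ * y 0 ^ 2 + ρ * S) / 2 := by
        -- 2 |y0| u ≤ ρ y0² + u²/ρ
        have h8 : 2 * (ρ * |y 0|) * u ≤ (ρ * |y 0|) ^ 2 + u ^ 2 := by
          nlinarith [sq_nonneg (ρ * |y 0| - u)]
        have h9 : 2 * (ρ * |y 0|) * u ≤ ρ * (ρ * y 0 ^ 2 + ρ * S) := by
          rw [mul_pow, hy2] at h8
          nlinarith
        have h10 : ρ * (2 * (|y 0| * u)) ≤ ρ * (ρ * y 0 ^ 2 + ρ * S) := by linarith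
        have h11 := le_of_mul_le_mul_left h10 hρ0
        linarith
      have h12 : u ^ 2 ≤ ρ / 4000 * S := by
        have : ρ ^ 2 * S ≤ ρ / 4000 * S := by
          apply mul_le_mul_of_nonneg_right _ hS
          nlinarith
        linarith
      have hy0 : 0 ≤ ρ * y 0 ^ 2 := by positivity
      have hS0 : 0 ≤ ρ * S := by positivity
      nlinarith
  refine ⟨hGA, hLA, hGm, hLm, ?_, ?_, ?_⟩
  · intro z
    rw [tgL_ev, norm_mul]
    have h1 := h.L1 (Fin.tail z)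
    have h2 : 1 ≤ ‖(1 : ℂ) + ((κ / 16 * Real.sin (2 * Real.pi * (N * z 0)) : ℝ) : ℂ) * I‖ :=
      tg_one_le _
    nlinarith
  · intro z y
    obtain ⟨E, he, hE⟩ := key z y
    rw [he, tgSq_succ]
    have h1 := h.G2 (Fin.tail z) (Fin.tail y)
    have hS := tgSq_nonneg (Fin.tail y)
    set S := tgSq (Fin.tail y)
    set s := Real.sin (2 * Real.pi * (N * z 0)) with hs
    have hs1 : s ^ 2 ≤ 1 := by
      have := Real.sin_sq_le_one (2 * Real.pi * (N * z 0)); simpa [hs] using this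
    have hs2 : |s| ≤ 1 := Real.abs_sin_le_one _
    have h2 : ‖(y 0 : ℂ) ^ 2 * (L.ev (Fin.tail z) *
          (((κ / 32 * (1 - 2 * s ^ 2) : ℝ) : ℂ) + ((s : ℝ) : ℂ) * I))‖ ≤ 3 * y 0 ^ 2 := by
      rw [norm_mul, norm_mul, norm_pow, Complex.norm_real, Real.norm_eq_abs, sq_abs]
      have q1 : ‖L.ev (Fin.tail z)‖ ≤ 2 := by
        have := L.ev_le (Fin.tail z); have := h.LA; linarith
      have q2 : ‖(((κ / 32 * (1 - 2 * s ^ 2) : ℝ) : ℂ) + ((s : ℝ) : ℂ) * I)‖ ≤ 1.5 := by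
        refine (norm_add_le _ _).trans ?_
        rw [norm_mul, Complex.norm_I, mul_one, Complex.norm_real, Complex.norm_real,
          Real.norm_eq_abs, Real.norm_eq_abs]
        have : |κ / 32 * (1 - 2 * s ^ 2)| ≤ 0.5 := by
          rw [abs_le]; constructor <;> nlinarith [sq_nonneg s]
        linarith
      have q3 : ‖L.ev (Fin.tail z)‖ * ‖(((κ / 32 * (1 - 2 * s ^ 2) : ℝ) : ℂ) + ((s : ℝ) : ℂ) * I)‖
          ≤ 2 * 1.5 := mul_le_mul q1 q2 (norm_nonneg _) (by norm_num)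
      nlinarith [sq_nonneg (y 0)]
    have h3 : ‖G.d2 (Fin.tail z) (Fin.tail y) + E + (y 0 : ℂ) ^ 2 * (L.ev (Fin.tail z) *
          (((κ / 32 * (1 - 2 * s ^ 2) : ℝ) : ℂ) + ((s : ℝ) : ℂ) * I))‖ ≤
          (4 - κ) * S + 5.5 * (κ / 4000) * (y 0 ^ 2 + S) + 3 * y 0 ^ 2 :=
      (norm_add_le _ _).trans (add_le_add ((norm_add_le _ _).trans (add_le_add h1 hE)) h2)
    refine h3.trans ?_
    nlinarith [sq_nonneg (y 0), mul_nonneg hκ.le (sq_nonneg (y 0)), mul_nonneg hκ.le hS]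
  · intro z y
    obtain ⟨E, he, hE⟩ := key z y
    rw [he, tgSq_succ, tgL_ev]
    have h1 := h.G2 (Fin.tail z) (Fin.tail y)
    have h0 := h.pos (Fin.tail z) (Fin.tail y)
    have hS := tgSq_nonneg (Fin.tail y)
    have hL1 := h.L1 (Fin.tail z)
    have hL2 : ‖L.ev (Fin.tail z)‖ ≤ 2 := by
      have := L.ev_le (Fin.tail z); have := h.LA; linarith
    set S := tgSq (Fin.tail y)
    set s := Real.sin (2 * Real.pi * (N * z 0)) with hs
    set Lz := L.ev (Fin.tail z)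
    set X := G.d2 (Fin.tail z) (Fin.tail y)
    have hs1 : s ^ 2 ≤ 1 := by
      have := Real.sin_sq_le_one (2 * Real.pi * (N * z 0)); simpa [hs] using this
    have hs2 : |s| ≤ 1 := Real.abs_sin_le_one _
    have hid : (conj (Lz * (1 + ((κ / 16 * s : ℝ) : ℂ) * I)) *
        (X + E + (y 0 : ℂ) ^ 2 * (Lz * (((κ / 32 * (1 - 2 * s ^ 2) : ℝ) : ℂ) +
          ((s : ℝ) : ℂ) * I)))).re
        = (conj Lz * X).re + κ / 16 * s * (conj Lz * X).im
          + ‖Lz‖ ^ 2 * (y 0 ^ 2 * (κ / 32))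
          + (conj (Lz * (1 + ((κ / 16 * s : ℝ) : ℂ) * I)) * E).re := by
      rw [← Complex.normSq_eq_norm_sq, Complex.normSq_apply]
      simp only [map_mul, map_add, map_one, Complex.conj_ofReal, Complex.conj_I, Complex.mul_re,
        Complex.mul_im, Complex.add_re, Complex.add_im, Complex.conj_re, Complex.conj_im,
        Complex.ofReal_re, Complex.ofReal_im, Complex.I_re, Complex.I_im, Complex.one_re,
        Complex.one_im, Complex.neg_re, Complex.neg_im, pow_two]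
      ring
    rw [hid]
    have g1 : |(conj Lz * X).im| ≤ 2 * ((4 - κ) * S) := by
      refine (Complex.abs_im_le_norm _).trans ?_
      rw [norm_mul, Complex.norm_conj]
      exact mul_le_mul hL2 h1 (norm_nonneg _) (by norm_num)
    have g2 : -(κ / 2 * S) ≤ κ / 16 * s * (conj Lz * X).im := by
      have : |κ / 16 * s * (conj Lz * X).im| ≤ κ / 16 * 1 * (2 * ((4 - κ) * S)) := by
        rw [abs_mul, abs_mul, abs_of_nonneg hb]
        exact mul_le_mul (mul_le_mul_of_nonneg_left hs2 hb) g1 (abs_nonneg _) (by positivity)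
      have h2 := (abs_le.1 this).1
      have h3 : κ / 16 * 1 * (2 * ((4 - κ) * S)) ≤ κ / 2 * S := by
        nlinarith [mul_nonneg hκ.le hS, mul_nonneg (mul_nonneg hκ.le hκ.le) hS]
      linarith
    have g3 : y 0 ^ 2 * (κ / 32) ≤ ‖Lz‖ ^ 2 * (y 0 ^ 2 * (κ / 32)) := by
      have : 1 ≤ ‖Lz‖ ^ 2 := by nlinarith
      nlinarith [mul_nonneg (sq_nonneg (y 0)) hε]
    have g4 : -(11.7 * (κ / 4000) * (y 0 ^ 2 + S)) ≤
        (conj (Lz * (1 + ((κ / 16 * s : ℝ) : ℂ) * I)) * E).re := by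
      have q0 : ‖Lz * (1 + ((κ / 16 * s : ℝ) : ℂ) * I)‖ ≤ 2 * (1 + κ / 16) := by
        rw [norm_mul]
        refine mul_le_mul hL2 ?_ (norm_nonneg _) (by norm_num)
        refine (norm_add_le _ _).trans ?_
        rw [norm_one, norm_mul, Complex.norm_I, mul_one, Complex.norm_real, Real.norm_eq_abs,
          abs_mul, abs_of_nonneg hb]
        nlinarith
      have q1 : ‖conj (Lz * (1 + ((κ / 16 * s : ℝ) : ℂ) * I)) * E‖ ≤
          2 * (1 + κ / 16) * (5.5 * (κ / 4000) * (y 0 ^ 2 + S)) := by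
        rw [norm_mul, Complex.norm_conj]
        exact mul_le_mul q0 hE (norm_nonneg _) (by positivity)
      have q2 := (abs_le.1 (Complex.abs_re_le_norm
        (conj (Lz * (1 + ((κ / 16 * s : ℝ) : ℂ) * I)) * E))).1
      have q3 : 2 * (1 + κ / 16) * (5.5 * (κ / 4000) * (y 0 ^ 2 + S)) ≤
          11.7 * (κ / 4000) * (y 0 ^ 2 + S) := by
        have : 0 ≤ κ / 4000 * (y 0 ^ 2 + S) := by positivity
        nlinarith
      linarith
    nlinarith [mul_nonneg hκ.le (sq_nonneg (y 0)), mul_nonneg hκ.le hS]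

/-- the trivial start -/
def tgZero : Trig 0 where
  ι := Empty
  fin := inferInstance
  c := Empty.elim
  m := Empty.elim

def tgOne : Trig 0 where
  ι := Unit
  fin := inferInstance
  c := fun _ => 1
  m := fun _ j => j.elim0

theorem tgood_zero : TGood 0 1 1 tgZero tgOne where
  GA := by
    show ∑ i : Empty, ‖tgZero.c i‖ ≤ _
    norm_num
  LA := by
    show ∑ i : Unit, ‖(1 : ℂ)‖ ≤ _
    norm_num
  Gm := fun i => Empty.elim i
  Lm := fun _ j => j.elim0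
  L1 := by
    intro z
    have : tgOne.ev z = 1 := by
      show ∑ i : Unit, (1 : ℂ) * tgE (tgPh (fun j => j.elim0) z) = 1
      simp [tgPh, tgE]
    rw [this]; norm_num
  G2 := by
    intro z y
    have : tgZero.d2 z y = 0 := by
      show ∑ i : Empty, _ = _
      simp
    rw [this, norm_zero]
    have := tgSq_nonneg y
    nlinarith
  pos := by
    intro z y
    have : tgZero.d2 z y = 0 := by
      show ∑ i : Empty, _ = _
      simp
    rw [this, mul_zero]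
    simp [tgSq]

/-- the growth factor of the frequencies -/
def tgR (D : ℕ) : ℕ := 4000 * (D + 1) * 40 ^ D

theorem tgR_pos (D : ℕ) : 1 ≤ tgR D := by
  unfold tgR
  have : 0 < 4000 * (D + 1) * 40 ^ D := by positivity
  omega

theorem exists_tgood (D : ℕ) : ∀ d, d ≤ D →
    ∃ G L : Trig d, TGood d ((1 / 40 : ℝ) ^ d) ((tgR D : ℝ) ^ d) G L := by
  intro d
  induction d with
  | zero =>
    intro _
    refine ⟨tgZero, tgOne, ?_⟩
    rw [pow_zero, pow_zero]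
    exact tgood_zero
  | succ d ih =>
    intro hd
    obtain ⟨G, L, h⟩ := ih (by omega)
    have hR : (1 : ℝ) ≤ (tgR D : ℝ) := by exact_mod_cast tgR_pos D
    have h1 := tgood_step h (by positivity) (pow_le_one₀ (by norm_num) (by norm_num))
      (one_le_pow₀ hR) (tgR D ^ (d + 1)) (by
        have e1 : (tgR D : ℝ) = 4000 * ((D : ℝ) + 1) * 40 ^ D := by unfold tgR; push_cast; ring
        have e2 : (((tgR D ^ (d + 1) : ℕ)) : ℝ) = (tgR D : ℝ) ^ d * (tgR D : ℝ) := by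
          push_cast; rw [pow_succ]
        rw [e2]
        have e3 : ((d : ℝ) + 1) * 4000 ≤ (1 / 40 : ℝ) ^ d * (tgR D : ℝ) := by
          rw [e1]
          have e4 : (1 : ℝ) ≤ (1 / 40 : ℝ) ^ d * 40 ^ D := by
            have e0 : (1 / 40 : ℝ) ^ d * 40 ^ d = 1 := by
              rw [← mul_pow]; norm_num
            have e00 : (1 / 40 : ℝ) ^ d * 40 ^ d ≤ (1 / 40 : ℝ) ^ d * 40 ^ D := by
              apply mul_le_mul_of_nonneg_left _ (by positivity)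
              exact pow_le_pow_right₀ (by norm_num) (by omega)
            rw [e0] at e00
            exact e00
          have e5 : (d : ℝ) + 1 ≤ (D : ℝ) + 1 := by
            have : (d : ℝ) ≤ D := by exact_mod_cast (by omega : d ≤ D)
            linarith
          have e6 : (0 : ℝ) ≤ (D : ℝ) + 1 := by positivity
          calc ((d : ℝ) + 1) * 4000 ≤ ((D : ℝ) + 1) * 4000 * 1 := by linarith
            _ ≤ ((D : ℝ) + 1) * 4000 * ((1 / 40 : ℝ) ^ d * 40 ^ D) :=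
                mul_le_mul_of_nonneg_left e4 (by positivity)
            _ = _ := by ring
        have e7 : (0 : ℝ) ≤ (tgR D : ℝ) ^ d := by positivity
        nlinarith [mul_le_mul_of_nonneg_left e3 e7])
    refine ⟨tgG G L ((1 / 40 : ℝ) ^ d / 32) (tgR D ^ (d + 1)),
      tgL L ((1 / 40 : ℝ) ^ d / 16) (tgR D ^ (d + 1)), ?_⟩
    · have e8 : (1 / 40 : ℝ) ^ (d + 1) = (1 / 40 : ℝ) ^ d / 40 := by rw [pow_succ]; ring
      have e9 : (tgR D : ℝ) ^ (d + 1) = ((tgR D ^ (d + 1) : ℕ) : ℝ) := by push_cast; rfl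
      rw [e8, e9]
      exact h1

/-- **Part (G)**: a trigonometric polynomial on `T^D` with second directional derivatives
bounded below by `40^{-D} |y|²`. -/
theorem exists_trigG (D : ℕ) : ∃ (ι : Type) (_ : Fintype ι) (c : ι → ℂ) (m : ι → Fin D → ℤ),
    (∑ i, ‖c i‖ ≤ 4) ∧ (∀ i j, |(m i j : ℝ)| ≤ 2 * (tgR D : ℝ) ^ D) ∧
    ∀ z y : Fin D → ℝ, (1 / 40 : ℝ) ^ D * ∑ j, y j ^ 2 ≤
      2 * ‖∑ i, c i * ((∑ j, (m i j : ℝ) * y j : ℝ) : ℂ) ^ 2 *
        Complex.exp (2 * Real.pi * I * ((∑ j, (m i j : ℝ) * z j : ℝ) : ℂ))‖ := by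
  obtain ⟨G, L, h⟩ := exists_tgood D D le_rfl
  refine ⟨G.ι, G.fin, G.c, G.m, ?_, h.Gm, ?_⟩
  · have h1 := h.GA
    have h2 : (0 : ℝ) ≤ (1 / 40 : ℝ) ^ D := by positivity
    unfold Trig.A at h1
    linarith
  · intro z y
    have h1 := h.pos z y
    have h2 : ‖L.ev z‖ ≤ 2 := by
      have := L.ev_le z
      have h3 := h.LA
      have h4 : (0 : ℝ) ≤ (1 / 40 : ℝ) ^ D := by positivity
      linarith
    have h3 : (conj (L.ev z) * G.d2 z y).re ≤ 2 * ‖G.d2 z y‖ := by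
      refine (Complex.re_le_norm _).trans ?_
      rw [norm_mul, Complex.norm_conj]
      exact mul_le_mul_of_nonneg_right h2 (norm_nonneg _)
    exact h1.trans h3

theorem tgR_bound (D : ℕ) : 4 * Real.pi * D * (tgR D : ℝ) ^ D ≤ 100 ^ ((D + 3) ^ 2) := by
  have h1 : (tgR D : ℝ) ≤ 100 ^ (D + 2) := by
    unfold tgR
    have h2 : (((D + 1 : ℕ)) : ℝ) ≤ 2 ^ D := by
      have : D + 1 ≤ 2 ^ D := Nat.lt_two_pow_self
      exact_mod_cast this
    have h3 : (0 : ℝ) ≤ 40 ^ D := by positivity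
    have e1 : (((4000 * (D + 1) * 40 ^ D : ℕ)) : ℝ) = 4000 * (((D + 1 : ℕ)) : ℝ) * 40 ^ D := by
      push_cast; ring
    rw [e1]
    have e2 : (2 : ℝ) ^ D * 40 ^ D = 80 ^ D := by rw [← mul_pow]; norm_num
    have e3 : (80 : ℝ) ^ D ≤ 100 ^ D := pow_le_pow_left₀ (by norm_num) (by norm_num) D
    calc 4000 * (((D + 1 : ℕ)) : ℝ) * 40 ^ D ≤ 4000 * 2 ^ D * 40 ^ D := by gcongr
      _ = 4000 * 80 ^ D := by rw [mul_assoc, e2]
      _ ≤ 10000 * 100 ^ D := by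
          have : (0 : ℝ) ≤ 100 ^ D := by positivity
          linarith
      _ = 100 ^ (D + 2) := by rw [pow_add]; ring
  have h4 : (tgR D : ℝ) ^ D ≤ 100 ^ ((D + 2) * D) := by
    rw [pow_mul]
    exact pow_le_pow_left₀ (Nat.cast_nonneg _) h1 D
  have h5 : (D : ℝ) ≤ 100 ^ D := by
    have : D < 2 ^ D := Nat.lt_two_pow_self
    have h6 : (D : ℝ) ≤ 2 ^ D := by exact_mod_cast this.le
    exact h6.trans (pow_le_pow_left₀ (by norm_num) (by norm_num) D)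
  have h7 : 4 * Real.pi ≤ 100 := by have := Real.pi_le_four; linarith
  calc 4 * Real.pi * D * (tgR D : ℝ) ^ D ≤ 100 * 100 ^ D * 100 ^ ((D + 2) * D) := by
        have := Real.pi_pos
        gcongr
    _ = 100 ^ (1 + D + (D + 2) * D) := by rw [pow_add, pow_add]; ring
    _ ≤ 100 ^ ((D + 3) ^ 2) := by
        apply pow_le_pow_right₀ (by norm_num)
        nlinarith

end Crest.Agent.VDW
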