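import Crest.Agent.VDW.Defs
import Crest.Agent.VDW.TrigG

/-! Row 64 (S0086): `exists_G` from `exists_trigG`. -/

set_option autoImplicit false
noncomputable section
namespace Crest.Agent.VDW
open Complex

theorem exists_G (D : ℕ) : ∃ G : (Fin D → ℝ) → ℂ,
    (∀ (z : Fin D → ℝ) (n : Fin D → ℤ), G (fun l => z l + (n l : ℝ)) = G z) ∧
    ∀ (z y : Fin D → ℝ) (Y : ℝ), (∀ l, |y l| ≤ Y) → ∃ (r : ℕ) (c : Fin r → ℂ) (ω : Fin r → ℝ),
      (∀ t : ℝ, G (fun l => z l + t * y l) = expSum c ω t) ∧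
      (∑ j, ‖c j‖ ≤ 1) ∧ (∀ j, |ω j| ≤ 100 ^ ((D + 3) ^ 2) * Y) ∧
      (∀ l, (y l) ^ 2 ≤ 4 * 100 ^ D * ‖∑ j, c j * ((ω j : ℝ) : ℂ) ^ 2‖) := by
  rcases Nat.eq_zero_or_pos D with h0 | hD
  · subst h0
    refine ⟨fun _ => 0, fun _ _ => rfl, fun z y Y _ => ⟨0, Fin.elim0, Fin.elim0, ?_, ?_, ?_, ?_⟩⟩
    · intro t; simp [expSum]
    · simp
    · exact fun j => j.elim0
    · exact fun l => l.elim0
  obtain ⟨ι, hι, c, m, hc, hm, hlow⟩ := exists_trigG D
  refine ⟨fun z => ∑ i, (c i / 4) * Complex.exp (2 * Real.pi * I *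
    ((∑ j, (m i j : ℝ) * z j : ℝ) : ℂ)), ?_, ?_⟩
  · intro z n
    refine Finset.sum_congr rfl fun i _ => ?_
    congr 1
    have e1 : ((∑ j, (m i j : ℝ) * (z j + (n j : ℝ)) : ℝ) : ℂ) =
        ((∑ j, (m i j : ℝ) * z j : ℝ) : ℂ) + ((∑ j, m i j * n j : ℤ) : ℂ) := by
      push_cast
      rw [← Finset.sum_add_distrib]
      refine Finset.sum_congr rfl fun j _ => ?_
      ring
    rw [e1, mul_add, Complex.exp_add]
    have e2 : Complex.exp (2 * Real.pi * I * ((∑ j, m i j * n j : ℤ) : ℂ)) = 1 := by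
      rw [Complex.exp_eq_one_iff]
      exact ⟨∑ j, m i j * n j, by ring⟩
    rw [e2, mul_one]
  · intro z y Y hY
    set e := Fintype.equivFin ι with he
    refine ⟨Fintype.card ι, fun j => (c (e.symm j) / 4) * Complex.exp (2 * Real.pi * I *
      ((∑ l, (m (e.symm j) l : ℝ) * z l : ℝ) : ℂ)),
      fun j => 2 * Real.pi * ∑ l, (m (e.symm j) l : ℝ) * y l, ?_, ?_, ?_, ?_⟩
    · intro t
      unfold expSum
      show ∑ i, c i / 4 * cexp (2 * ↑Real.pi * I * ((∑ l, (m i l : ℝ) * (z l + t * y l) : ℝ) : ℂ)) = _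
      rw [← Equiv.sum_comp e.symm]
      refine Finset.sum_congr rfl fun j _ => ?_
      show c (e.symm j) / 4 * cexp (2 * ↑Real.pi * I *
          ((∑ l, (m (e.symm j) l : ℝ) * (z l + t * y l) : ℝ) : ℂ)) =
        (c (e.symm j) / 4 * cexp (2 * ↑Real.pi * I * ((∑ l, (m (e.symm j) l : ℝ) * z l : ℝ) : ℂ))) *
        cexp (I * (((2 * Real.pi * ∑ l, (m (e.symm j) l : ℝ) * y l) * t : ℝ) : ℂ))
      rw [mul_assoc (c (e.symm j) / 4), ← Complex.exp_add]
      congr 2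
      push_cast
      rw [Finset.mul_sum, Finset.mul_sum, Finset.mul_sum, Finset.sum_mul, Finset.mul_sum,
        ← Finset.sum_add_distrib]
      refine Finset.sum_congr rfl fun l _ => ?_
      ring
    · have h1 : ∀ j, ‖(c (e.symm j) / 4) * Complex.exp (2 * Real.pi * I *
          ((∑ l, (m (e.symm j) l : ℝ) * z l : ℝ) : ℂ))‖ = ‖c (e.symm j)‖ / 4 := by
        intro j
        have : 2 * Real.pi * I * ((∑ l, (m (e.symm j) l : ℝ) * z l : ℝ) : ℂ) =
            ((2 * Real.pi * ∑ l, (m (e.symm j) l : ℝ) * z l : ℝ) : ℂ) * I := by push_cast; ring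
        rw [norm_mul, this, Complex.norm_exp_ofReal_mul_I, mul_one, norm_div]
        norm_num
      simp_rw [h1]
      rw [Equiv.sum_comp e.symm (fun i => ‖c i‖ / 4), ← Finset.sum_div]
      linarith
    · intro j
      have hY0 : ∀ l : Fin D, 0 ≤ Y := fun l => (abs_nonneg _).trans (hY l)
      have hYY : 0 ≤ Y := hY0 ⟨0, hD⟩
      have h2 : |∑ l, (m (e.symm j) l : ℝ) * y l| ≤ D * (2 * (tgR D : ℝ) ^ D * Y) := by
        refine (Finset.abs_sum_le_sum_abs _ _).trans ?_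
        have : ∀ l ∈ (Finset.univ : Finset (Fin D)), |(m (e.symm j) l : ℝ) * y l| ≤
            2 * (tgR D : ℝ) ^ D * Y := by
          intro l _
          rw [abs_mul]
          exact mul_le_mul (hm _ _) (hY l) (abs_nonneg _) (by positivity)
        refine (Finset.sum_le_sum this).trans ?_
        rw [Finset.sum_const, Finset.card_univ, Fintype.card_fin, nsmul_eq_mul]
      rw [abs_mul, abs_of_nonneg (by positivity : (0 : ℝ) ≤ 2 * Real.pi)]
      calc 2 * Real.pi * |∑ l, (m (e.symm j) l : ℝ) * y l|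
          ≤ 2 * Real.pi * (D * (2 * (tgR D : ℝ) ^ D * Y)) :=
            mul_le_mul_of_nonneg_left h2 (by positivity)
        _ = (4 * Real.pi * D * (tgR D : ℝ) ^ D) * Y := by ring
        _ ≤ 100 ^ ((D + 3) ^ 2) * Y := mul_le_mul_of_nonneg_right (tgR_bound D) hYY
    · intro l
      have h1 := hlow z y
      have e1 : ∑ j : Fin (Fintype.card ι), ((c (e.symm j) / 4) * Complex.exp (2 * Real.pi * I *
          ((∑ l, (m (e.symm j) l : ℝ) * z l : ℝ) : ℂ))) *
          ((2 * Real.pi * ∑ l, (m (e.symm j) l : ℝ) * y l : ℝ) : ℂ) ^ 2 =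
          (Real.pi : ℂ) ^ 2 * ∑ i, c i * ((∑ j, (m i j : ℝ) * y j : ℝ) : ℂ) ^ 2 *
        Complex.exp (2 * Real.pi * I * ((∑ j, (m i j : ℝ) * z j : ℝ) : ℂ)) := by
        rw [Equiv.sum_comp e.symm (fun i => ((c i / 4) * Complex.exp (2 * Real.pi * I *
          ((∑ l, (m i l : ℝ) * z l : ℝ) : ℂ))) *
          ((2 * Real.pi * ∑ l, (m i l : ℝ) * y l : ℝ) : ℂ) ^ 2), Finset.mul_sum]
        refine Finset.sum_congr rfl fun i _ => ?_
        rw [Complex.ofReal_mul]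
        push_cast
        ring
      rw [e1, norm_mul, norm_pow, Complex.norm_real, Real.norm_eq_abs, abs_of_pos Real.pi_pos]
      set X := ‖∑ i, c i * ((∑ j, (m i j : ℝ) * y j : ℝ) : ℂ) ^ 2 *
        Complex.exp (2 * Real.pi * I * ((∑ j, (m i j : ℝ) * z j : ℝ) : ℂ))‖ with hX
      have hX0 : 0 ≤ X := norm_nonneg _
      have h3 : y l ^ 2 ≤ ∑ j, y j ^ 2 :=
        Finset.single_le_sum (f := fun j => y j ^ 2) (fun j _ => sq_nonneg _) (Finset.mem_univ l)
      have h4 : (1 / 40 : ℝ) ^ D * 40 ^ D = 1 := by rw [← mul_pow]; norm_num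
      have h5 : ∑ j, y j ^ 2 ≤ 40 ^ D * (2 * X) := by
        have h40 : (0 : ℝ) ≤ 40 ^ D := by positivity
        have := mul_le_mul_of_nonneg_left h1 h40
        calc ∑ j, y j ^ 2 = 40 ^ D * ((1 / 40 : ℝ) ^ D * ∑ j, y j ^ 2) := by
              rw [← mul_assoc, mul_comm ((40 : ℝ) ^ D), h4, one_mul]
          _ ≤ 40 ^ D * (2 * X) := this
      have h6 : (40 : ℝ) ^ D ≤ 100 ^ D := pow_le_pow_left₀ (by norm_num) (by norm_num) D
      have h7 : (1 : ℝ) ≤ Real.pi ^ 2 := by have := Real.pi_gt_three; nlinarith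
      calc y l ^ 2 ≤ 40 ^ D * (2 * X) := h3.trans h5
        _ ≤ 100 ^ D * (2 * X) := mul_le_mul_of_nonneg_right h6 (by positivity)
        _ ≤ 100 ^ D * (4 * (Real.pi ^ 2 * X)) := by
            apply mul_le_mul_of_nonneg_left _ (by positivity)
            nlinarith
        _ = 4 * 100 ^ D * (Real.pi ^ 2 * X) := by ring

end Crest.Agent.VDW
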